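import Vale.Agent.P287Q.Hb.Defs
import Vale.Agent.P287Q.Pv.Top

/-!
# A smooth projective variety as a compact orbit manifold: Segre embedding, line bundles
-/

set_option linter.unusedSectionVars false

namespace Vale.Agent.P287Q

open Set Function Topology Filter P291Z P269 P269.Holo P269.Mono P269.Tq Module

namespace Hb

variable {A W I I' : Type} [NormedRing A] [NormedAlgebra ℂ A] [NormedAddCommGroup W]
  [NormedSpace ℂ W] [Fintype I] [Fintype I'] {act : A → W → W} {S : Set W} {χ : A → ℂ}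
  {φ : W → I → ℂ}

/-- linear changes of the sections -/
theorem Gen.lin (h : Gen act S χ φ) (L : (I → ℂ) →ₗ[ℂ] I' → ℂ) (hL : ∀ x ∈ S, L (φ x) ≠ 0) :
    Gen act S χ fun x => L (φ x) :=
  ⟨h.hm, fun x hx => ((LinearMap.toContinuousLinearMap L).analyticAt _).comp (h.an x hx), hL,
    fun a ha x hx => by rw [h.eqv a ha x hx, map_smul]⟩

theorem Gen.lin' (h : Gen act S χ φ) (L : (I → ℂ) →ₗ[ℂ] I' → ℂ) (hL : Injective L) :
    Gen act S χ fun x => L (φ x) :=
  h.lin L fun x hx e => h.ne x hx (hL (e.trans (map_zero L).symm))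

theorem Emb.lin (h : Emb act S χ φ) (L : (I → ℂ) →ₗ[ℂ] I' → ℂ) (hL : Injective L) :
    Emb act S χ fun x => L (φ x) := by
  refine ⟨h.toGen.lin' L hL, fun x hx y hy t e => h.inj x hx y hy t (hL (by rw [e, map_smul])),
    fun x hx v hv t e => h.imm x hx v hv t (hL ?_)⟩
  have := ((LinearMap.toContinuousLinearMap L).hasFDerivAt.comp x
    (h.an x hx).differentiableAt.hasFDerivAt).fderiv
  rw [map_smul, ← e]
  exact (DFunLike.congr_fun this v).symm

theorem Gen.reindex (h : Gen act S χ φ) (e : I ≃ I') : Gen act S χ fun x i => φ x (e.symm i) :=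
  h.lin' (LinearMap.funLeft ℂ ℂ e.symm) (LinearMap.funLeft_injective_of_surjective _ _ _
    e.symm.surjective)

theorem Emb.reindex (h : Emb act S χ φ) (e : I ≃ I') : Emb act S χ fun x i => φ x (e.symm i) :=
  h.lin (LinearMap.funLeft ℂ ℂ e.symm) (LinearMap.funLeft_injective_of_surjective _ _ _
    e.symm.surjective)

/-- extension by a zero coordinate -/
def padL (I : Type) : (I → ℂ) →ₗ[ℂ] Option I → ℂ where
  toFun v o := o.elim 0 v
  map_add' v w := funext fun o => by cases o <;> simp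
  map_smul' c v := funext fun o => by cases o <;> simp

theorem padL_inj : Injective (padL I) := fun _ _ e => funext fun i => congrFun e (some i)

theorem Gen.pad (h : Gen act S χ φ) : Gen act S χ fun x (o : Option I) => o.elim 0 (φ x) :=
  h.lin' (padL I) padL_inj

theorem Emb.pad (h : Emb act S χ φ) : Emb act S χ fun x (o : Option I) => o.elim 0 (φ x) :=
  h.lin (padL I) padL_inj

theorem Emb.prj (h : Emb act S χ φ) : Prj act S := ⟨_, χ, _, h.reindex (Fintype.equivFin I)⟩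

theorem Emb.succ (h : Emb act S χ φ) : ∃ (N : ℕ) (ψ : W → Fin (N + 1) → ℂ), Emb act S χ ψ :=
  ⟨Fintype.card I, _, h.pad.reindex (Fintype.equivFinOfCardEq Fintype.card_option)⟩

theorem Gen.succ (h : Gen act S χ φ) : ∃ (N : ℕ) (ψ : W → Fin (N + 1) → ℂ), Gen act S χ ψ :=
  ⟨Fintype.card I, _, h.pad.reindex (Fintype.equivFinOfCardEq Fintype.card_option)⟩

theorem Gen.mono (h : Gen act S χ φ) {Z : Set W} (e : Z ⊆ S) : Gen act Z χ φ :=
  ⟨h.hm, fun x hx => h.an x (e hx), fun x hx => h.ne x (e hx), fun a ha x hx => h.eqv a ha x (e hx)⟩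

theorem hm_zpow {c : A → ℂ} (h : Tq.Hm c) (k : ℤ) : Tq.Hm fun a => c a ^ k :=
  ⟨by rw [h.one, one_zpow], fun a b ha hb => by rw [h.mul a b ha hb, mul_zpow],
    fun a ha => (h.cont a ha).zpow₀ k (.inl (h.isUnit ha).ne_zero)⟩

theorem hm_pow {c : A → ℂ} (h : Tq.Hm c) (k : ℕ) : Tq.Hm fun a => c a ^ k :=
  ⟨by rw [h.one, one_pow], fun a b ha hb => by rw [h.mul a b ha hb, mul_pow],
    fun a ha => (h.cont a ha).pow k⟩

theorem hm_prod {ι : Type} {c : ι → A → ℂ} (s : Finset ι) (h : ∀ i, Tq.Hm (c i)) :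
    Tq.Hm fun a => ∏ i ∈ s, c i a :=
  ⟨Finset.prod_eq_one fun i _ => (h i).one, fun a b ha hb => by
    rw [← Finset.prod_mul_distrib]
    exact Finset.prod_congr rfl fun i _ => (h i).mul a b ha hb,
    fun a ha => tendsto_finsetProd s fun i _ => (h i).cont a ha⟩

section lc

variable [FiniteDimensional ℂ A] [FiniteDimensional ℂ W] [IsAct act univ] [FP act S]

theorem lcq_fprod {ι : Type} {c : ι → A → ℂ} (s : Finset ι) (h : ∀ i, Tq.Hm (c i)) :
    lcq act S (fun a => ∏ i ∈ s, c i a) = ∑ i ∈ s, lcq act S (c i) := by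
  classical
  induction s using Finset.induction_on with
  | empty => simpa using lcq_one
  | insert i s hi ih =>
    simp only [Finset.prod_insert hi, Finset.sum_insert hi]
    rw [lcq_mul (h i) (hm_prod s h), ih]

theorem lcq_npow {c : A → ℂ} (h : Tq.Hm c) (k : ℕ) :
    lcq act S (fun a => c a ^ k) = (k : ℂ) • lcq act S c := by
  induction k with
  | zero => simpa using lcq_one
  | succ k ih =>
    simp only [pow_succ]
    rw [lcq_mul (hm_pow h k) h, ih, Nat.cast_succ, add_smul, one_smul]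

theorem lcq_ipow {c : A → ℂ} (h : Tq.Hm c) (k : ℤ) :
    lcq act S (fun a => c a ^ k) = (k : ℂ) • lcq act S c := by
  obtain ⟨m, rfl | rfl⟩ := k.eq_nat_or_neg
  · simpa using lcq_npow (act := act) (S := S) h m
  · have h1 := lcq_mul (act := act) (S := S) (hm_zpow h (-(m : ℤ))) (hm_pow h m)
    rw [lcq_congr Tq.Hm.const (c' := fun a => c a ^ (-(m : ℤ)) * c a ^ m) fun a ha => by
      rw [zpow_neg, zpow_natCast, inv_mul_cancel₀ (pow_ne_zero m (h.isUnit ha).ne_zero)],
      lcq_one, lcq_npow h] at h1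
    rw [eq_neg_of_add_eq_zero_left h1.symm]
    simp

end lc

end Hb

open Hb

variable {J R J' R' : Type} [Fintype J] [Fintype R] [Fintype J'] [Fintype R'] {π : J → R}
  {π' : J' → R'} {A : Set (J → ℂ)} {A' : Set (J' → ℂ)} {n : ℕ}

theorem PV.qm (h : PV π A n) : Tq.QM (scl π) A n :=
  ⟨h.fp, lin_scl π, h.compact, by simpa using h.dim,
    fun k => absurd (Int.natCast_nonneg n) (not_le.2 k)⟩

theorem hm_crd (r : R) : Tq.Hm fun t : R → ℂ => t r :=
  ⟨rfl, fun _ _ _ _ => rfl, fun _ _ => (continuous_apply r).continuousAt⟩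

theorem hm_all : Tq.Hm fun t : R → ℂ => ∏ r, t r := hm_prod _ hm_crd

theorem hm_chr (δ : R → ℤ) : Tq.Hm fun t : R → ℂ => ∏ r, t r ^ δ r :=
  hm_prod _ fun r => hm_zpow (hm_crd r) (δ r)

theorem hm_chrN (δ : R → ℕ) : Tq.Hm fun t : R → ℂ => ∏ r, t r ^ δ r :=
  hm_prod _ fun r => hm_pow (hm_crd r) (δ r)

theorem hm_pre (ρ : R → R') : Tq.Hm fun t : R' → ℂ => t ∘ ρ :=
  ⟨rfl, fun _ _ _ _ => rfl, fun _ _ => (continuous_pi fun r => continuous_apply (ρ r)).continuousAt⟩

theorem PV_an_crd (j : J) (y : J → ℂ) : AnalyticAt ℂ (fun z : J → ℂ => z j) y :=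
  (ContinuousLinearMap.proj j : (J → ℂ) →L[ℂ] ℂ).analyticAt _

/-- the fields of a block generate its line bundle -/
theorem MC.gen (h : MC π A) (r : R) [Fintype {j // π j = r}] :
    Gen (scl π) A (fun t => t r) fun y (j : {j // π j = r}) => y j :=
  ⟨hm_crd r, fun y _ => analyticAt_pi_iff.2 fun j => PV_an_crd j.1 y,
    fun _ hy e => let ⟨j, a, b⟩ := h.sub hy r; b (congrFun e ⟨j, a⟩),
    fun a _ y _ => funext fun j => by simp only [scl, j.2, Pi.smul_apply, smul_eq_mul]⟩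

theorem PV.gen (h : PV π A n) (r : R) [Fintype {j // π j = r}] :
    Gen (scl π) A (fun t => t r) fun y (j : {j // π j = r}) => y j := h.toMC.gen r

theorem PV_prod_update [DecidableEq R] (y : J → ℂ) (f : ∀ r, {j // π j = r}) {r : R}
    (j : {j // π j = r}) : ∏ r', y (update f r j r') = y j * ∏ r' ∈ Finset.univ.erase r, y (f r') := by
  rw [← Finset.mul_prod_erase _ _ (Finset.mem_univ r), update_self]
  exact congrArg _ (Finset.prod_congr rfl fun r' h => by
    rw [update_of_ne (Finset.ne_of_mem_erase h)])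

theorem PV_fderiv [DecidableEq R] [Fintype (∀ r, {j // π j = r})] (y v : J → ℂ)
    (f : ∀ r, {j // π j = r}) :
    fderiv ℂ (fun (y : J → ℂ) (f : ∀ r, {j // π j = r}) => ∏ r, y (f r)) y v f =
      ∑ r, (∏ r' ∈ Finset.univ.erase r, y (f r')) * v (f r) := by
  have h : ∀ f : ∀ r, {j // π j = r}, HasFDerivAt (fun y : J → ℂ => ∏ r, y (f r)) _ y := fun f =>
    HasFDerivAt.finsetProd (u := Finset.univ) fun r _ =>
      (ContinuousLinearMap.proj (f r).1 : (J → ℂ) →L[ℂ] ℂ).hasFDerivAt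
  rw [(hasFDerivAt_pi.2 h).fderiv]
  simp

/-- **The Segre embedding.** -/
theorem MC.segre (h : MC π A) [Fintype (∀ r, {j // π j = r})] :
    Emb (scl π) A (fun t => ∏ r, t r) fun y (f : ∀ r, {j // π j = r}) => ∏ r, y (f r) := by
  classical
  have sel : ∀ y ∈ A, ∃ f : ∀ r, {j // π j = r}, ∀ r, y (f r) ≠ 0 := fun y hy => by
    choose f a b using h.sub hy
    exact ⟨fun r => ⟨f r, a r⟩, b⟩
  refine ⟨⟨hm_all, fun y _ => analyticAt_pi_iff.2 fun f =>
    Finset.analyticAt_fun_prod _ fun r _ => PV_an_crd (f r).1 y, fun y hy e => ?_,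
    fun a _ y _ => funext fun f => ?_⟩, fun x _ y hy t e => ?_, fun x hx v _ t e => ?_⟩
  · obtain ⟨f, hf⟩ := sel y hy
    exact Finset.prod_ne_zero_iff.2 (fun r _ => hf r) (congrFun e f)
  · simp only [scl, Pi.smul_apply, smul_eq_mul, ← Finset.prod_mul_distrib]
    exact Finset.prod_congr rfl fun r _ => by rw [(f r).2]
  · obtain ⟨f, hf⟩ := sel y hy
    have e' : ∀ f : ∀ r, {j // π j = r}, ∏ r, y (f r) = t * ∏ r, x (f r) := congrFun e
    have hx' : ∀ r, x (f r) ≠ 0 := fun r k => Finset.prod_ne_zero_iff.2 (fun r _ => hf r)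
      (by rw [e' f, Finset.prod_eq_zero (Finset.mem_univ r) k, mul_zero])
    refine ⟨fun r => y (f r) / x (f r), unit_iff.2 fun r => div_ne_zero (hf r) (hx' r),
      funext fun j => ?_⟩
    have e1 := e' (update f (π j) ⟨j, rfl⟩)
    have e2 := e' f
    rw [PV_prod_update, PV_prod_update] at e1
    rw [← Finset.mul_prod_erase _ _ (Finset.mem_univ (π j)),
      ← Finset.mul_prod_erase _ (fun r => x (f r)) (Finset.mem_univ (π j))] at e2
    have hP : ∏ r' ∈ Finset.univ.erase (π j), y (f r') ≠ 0 :=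
      Finset.prod_ne_zero_iff.2 fun r _ => hf r
    rw [scl, div_mul_eq_mul_div, eq_div_iff (hx' _)]
    refine mul_right_cancel₀ hP ?_
    linear_combination x (f (π j)) * e1 - x j * e2
  · obtain ⟨f, hf⟩ := sel x hx
    have e' : ∀ f : ∀ r, {j // π j = r},
        ∑ r, (∏ r' ∈ Finset.univ.erase r, x (f r')) * v (f r) = t * ∏ r, x (f r) := fun f =>
      (PV_fderiv x v f).symm.trans (congrFun e f)
    refine ⟨fun r => v (f r) / x (f r), ?_⟩
    rw [fderiv_orbit]
    funext j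
    have e1 := e' (update f (π j) ⟨j, rfl⟩)
    have e2 := e' f
    have k : ∀ (g : ∀ r, {j // π j = r}) (i : {i // π i = π j}), ∀ r ∈ Finset.univ.erase (π j),
        (∏ r' ∈ Finset.univ.erase r, x (update g (π j) i r')) * v (update g (π j) i r) =
          x i * ((∏ r' ∈ (Finset.univ.erase r).erase (π j), x (g r')) * v (g r)) := by
      intro g i r hr
      have hr' := Finset.ne_of_mem_erase hr
      rw [← Finset.mul_prod_erase _ _ (Finset.mem_erase.2 ⟨hr'.symm, Finset.mem_univ _⟩),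
        update_self, update_of_ne hr', mul_assoc]
      congr 2
      exact Finset.prod_congr rfl fun r' h => by rw [update_of_ne (Finset.ne_of_mem_erase h)]
    have k2 := k f (f (π j))
    simp only [update_eq_self] at k2
    rw [PV_prod_update, ← Finset.add_sum_erase _ _ (Finset.mem_univ (π j)),
      Finset.sum_congr rfl (k f ⟨j, rfl⟩), ← Finset.mul_sum, update_self,
      Finset.prod_congr rfl fun r' h => by rw [update_of_ne (Finset.ne_of_mem_erase h)]] at e1
    rw [← Finset.add_sum_erase _ _ (Finset.mem_univ (π j)), Finset.sum_congr rfl k2,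
      ← Finset.mul_sum, ← Finset.mul_prod_erase _ (fun r => x (f r)) (Finset.mem_univ (π j))] at e2
    have hP : ∏ r' ∈ Finset.univ.erase (π j), x (f r') ≠ 0 :=
      Finset.prod_ne_zero_iff.2 fun r _ => hf r
    rw [scl, div_mul_eq_mul_div, eq_div_iff (hf _)]
    refine mul_right_cancel₀ hP ?_
    linear_combination x (f (π j)) * e1 - x j * e2

theorem PV.segre (h : PV π A n) [Fintype (∀ r, {j // π j = r})] :
    Emb (scl π) A (fun t => ∏ r, t r) fun y (f : ∀ r, {j // π j = r}) => ∏ r, y (f r) :=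
  h.toMC.segre

theorem MC.prj (h : MC π A) : Prj (scl π) A := by
  classical
  exact h.segre.prj

theorem PV.prj (h : PV π A n) : Prj (scl π) A := h.toMC.prj

theorem MC.emb' (h : MC π A) :
    ∃ (N : ℕ) (φ : (J → ℂ) → Fin (N + 1) → ℂ), Emb (scl π) A (fun t => ∏ r, t r) φ := by
  classical
  exact h.segre.succ

theorem PV.emb' (h : PV π A n) :
    ∃ (N : ℕ) (φ : (J → ℂ) → Fin (N + 1) → ℂ), Emb (scl π) A (fun t => ∏ r, t r) φ := h.toMC.emb'

/-- the class of the line bundle of a character -/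
theorem MC.lcq_zpow (h : MC π A) (δ : R → ℤ) : lcq (scl π) A (fun t => ∏ r, t r ^ δ r) =
    ∑ r, (δ r : ℂ) • lcq (scl π) A fun t => t r := by
  have := isAct_scl π
  have := h.fp
  rw [lcq_fprod _ fun r => hm_zpow (hm_crd r) (δ r)]
  exact Finset.sum_congr rfl fun r _ => lcq_ipow (hm_crd r) (δ r)

theorem MC.lcq_pow (h : MC π A) (δ : R → ℕ) : lcq (scl π) A (fun t => ∏ r, t r ^ δ r) =
    ∑ r, (δ r : ℂ) • lcq (scl π) A fun t => t r := by
  simpa using h.lcq_zpow fun r => δ r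

theorem MC.lcq_all (h : MC π A) :
    lcq (scl π) A (fun t => ∏ r, t r) = ∑ r, lcq (scl π) A fun t => t r := by
  simpa using h.lcq_pow 1

theorem PV.lcq_zpow (h : PV π A n) (δ : R → ℤ) : lcq (scl π) A (fun t => ∏ r, t r ^ δ r) =
    ∑ r, (δ r : ℂ) • lcq (scl π) A fun t => t r := h.toMC.lcq_zpow δ

theorem MC.lcq_deg (h : MC π A) {c : (R → ℂ) → ℂ} (hc : Tq.Hm c) : H.IsDeg 2 (lcq (scl π) A c) :=
  have := isAct_scl π
  have := h.fp
  Tq.lcq_deg hc

/-- coordinate projections are holomorphic -/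
theorem hol_coord (ι : J → J') (ρ : R → R') (hπ : ∀ j, π' (ι j) = ρ (π j))
    (hm : MapsTo (fun w => w ∘ ι) A' A) :
    Tq.Hol (scl π') (scl π) A' A (fun t => t ∘ ρ) fun w => w ∘ ι :=
  have := isAct_scl π
  have := isAct_scl π'
  Tq.Hol.of_an (hm_pre ρ) hm (fun y _ => analyticAt_pi_iff.2 fun j => PV_an_crd (ι j) y)
    fun _ _ _ _ => funext fun j => by simp only [scl, Function.comp, hπ]

theorem hol_coord_mk {ι : J → J'} {ρ : R → R'} (hπ : ∀ j, π' (ι j) = ρ (π j))
    (hm : MapsTo (fun w => w ∘ ι) A' A) (w : A') :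
    (hol_coord ι ρ hπ hm).q (Quo.mk (scl π') w) = Quo.mk (scl π) ⟨w.1 ∘ ι, hm w.2⟩ := rfl

theorem map_lcq_coord' (h : MC π A) (h' : MC π' A') {ι : J → J'} {ρ : R → R'}
    (hπ : ∀ j, π' (ι j) = ρ (π j)) (hm : MapsTo (fun w => w ∘ ι) A' A) {c : (R → ℂ) → ℂ}
    (hc : Tq.Hm c) :
    H.map (hol_coord ι ρ hπ hm).q (lcq (scl π) A c) = lcq (scl π') A' fun t => c (t ∘ ρ) :=
  have := isAct_scl π
  have := isAct_scl π'
  have := h.fp
  have := h'.fp
  (hol_coord ι ρ hπ hm).toEqh.map_lcq hc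

theorem map_lcq_coord (h : MC π A) (h' : MC π' A') {ι : J → J'} {ρ : R → R'}
    (hπ : ∀ j, π' (ι j) = ρ (π j)) (hm : MapsTo (fun w => w ∘ ι) A' A) (r : R) :
    H.map (hol_coord ι ρ hπ hm).q (lcq (scl π) A fun t => t r) = lcq (scl π') A' fun t => t (ρ r) :=
  map_lcq_coord' h h' hπ hm (hm_crd r)

end Vale.Agent.P287Q
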