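import Vale.Agent.P287Q.Hb.HRg
import Vale.Agent.P287Q.Cub.N1

/-!
# The classes of line bundles have type `(1, 1)`
-/

set_option linter.style.haveILetI false

namespace Vale.Agent.P287Q

open Set P291Z P269 P269.Holo P269.Tq P269.Hdg Hb

theorem Hb.Gen.lcq_mem {A W I : Type} [NormedRing A] [NormedAlgebra ℂ A] [NormedAddCommGroup W]
    [NormedSpace ℂ W] [FiniteDimensional ℂ A] [FiniteDimensional ℂ W] [Fintype I]
    {act : A → W → W} [IsAct act univ] {S : Set W} {χ : A → ℂ} {φ : W → I → ℂ} {n : ℤ}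
    (g : Gen act S χ φ) (h : QM act S n) : lcq act S χ ∈ QT act S 1 1 := by
  obtain ⟨N, ψ, g⟩ := g.succ
  haveI := isAct_smul (N := N)
  have s := Cub.sc_smul (N := N) (act := fun a x => a • x) fun _ _ => rfl
  have h0 : IsCI (Empty.elim : Empty → MP N) Empty.elim :=
    ⟨fun j => j.elim, fun j => j.elim, fun _ _ => linearIndependent_empty_type⟩
  haveI := h.fp
  haveI := (s.qm h0 (n := N) rfl).fp
  have f : Tq.Hol act (fun a x => a • x) S (cone (Empty.elim : Empty → MP N)) χ ψ :=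
    ⟨⟨g.hm, fun x hx => ⟨g.ne x hx, fun j => j.elim⟩,
      fun x hx => (g.an x hx).continuousAt.continuousWithinAt, g.eqv⟩,
      fun x hx => ⟨ψ, g.an x hx, .of_forall fun _ => rfl⟩⟩
  exact f.toEqh.map_lcq Tq.Hm.id ▸ Mf.map_mem_QT h f (s.h_mem h0 (n := N) rfl)

theorem Var.lc_mem {n : ℕ} (V : Var n) (χ : V.R → ℤ) : V.lc χ ∈ V.T 1 1 := by
  rw [Var.lc, V.pv.lcq_zpow]
  exact sum_mem fun r _ => Submodule.smul_mem _ _ ((V.pv.gen r).lcq_mem V.qm)

theorem Var.lc_Hg {n : ℕ} (V : Var n) (χ : V.R → ℤ) : V.lc χ ∈ V.Hg 1 1 :=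
  (V.T_nat 1 1).le (V.lc_mem χ)

end Vale.Agent.P287Q
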