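import Vale.Agent.P287Q.Hb.Defs
import Vale.Agent.P272.K.Stmt

/-!
# Charts of a projective manifold, projective bundles and blow-ups (definitions)
-/

namespace Vale.Agent.P287Q.Hb

open Set Function Topology Filter P291Z P269 P269.Coh P269.Coh.PS

section mdl

open P269.Hdg
open Vale.Agent.P272.K (Cm Chart At)

/-- `M` is the projectivisation of the cone `C`, embedded by `ε` in the space of projectors;
the chart `e` is induced by `p e`, and `σ e` is a holomorphic section over it with values in the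
affine hyperplane `lf (b e) = 1`. -/
structure Mdl {N : ℕ} (C : Set (E N)) {n : ℕ} {M : Type}
    [TopologicalSpace M] [ChartedSpace (Cm n) M] (ε : M → TT N) (b : Chart n M → E N)
    (σ : Chart n M → Cm n → E N) (p : Chart n M → E N → Cm n) : Prop where
  emb : Topology.IsEmbedding ε
  srj : ∀ y ∈ C, ∃ m, ε m = prP y
  an : ∀ e m, At e m → AnalyticAt ℂ (σ e) (e m)
  mem : ∀ e m, At e m → σ e (e m) ∈ C
  prp : ∀ e m, At e m → prP (σ e (e m)) = ε m
  lf1 : ∀ e m, At e m → lf (b e) (σ e (e m)) = 1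
  pan : ∀ e m, At e m → ∀ y ∈ C, prP y = ε m → AnalyticAt ℂ (p e) y
  peq : ∀ e m, At e m → ∀ y ∈ C, prP y = ε m → p e y = e m

end mdl

/-- `p : E → S` has the cohomology of a bundle of projective spaces of dimension `r`. -/
structure LHB (S E : PS) (r : ℕ) (p : C(E.X, S.X)) (ξ : H E.X) : Prop where
  dim : E.n = S.n + r
  deg : H.IsDeg 2 ξ
  lh : Bijective fun v : Fin (r + 1) → H S.X => ∑ k, H.map p (v k) * ξ ^ (k : ℕ)
  int : ∀ a, E.J (H.map p a * ξ ^ r) = S.J a

/-- `π : B → Z` has the cohomology of the blow-up along `ι : S → Z` (codimension `r + 1`) with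
exceptional divisor `j : E → B`. -/
structure BlT (Z S B E : PS) (ι : C(S.X, Z.X)) (π : C(B.X, Z.X)) (j : C(E.X, B.X))
    (p : C(E.X, S.X)) (r : ℕ) (ξ : H E.X) : Prop where
  pb : LHB S E r p ξ
  dimB : B.n = Z.n
  dimE : B.n = E.n + 1
  sq : ∀ x, π (j x) = ι (p x)
  int : ∀ a, B.J (H.map π a) = Z.J a
  si : ∀ x, H.map j (push j x) = -(ξ * x)
  bij : Bijective fun x : H Z.X × (Fin r → H S.X) =>
    H.map π x.1 + push j (∑ k, H.map p (x.2 k) * ξ ^ (k : ℕ))

section pb

variable {J R K : Type} [Fintype J] [Fintype R] [Fintype K]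

/-- `V` is a holomorphic subbundle of rank `r + 1` of the trivial bundle. -/
structure SubB (π : J → R) (C : Set (J → ℂ)) (V : (J → ℂ) → Submodule ℂ (K → ℂ)) (r : ℕ) :
    Prop where
  inv : ∀ t, IsUnit t → ∀ y ∈ C, V (scl π t y) = V y
  loc : ∀ y ∈ C, ∃ s : (J → ℂ) → Fin (r + 1) → K → ℂ, AnalyticAt ℂ s y ∧
    ∀ᶠ z in 𝓝[C] y, LinearIndependent ℂ (s z) ∧ V z = Submodule.span ℂ (range (s z))

/-- The multicone over the projective bundle of `V`. -/
def pbA (C : Set (J → ℂ)) (V : (J → ℂ) → Submodule ℂ (K → ℂ)) : Set (J ⊕ K → ℂ) :=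
  {w | w ∘ .inl ∈ C ∧ w ∘ .inr ≠ 0 ∧ w ∘ .inr ∈ V (w ∘ .inl)}

end pb

end Vale.Agent.P287Q.Hb
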