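import Vale.Agent.P269.Coh.Geo
import Vale.Agent.P269.Prj.Quo
import Vale.Agent.P269.Loc.FE

/-!
# P269, cohomological packages: compact complex manifolds presented as free quotients
-/

set_option linter.unusedSectionVars false
set_option linter.style.haveILetI false

namespace Vale.Agent.P269.Tq

open Set Function Topology Filter Module P291Z Holo Mono Coh

variable {A A' A'' W W' W'' : Type} [NormedRing A] [NormedAlgebra ℂ A] [NormedAddCommGroup W]
  [NormedSpace ℂ W] [NormedRing A'] [NormedAlgebra ℂ A'] [NormedAddCommGroup W'] [NormedSpace ℂ W']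
  [NormedRing A''] [NormedAlgebra ℂ A''] [NormedAddCommGroup W''] [NormedSpace ℂ W'']
  [FiniteDimensional ℂ A] [FiniteDimensional ℂ W] [FiniteDimensional ℂ A'] [FiniteDimensional ℂ W']
  [FiniteDimensional ℂ A''] [FiniteDimensional ℂ W'']
  {act : A → W → W} {act' : A' → W' → W'} {act'' : A'' → W'' → W''} {S Z : Set W} {S' Z' : Set W'}
  {S'' : Set W''} {f : W → W'} {f' : W' → W''} {θ : A → A'} {θ' : A' → A''}
  [IsAct act univ] [IsAct act' univ] [IsAct act'' univ] {n m : ℤ}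

/-- The orbit space is a compact complex manifold of dimension `n` (empty if `n < 0`). -/
structure QM (act : A → W → W) (S : Set W) (n : ℤ) : Prop where
  fp : FP act S
  lin : ∀ a, IsUnit a → IsLinearMap ℂ (act a)
  cpt : CompactSpace (Quo act S)
  dim : Dim act S n.toNat
  neg : n < 0 → S = ∅

/-- A holomorphic equivariant map. -/
structure Hol (act : A → W → W) (act' : A' → W' → W') (S : Set W) (S' : Set W') (θ : A → A')
    (f : W → W') : Prop extends Eqh act act' S S' θ f where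
  an : ∀ x ∈ S, ∃ Φ, AnalyticAt ℂ Φ x ∧ ∀ᶠ y in 𝓝[S] x, f y = Φ y

namespace QMA

theorem mk_eq {x y : S} (e : Quo.mk act x = Quo.mk act y) : ∃ a, IsUnit a ∧ y.1 = act a x.1 := by
  have h1 := fun x => IsAct.one (act := act) x (mem_univ x)
  have h2 := fun (a b : Aˣ) x => IsAct.mul (act := act) _ _ a.isUnit b.isUnit x (mem_univ x)
  have h : Equivalence fun x y : S => ∃ a, IsUnit a ∧ y.1 = act a x.1 :=
    ⟨fun x => ⟨1, isUnit_one, (h1 _).symm⟩,
      fun ⟨_, ⟨g, rfl⟩, h⟩ => ⟨_, g⁻¹.isUnit, by rw [h, ← h2, Units.inv_mul, h1]⟩,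
      fun ⟨_, ⟨g, rfl⟩, h⟩ ⟨_, ⟨g', rfl⟩, h'⟩ => ⟨_, g'.isUnit.mul g.isUnit, by rw [h', h, h2]⟩⟩
  exact h.eqvGen_iff.1 (Quot.eqvGen_exact e)

theorem fp_sub (h : FP act S) (e : Z ⊆ S) (hm : ∀ a, IsUnit a → ∀ x ∈ Z, act a x ∈ Z)
    (hl : LocallyCompactSpace Z) : FP act Z :=
  haveI := h.toIsAct.mono e hm
  { this with
    proper := Sp.properSMul_mono e
    lc := hl
    free := fun x g e' => h.free (Sp.incl act e x) g (congrArg (Sp.incl act e) e') }

section top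

variable {X Y U : Type} [TopologicalSpace X] [TopologicalSpace Y] [TopologicalSpace U]
  [CompactSpace X]

theorem intg_toH (β : BM X) (a : Hc X) : β a = Loc.intg β (Fl.toH a) := by
  obtain ⟨a, ha, rfl⟩ := cls_surj a
  rw [Fl.toH_cls ha, Loc.intg_hcls β ha.2, ev_eq]

theorem intg_eq_comp (β : BM X) : Loc.intg β = β ∘ₗ MVA.ofH X := LinearMap.ext fun c => by
  obtain ⟨a, rfl⟩ := Fl.toH_bijective.2 c
  rw [LinearMap.comp_apply, MVA.ofH_toH, intg_toH]

theorem oemb [T2Space Y] {π : X → Y} (hπ : Continuous π) {C : Set Y} (hC : IsClosed C) {j : U → X}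
    (hj : IsOpenEmbedding j) (hr : range j = (π ⁻¹' C)ᶜ) (inj : InjOn π (π ⁻¹' C)ᶜ)
    (surj : Cᶜ ⊆ range π) : IsOpenEmbedding (π ∘ j) ∧ range (π ∘ j) = Cᶜ := by
  have h0 : ∀ u, j u ∈ (π ⁻¹' C)ᶜ := fun u => hr ▸ mem_range_self u
  have h1 : ∀ V, (π ∘ j) '' V = (C ∪ π '' (j '' V)ᶜ)ᶜ := fun V => by
    refine Subset.antisymm ?_ fun y hy => ?_
    · rintro _ ⟨v, hv, rfl⟩ (h | ⟨x, hx, e⟩)
      · exact h0 v h
      · exact hx ⟨v, hv, inj (h0 v) (fun h => h0 v (mem_of_eq_of_mem (s := C) e.symm h))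
          e.symm⟩
    · obtain ⟨x, rfl⟩ := surj fun h => hy (.inl h)
      obtain ⟨v, hv, rfl⟩ : x ∈ j '' V := by_contra fun h => hy (.inr ⟨x, h, rfl⟩)
      exact ⟨v, hv, rfl⟩
  refine ⟨.of_continuous_injective_isOpenMap (hπ.comp hj.continuous)
    (fun u v e => hj.injective (inj (h0 u) (h0 v) e)) fun V hV => ?_,
    Subset.antisymm (range_subset_iff.2 h0) fun y hy => ?_⟩
  · rw [h1]
    exact (hC.union (hπ.isClosedMap _ (hj.isOpenMap V hV).isClosed_compl)).isOpen_compl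
  · obtain ⟨x, rfl⟩ := surj hy
    obtain ⟨u, rfl⟩ : x ∈ range j := hr ▸ hy
    exact ⟨u, rfl⟩

end top

end QMA

open QMA

namespace Hol

/-- The map of orbit spaces. -/
abbrev q (h : Hol act act' S S' θ f) : C(Quo act S, Quo act' S') := h.toEqh.toEqv.qm

theorem of_an (hm : Hm θ) (maps : MapsTo f S S') (an : ∀ x ∈ S, AnalyticAt ℂ f x)
    (eqv : ∀ a, IsUnit a → ∀ x ∈ S, f (act a x) = act' (θ a) (f x)) : Hol act act' S S' θ f :=
  ⟨⟨hm, maps, fun x hx => (an x hx).continuousAt.continuousWithinAt, eqv⟩,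
    fun x hx => ⟨f, an x hx, .of_forall fun _ => rfl⟩⟩

theorem incl (e : Z ⊆ S) : Hol act act Z S (fun a => a) id :=
  ⟨.incl e, fun _ _ => ⟨id, analyticAt_id, .of_forall fun _ => rfl⟩⟩

theorem q_incl (e : Z ⊆ S) : (incl (act := act) e).q = qinc act e := rfl

theorem mono (h : Hol act act' S S' θ f) (e : Z ⊆ S) (e' : MapsTo f Z Z') :
    Hol act act' Z Z' θ f :=
  ⟨h.toEqh.mono e e', fun x hx => (h.an x (e hx)).imp fun _ k =>
    ⟨k.1, k.2.filter_mono (nhdsWithin_mono _ e)⟩⟩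

theorem comp (h : Hol act act' S S' θ f) (h' : Hol act' act'' S' S'' θ' f') :
    Hol act act'' S S'' (fun a => θ' (θ a)) fun x => f' (f x) := by
  refine ⟨⟨h.hm.comp h'.hm, h'.maps.comp h.maps, h'.cont.comp h.cont h.maps, fun a ha x hx => ?_⟩,
    fun x hx => ?_⟩
  · rw [h.eqv a ha x hx, h'.eqv _ (h.hm.isUnit ha) _ (h.maps hx)]
  · obtain ⟨Φ, h1, h2⟩ := h.an x hx
    obtain ⟨Ψ, h3, h4⟩ := h'.an _ (h.maps hx)
    refine ⟨Ψ ∘ Φ, AnalyticAt.comp (h2.self_of_nhdsWithin hx ▸ h3) h1, ?_⟩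
    filter_upwards [h2, ((h.cont x hx).tendsto_nhdsWithin h.maps).eventually h4] with y b1 b2
    rw [b2, b1, comp_apply]

theorem q_comp (h : Hol act act' S S' θ f) (h' : Hol act' act'' S' S'' θ' f') (x : Quo act S) :
    h'.q (h.q x) = (h.comp h').q x := by
  obtain ⟨x, rfl⟩ := mk_surj x
  rfl

theorem q_mono (h : Hol act act' S S' θ f) (e : Z ⊆ S) (e' : MapsTo f Z Z') (e'' : Z' ⊆ S')
    (x : Quo act Z) : qinc act' e'' ((h.mono e e').q x) = h.q (qinc act e x) := by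
  obtain ⟨x, rfl⟩ := mk_surj x
  rfl

theorem q_ext {θ₁ : A → A'} {f₁ : W → W'} (h : Hol act act' S S' θ f) (k : Hol act act' S S' θ₁ f₁)
    (e : ∀ x ∈ S, ∃ b, IsUnit b ∧ f₁ x = act' b (f x)) : h.q = k.q := Eqv.qm_ext _ _ e

theorem q_injective (h : Hol act act' S S' θ f) (e : ∀ x ∈ S, ∀ y ∈ S, ∀ b, IsUnit b →
    f y = act' b (f x) → ∃ a, IsUnit a ∧ y = act a x) : Injective h.q :=
  mk_surj.forall₂.2 fun x y k =>
    let ⟨b, h1, h2⟩ := mk_eq (x := ⟨f x, h.maps x.2⟩) (y := ⟨f y, h.maps y.2⟩) k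
    Quot.sound (e x x.2 y y.2 b h1 h2)

theorem q_surjective (h : Hol act act' S S' θ f)
    (e : ∀ y ∈ S', ∃ x ∈ S, ∃ b, IsUnit b ∧ y = act' b (f x)) : Surjective h.q :=
  mk_surj.forall.2 fun y =>
    let ⟨x, hx, k⟩ := e y y.2
    ⟨Quo.mk act ⟨x, hx⟩, Quot.sound k⟩

end Hol

/-- holomorphic open embeddings preserve the fundamental class -/
theorem QMA.res_fnd [FP act S] [FP act' S'] {d : ℕ} (h : Dim act S d) (h' : Dim act' S' d)
    (lin : ∀ a, IsUnit a → IsLinearMap ℂ (act' a)) (φ : Hol act act' S S' θ f)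
    (hi : IsOpenEmbedding φ.q) : res φ.q (fnd act' S') = fnd act S := by
  have := (h'.ho lin).res_fund_of_mor (F := sp act S) h.holOrb φ.toEqh.mor
    (by rw [Eqh.mor_map]; exact hi) (fun t => holAt_spv_iff.2 (φ.an _ t.val_mem))
    (fun t g hg => ⟨1, one_smul _ _, (map_one _).trans (FP.free _ g hg).symm⟩) (l := 1)
    fun t => Nat.card_eq_one_iff_unique.2 ⟨⟨fun a b => Subtype.ext
      ((FP.free t _ a.2.1).trans (FP.free t _ b.2.1).symm)⟩, ⟨⟨1, one_smul _ _, map_one _⟩⟩⟩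
  rw [Eqh.mor_map, h'.ho_fund, Nat.cast_one, one_smul] at this
  exact this.trans h.fnd_eq.symm

namespace QM

theorem of_mfd [h : FP act S] (lin : ∀ a, IsUnit a → IsLinearMap ℂ (act a))
    [CompactSpace (Quo act S)] (hm : ∀ x ∈ S, ∃ k : ℕ, (k : ℤ) = finrank ℂ A + n ∧ MfdAt S k x) :
    QM act S n := by
  have h1 : ∀ x ∈ S, 0 ≤ n ∧ MfdAt S (finrank ℂ A + n.toNat) x := fun x hx => by
    obtain ⟨k, h1, h2⟩ := hm x hx
    have := FP.finrank_le (x := Sp.of act x hx) (h2.isMfd hx)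
    exact ⟨by omega, (show k = finrank ℂ A + n.toNat by omega) ▸ h2⟩
  exact ⟨h, lin, ‹_›, fun x hx => (h1 x hx).2,
    fun hn => eq_empty_of_forall_notMem fun x hx => (h1 x hx).1.not_gt hn⟩

variable (h : QM act S n)
include h

theorem ori : Orb.Ori (2 * n) (fnd act S) := by
  have := h.fp
  have h1 := h.dim.ori
  by_cases hn : n < 0
  · have : IsEmpty (Quo act S) := ⟨mk_surj.forall.2 fun x => (h.neg hn).subset x.2⟩
    exact ⟨Orb.BM_eq_of_isEmpty 0 (fnd act S) ▸ Orb.isDeg_zero' _, h1.fin, isEmptyElim⟩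
  · rwa [Int.toNat_of_nonneg (not_lt.1 hn)] at h1

theorem pd : PD (Quo act S) n (Loc.intg (fnd act S)) := by
  have := h.fp
  have := h.cpt
  rw [intg_eq_comp]
  exact pd_of_ori h.ori

/-- The space with its integral. -/
@[reducible] noncomputable def ps : PS where
  X := Quo act S
  n := n
  J := Loc.intg (fnd act S)
  pd := h.pd

theorem geo : h.ps.Geo :=
  haveI := h.fp
  haveI := h.cpt
  ⟨(inferInstance : Nice (Quo act S)), h.cpt, _, h.ori, intg_toH _⟩

theorem isFund : IsFund act S (fnd act S) :=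
  haveI := h.fp
  h.dim.isFund

theorem J_eq_ev (c : H (Quo act S)) : h.ps.J c = ev (fnd act S) (rep c) :=
  haveI := h.cpt
  (ev_rep _ _).symm

theorem mfd {x : W} (hx : x ∈ S) : ∃ k : ℕ, (k : ℤ) = finrank ℂ A + n ∧ MfdAt S k x :=
  have : 0 ≤ n := not_lt.1 fun hn => (h.neg hn).subset hx
  ⟨_, by omega, h.dim x hx⟩

theorem unique (h' : QM act S m) (hne : S.Nonempty) : n = m := by
  obtain ⟨x, hx⟩ := hne
  obtain ⟨k, e, h1⟩ := h.mfd hx
  obtain ⟨k', e', h2⟩ := h'.mfd hx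
  have := h1.unique h2
  omega

theorem qinc_injective (e : Z ⊆ S) : Injective (qinc act e) :=
  (Hol.incl e).q_injective fun _ _ _ _ b hb k => ⟨b, hb, k⟩

/-- **transverse zero sets** -/
theorem zero {ι : Type} [Fintype ι] {c : ι → A → ℂ} {s : W → ι → ℂ} (hs : Sec act S c s)
    (hZ : ∀ x, x ∈ Z ↔ x ∈ S ∧ s x = 0) (ha : ∀ x ∈ Z, AnalyticAt ℂ s x)
    (ht : ∀ x (hx : x ∈ S), x ∈ Z → ∀ w, ∃ v ∈ tan (Subtype.val : S → W) ⟨x, hx⟩,
      fderiv ℂ s x v = w) : QM act Z (n - Fintype.card ι) := by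
  have := h.fp
  have := h.fp.lc
  have := h.cpt
  have e : Z ⊆ S := fun x hx => ((hZ x).1 hx).1
  have hc : IsClosed (Subtype.val ⁻¹' Z : Set S) := by
    rw [show (Subtype.val ⁻¹' Z : Set S) = {x : S | s x = 0} from
      Set.ext fun x => (hZ x).trans (and_iff_right x.2)]
    exact isClosed_eq hs.cont.domRestrict continuous_const
  have := fp_sub h.fp e (fun a hu x hx => (hZ _).2 ⟨h.fp.mem a hu x (e hx), funext fun i => by
    rw [hs.eqv a hu x (e hx), ((hZ x).1 hx).2, Pi.zero_apply, mul_zero]⟩)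
    (IsClosedEmbedding.inclusion e hc).locallyCompactSpace
  have := (isClosedEmbedding_qinc (act := act) e hc).compactSpace
  refine of_mfd h.lin fun x hx => ?_
  obtain ⟨k, h1, h2⟩ := h.mfd (e hx)
  have h3 : finrank ℂ (ι → ℂ) ≤ k := by
    rw [← h2.2.finrank_tan, ← finrank_top, ← top_le_iff.1 (show ⊤ ≤ (tan (Subtype.val : S → W)
      ⟨x, e hx⟩).map (fderiv ℂ s x : W →ₗ[ℂ] ι → ℂ) from fun w _ => ht x _ hx w)]
    exact Submodule.finrank_map_le _ _
  refine ⟨k - finrank ℂ (ι → ℂ), ?_, hx, (IsMfd.sub (ι := (Subtype.val : S → W))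
    (j := inclusion e) (IsEmbedding.inclusion e) (z := ⟨x, hx⟩) h2.2 (ha x hx) (ht x _ hx)
    (.of_forall fun y => ⟨fun ⟨z, k⟩ => k ▸ ((hZ _).1 z.2).2,
      fun k => ⟨⟨y, (hZ _).2 ⟨y.2, k⟩⟩, rfl⟩⟩) (Nat.sub_add_cancel h3)).1⟩
  rw [finrank_fintype_fun_eq_card] at h3 ⊢
  omega

/-- the class of a transverse zero set -/
theorem push_one {ι : Type} [Fintype ι] {c : ι → A → ℂ} {s : W → ι → ℂ} (hs : Sec act S c s)
    (hZ : ∀ x, x ∈ Z ↔ x ∈ S ∧ s x = 0) (ha : ∀ x ∈ Z, AnalyticAt ℂ s x)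
    (ht : ∀ x (hx : x ∈ S), x ∈ Z → ∀ w, ∃ v ∈ tan (Subtype.val : S → W) ⟨x, hx⟩,
      fderiv ℂ s x v = w) (k : QM act Z m) (e : Z ⊆ S) :
    PS.push (X := k.ps) (Y := h.ps) (qinc act e) 1 =
      (haveI := h.fp; (∏ i, lce act S (hs.hm i)).1) := by
  have := h.fp
  have := k.fp
  have := h.cpt
  have := k.cpt
  refine h.ps.ext_left fun b => ?_
  rw [PS.J_push_mul, one_mul]
  show Loc.intg (fnd act Z) (H.map (qinc act e) b) = Loc.intg (fnd act S) (_ * b)
  rcases Z.eq_empty_or_nonempty with h0 | ⟨x, hx⟩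
  · have : IsEmpty (Quo act Z) := ⟨mk_surj.forall.2 fun x => h0.subset x.2⟩
    rw [hs.prod_eq_zero fun x hx e => h0.subset ((hZ x).2 ⟨hx, e⟩), Subalgebra.coe_zero, zero_mul,
      map_zero, Subsingleton.elim (H.map (qinc act e) b) 0, map_zero]
  · have h1 : 0 ≤ n - Fintype.card ι := not_lt.1 fun hn => ((h.zero hs hZ ha ht).neg hn).subset hx
    have h2 := h.dim
    rw [show n.toNat = (n - Fintype.card ι).toNat + Fintype.card ι by omega] at h2
    rw [← Loc.intg_push, (hs.gys h2 h.lin hZ ha ht e).2.2, Loc.intg_cap,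
      Ch.Hev.commute (Subtype.prop _)]

/-- the class of a divisor -/
theorem push_one' {c : A → ℂ} {s : W → ℂ} (hc : Hm c) (hs : ContinuousOn s S)
    (he : ∀ a, IsUnit a → ∀ x ∈ S, s (act a x) = c a * s x)
    (hZ : ∀ x, x ∈ Z ↔ x ∈ S ∧ s x = 0) (ha : ∀ x ∈ Z, AnalyticAt ℂ s x)
    (ht : ∀ x (hx : x ∈ S), x ∈ Z → ∃ v ∈ tan (Subtype.val : S → W) ⟨x, hx⟩, fderiv ℂ s x v ≠ 0)
    (k : QM act Z m) (e : Z ⊆ S) :
    PS.push (X := k.ps) (Y := h.ps) (qinc act e) 1 = lcq act S c := by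
  have := h.fp
  refine (h.push_one (ι := Unit) (c := fun _ => c) (s := fun x _ => s x)
    ⟨fun _ => hc, continuousOn_pi.2 fun _ => hs, fun a h1 x hx _ => he a h1 x hx⟩
    (fun x => (hZ x).trans (and_congr_right' ⟨fun h => funext fun _ => h, fun h => congrFun h ()⟩))
    (fun x hx => analyticAt_pi_iff.2 fun _ => ha x hx) (fun x hx h1 w => ?_) k e).trans ?_
  · obtain ⟨v, h2, h3⟩ := ht x hx h1
    refine ⟨(w () / fderiv ℂ s x v) • v, Submodule.smul_mem _ _ h2, funext fun _ => ?_⟩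
    rw [fderiv_pi fun _ => (ha x h1).differentiableAt, ContinuousLinearMap.pi_apply, map_smul,
      smul_eq_mul, div_mul_cancel₀ _ h3]
  · rw [Fintype.prod_unique]
    exact lce_val hc

variable (h' : QM act' S' n) (φ : Hol act act' S S' θ f)
include h' φ

theorem bij_map (hb : Bijective φ.q) : Bijective (H.map φ.q) :=
  haveI := h.cpt
  haveI := h'.fp
  H.map_bijective_of_homeomorph
    ((isHomeomorph_iff_continuous_bijective.2 ⟨φ.q.continuous, hb⟩).homeomorph _)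

/-- **isomorphisms preserve the integral** -/
theorem J_map (hb : Bijective φ.q) (b : H (Quo act' S')) : h.ps.J (H.map φ.q b) = h'.ps.J b := by
  have := h.fp
  have := h'.fp
  have := h.cpt
  have := h'.cpt
  have hh : IsHomeomorph φ.q := isHomeomorph_iff_continuous_bijective.2 ⟨φ.q.continuous, hb⟩
  show Loc.intg (fnd act S) (H.map φ.q b) = Loc.intg (fnd act' S') b
  rw [← Loc.intg_push, ← res_fnd h.dim h'.dim h'.lin φ hh.isOpenEmbedding, push_res_homeo hh]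

/-- **birational maps preserve the integral** -/
theorem J_map_bir (k : QM act' Z' m) (hm : m < n) (e : Z' ⊆ S')
    (inj : InjOn φ.q (φ.q ⁻¹' range (qinc act' e))ᶜ) (surj : (range (qinc act' e))ᶜ ⊆ range φ.q)
    (b : H (Quo act' S')) : h.ps.J (H.map φ.q b) = h'.ps.J b := by
  have := h.fp
  have := h'.fp
  have := k.fp
  have := h.fp.lc
  have := h.cpt
  have := h'.cpt
  have := k.cpt
  have := FiniteDimensional.complete ℂ W
  have hi := (qinc act' e).continuous.isClosedEmbedding (h'.qinc_injective e)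
  let U := {x | ∃ hx : x ∈ S, φ.q (Quo.mk act ⟨x, hx⟩) ∉ range (qinc act' e)}
  have eU : U ⊆ S := fun x hx => hx.1
  have hU : IsOpen (Subtype.val ⁻¹' U : Set S) := by
    rw [show (Subtype.val ⁻¹' U : Set S) =
      (fun x => φ.q (Quo.mk act x)) ⁻¹' (range (qinc act' e))ᶜ from
      Set.ext fun x => ⟨fun h => h.2, fun h => ⟨x.2, h⟩⟩]
    exact hi.isClosed_range.isOpen_compl.preimage (φ.q.continuous.comp continuous_mk)
  have := fp_sub h.fp eU (fun a ha x hx => ⟨h.fp.mem a ha x hx.1, by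
    rw [mk_act ha hx.1]; exact hx.2⟩) (IsOpenEmbedding.inclusion eU hU).locallyCompactSpace
  have hd : Dim act U n.toNat := fun x hx => (h.dim x hx.1).congr
    (((ev_sub hx.1 (p := fun s => s ∈ U)).1 (hU.mem_nhds hx)).mono fun s k => ⟨k, @eU s⟩)
  have hj := isOpenEmbedding_qinc (act := act) eU hU
  have hr : range (qinc act eU) = (φ.q ⁻¹' range (qinc act' e))ᶜ :=
    Set.ext (Sp.surjective_mk.forall.2 fun x =>
      (mk_mem_range_qinc eU).trans ⟨fun h => h.2, fun h => ⟨x.val_mem, h⟩⟩)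
  obtain ⟨h1, h2⟩ := oemb φ.q.continuous hi.isClosed_range hj hr inj surj
  have h3 : ⇑(φ.mono eU (φ.maps.mono_left eU)).q = φ.q ∘ qinc act eU :=
    funext (mk_surj.forall.2 fun _ => rfl)
  have h4 := res_fnd hd h'.dim h'.lin _ (h3 ▸ h1)
  show Loc.intg (fnd act S) (H.map φ.q b) = Loc.intg (fnd act' S') b
  rw [← Loc.intg_push, Orb.eq_of_res_of_top hi h1 h2 (k.ori.top.mono (by omega))
    (h.ori.deg.push _) h'.ori.deg ?_]
  rw [res_push h1 hj (IsPr.of_compact φ.q.continuous) IsPr.id (fun _ => rfl) (by rw [h2, hr]; rfl),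
    push_id', ← h3, h4]
  exact res_fnd hd h.dim h.lin (Hol.incl eU) hj

end QM

end Vale.Agent.P269.Tq
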