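import Vale.Agent.P287Q.H3.Mf
import Vale.Agent.P287Q.Hb.D2
import Vale.Agent.P287Q.Hb.QM
import Vale.Agent.P287Q.Mf.Quo

/-!
# Hodge types on an orbit space: products and vanishing
-/

set_option linter.unusedSectionVars false
set_option linter.style.haveILetI false

namespace Vale.Agent.P287Q.Hb

open Set Function P291Z P269 P269.Holo P269.Mono P269.Tq

variable {A W : Type} [NormedRing A] [NormedAlgebra ℂ A] [NormedAddCommGroup W] [NormedSpace ℂ W]
  [FiniteDimensional ℂ A] [FiniteDimensional ℂ W] {act : A → W → W} {S : Set W}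
  {n p q p' q' : ℤ} {a b : H (Quo act S)}

theorem QT_neg (ha : a ∈ QT act S p q) (k : ¬(0 ≤ p ∧ 0 ≤ q)) : a = 0 := by
  rwa [QT, HT, if_neg k, Submodule.mem_bot] at ha

theorem QT_deg (ha : a ∈ QT act S p q) : H.IsDeg (p + q) a := by
  by_cases k : 0 ≤ p ∧ 0 ≤ q
  · lift p to ℕ using k.1
    lift q to ℕ using k.2
    rw [QT, HT_nat] at ha
    exact_mod_cast Mf.IsHd.isDeg ha
  · rw [QT_neg ha k]
    exact ⟨0, isDeg_zero _, map_zero _⟩

variable [IsAct act univ]

theorem QT_mul (h : QM act S n) (ha : a ∈ QT act S p q) (hb : b ∈ QT act S p' q') :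
    a * b ∈ QT act S (p + p') (q + q') := by
  by_cases k : 0 ≤ p ∧ 0 ≤ q
  swap
  · rw [QT_neg ha k, zero_mul]
    exact zero_mem _
  by_cases k' : 0 ≤ p' ∧ 0 ≤ q'
  swap
  · rw [QT_neg hb k', mul_zero]
    exact zero_mem _
  lift p to ℕ using k.1
  lift q to ℕ using k.2
  lift p' to ℕ using k'.1
  lift q' to ℕ using k'.2
  have := h.fp
  have := h.fp.lc
  have := h.cpt
  letI := Mf.cs h.dim
  haveI := Mf.isManifold h.dim
  have := (Mf.pres h.dim).mem_HT.2 (H3.stMul ⟨n.toNat, Quo act S⟩ _ _ _ _ _ _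
    ((Mf.pres h.dim).mem_HT.1 ha) ((Mf.pres h.dim).mem_HT.1 hb))
  rwa [Nat.cast_add, Nat.cast_add] at this

theorem QT_out (h : QM act S n) (ha : a ∈ QT act S p q) (k : n < p ∨ n < q) : a = 0 := by
  by_cases k' : 0 ≤ p ∧ 0 ≤ q
  swap
  · exact QT_neg ha k'
  lift p to ℕ using k'.1
  lift q to ℕ using k'.2
  have := h.fp
  have := h.fp.lc
  have := h.cpt
  by_cases hn : n < 0
  · have : IsEmpty (Quo act S) := ⟨fun x => by
      obtain ⟨y, -⟩ := mk_surj x
      exact (h.neg hn).le y.2⟩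
    exact Subsingleton.elim _ _
  letI := Mf.cs h.dim
  haveI := Mf.isManifold h.dim
  exact H3.Mf1.eq_zero ((Mf.pres h.dim).mem_HT.1 ha) (by omega)

theorem QT_zero (h : QM act S n) (ha : H.IsDeg 0 a) : a ∈ QT act S 0 0 := by
  have := h.fp
  have := h.fp.lc
  have := h.cpt
  letI := Mf.cs h.dim
  haveI := Mf.isManifold h.dim
  exact (Mf.pres h.dim).mem_HT.2 ((H3.stZero ⟨n.toNat, Quo act S⟩).1 a ha)

theorem QT_one (h : QM act S n) : 1 ∈ QT act S 0 0 := QT_zero h H.isDeg_one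

theorem QT_pow (h : QM act S n) (ha : a ∈ QT act S p q) (k : ℕ) :
    a ^ k ∈ QT act S (k * p) (k * q) := by
  induction k with
  | zero => simpa using QT_one h
  | succ k ih =>
    rw [pow_succ, Nat.cast_succ, add_one_mul, add_one_mul]
    exact QT_mul h ih ha

end Vale.Agent.P287Q.Hb
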