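import Vale.Agent.P287Q.Hb.Re
import Vale.Agent.P287Q.Mf.Defs
import Vale.Agent.P269.Hdg.Near

/-!
# Hodge types on compact complex manifolds presented as quotients (definitions)
-/

set_option linter.unusedSectionVars false

namespace Vale.Agent.P287Q.Hb

open Set Function Topology Filter P291Z P269 P269.Holo P269.Mono P269.Coh P269.Tq Mf
open scoped ContDiff ComplexConjugate

section ty

variable {W W' Y Y' : Type} [NormedAddCommGroup W] [NormedSpace ℂ W] [NormedAddCommGroup W']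
  [NormedSpace ℂ W'] [TopologicalSpace Y] [TopologicalSpace Y']

theorem frm_lin {k : ℕ} {f g : (Fin (k + 1) → W) → ℂ} (hf : ContDiff ℝ ∞ f) (hg : ContDiff ℝ ∞ g)
    (c : ℂ) (x : W) (v : Fin k → W) :
    frm (fun y => c * f y + g y) x v = c * frm f x v + frm g x v := by
  have h1 : ContDiffAt ℝ k f fun _ => x := hf.contDiffAt.of_le (by exact_mod_cast le_top)
  have h2 : ContDiffAt ℝ k g fun _ => x := hg.contDiffAt.of_le (by exact_mod_cast le_top)
  have e : iteratedFDeriv ℝ k (fun y => c * f y + g y) (fun _ => x) =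
      c • iteratedFDeriv ℝ k f (fun _ => x) + iteratedFDeriv ℝ k g fun _ => x := by
    rw [← iteratedFDeriv_const_smul_apply h1]
    exact iteratedFDeriv_add_apply (h1.const_smul c) h2
  simp only [frm, e, add_apply, smul_apply,
    smul_eq_mul, mul_add, Finset.sum_add_distrib, Finset.mul_sum, mul_left_comm]

theorem hdAt_lin {S : Set W} {T : W → Set W} {π : S → Y} {p q : ℕ} {a b : Coch Y} {x : S}
    (ha : HdAt T π p q a x) (hb : HdAt T π p q b x) (c : ℂ) : HdAt T π p q (c • a + b) x := by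
  obtain ⟨f, f1, f2, f3⟩ := ha
  obtain ⟨g, g1, g2, g3⟩ := hb
  refine ⟨fun y => c * f y + g y, (contDiff_const.mul f1).add g1, ?_, fun t v hv => ?_⟩
  · filter_upwards [f2, g2] with y e1 e2
    rw [← e1, ← e2]; rfl
  · rw [frm_lin f1 g1, frm_lin f1 g1, f3 t v hv, g3 t v hv]; ring

theorem hdAt_zero {S : Set W} (T : W → Set W) (π : S → Y) (p q : ℕ) (x : S) :
    HdAt T π p q 0 x :=
  ⟨fun _ => 0, contDiff_const, .of_forall fun _ => rfl, fun _ _ _ => by simp [frm]⟩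

theorem isHd_iff {S : Set W} {T : W → Set W} {π : S → Y} {p q : ℕ} {c : H Y} :
    IsHd T π p q c ↔ ∃ a, supp (δ a) = ∅ ∧ hcls a = c ∧ IsDeg (p + q : ℕ) a ∧
      ∀ x, HdAt T π p q a x :=
  ⟨fun ⟨a, h1, h2, h3⟩ => ⟨a.1, a.2, (hcls_val a).trans h2, h1, h3⟩,
    fun ⟨a, h1, h2, h3, h4⟩ => ⟨⟨a, h1⟩, h3, (hcls_val _).symm.trans h2, h4⟩⟩

/-- The classes of type `(p, q)`. -/
noncomputable def HN (S : Set W) (π : S → Y) (p q : ℕ) : Submodule ℂ (H Y) where
  carrier := {c | IsHd (fun x => tn S x) π p q c}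
  zero_mem' := isHd_iff.2 ⟨0, cocycle_zero, hcls_zero, fun _ _ => rfl, hdAt_zero _ π p q⟩
  add_mem' ha hb := by
    obtain ⟨a, h1, rfl, h2, h2'⟩ := isHd_iff.1 ha
    obtain ⟨b, h3, rfl, h4, h4'⟩ := isHd_iff.1 hb
    exact isHd_iff.2 ⟨a + b, cocycle_add h1 h3, hcls_add h1 h3, h2.add h4,
      fun x => one_smul ℂ a ▸ hdAt_lin (h2' x) (h4' x) 1⟩
  smul_mem' c _ ha := by
    obtain ⟨a, h1, rfl, h2, h2'⟩ := isHd_iff.1 ha
    exact isHd_iff.2 ⟨c • a, cocycle_smul c h1, hcls_smul c h1, h2.smul c,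
      fun x => add_zero (c • a) ▸ hdAt_lin (h2' x) (hdAt_zero _ π p q x) c⟩

theorem mem_HN {S : Set W} {π : S → Y} {p q : ℕ} {c : H Y} :
    c ∈ HN S π p q ↔ IsHd (fun x => tn S x) π p q c := Iff.rfl

/-- The classes of type `(p, q)`, for integers. -/
noncomputable def HT (S : Set W) (π : S → Y) (p q : ℤ) : Submodule ℂ (H Y) :=
  if 0 ≤ p ∧ 0 ≤ q then HN S π p.toNat q.toNat else ⊥

theorem HT_nat (S : Set W) (π : S → Y) (p q : ℕ) : HT S π p q = HN S π p q := by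
  simp [HT]

/-- `g` is holomorphic: it has local analytic lifts. -/
def HolM (S : Set W) (π : S → Y) (S' : Set W') (π' : S' → Y') (g : Y → Y') : Prop :=
  ∀ x : S, ∃ Φ : W → W', AnalyticAt ℂ Φ x ∧
    ∀ᶠ y : S in 𝓝 x, ∃ h : Φ y ∈ S', g (π y) = π' ⟨Φ y, h⟩

end ty

/-- A Hodge structure on the cohomology ring. -/
structure HG (Y : PS) (T : ℤ → ℤ → Submodule ℂ (H Y.X)) : Prop where
  deg : ∀ p q, ∀ c ∈ T p q, H.IsDeg (p + q) c
  one : 1 ∈ T 0 0
  mul : ∀ p q p' q', ∀ a ∈ T p q, ∀ b ∈ T p' q', a * b ∈ T (p + p') (q + q')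
  out : ∀ p q, p < 0 ∨ q < 0 ∨ Y.n < p ∨ Y.n < q → T p q = ⊥
  span : ∀ c, c ∈ ⨆ i : ℤ × ℤ, T i.1 i.2
  cj : ∀ p q, ∀ c ∈ T p q, cj c ∈ T q p

/-- The Hodge-Riemann relations in the middle degree for the class `h`. -/
def HR (Y : PS) (T : ℤ → ℤ → Submodule ℂ (H Y.X)) (h : H Y.X) : Prop :=
  ∀ p q : ℕ, (p + q : ℤ) = Y.n → ∀ x ∈ T p q, x ≠ 0 → h * x = 0 →
    ∃ r : ℝ, 0 < r ∧ (-1) ^ ((p + q) * (p + q - 1) / 2) * Complex.I ^ p * (-Complex.I) ^ q *
      Y.J (x * cj x) = r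

section emb

variable {A W I : Type} [NormedRing A] [NormedAlgebra ℂ A] [NormedAddCommGroup W]
  [NormedSpace ℂ W] [Fintype I]

/-- The types on an orbit space. -/
noncomputable abbrev QT (act : A → W → W) (S : Set W) : ℤ → ℤ → Submodule ℂ (H (Quo act S)) :=
  HT S (Quo.mk act)

/-- `φ` are sections without common zero of the line bundle of the character `χ`. -/
structure Gen (act : A → W → W) (S : Set W) (χ : A → ℂ) (φ : W → I → ℂ) : Prop where
  hm : Hm χ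
  an : ∀ x ∈ S, AnalyticAt ℂ φ x
  ne : ∀ x ∈ S, φ x ≠ 0
  eqv : ∀ a, IsUnit a → ∀ x ∈ S, φ (act a x) = χ a • φ x

/-- `φ` embeds the orbit space in projective space. -/
structure Emb (act : A → W → W) (S : Set W) (χ : A → ℂ) (φ : W → I → ℂ) : Prop
    extends Gen act S χ φ where
  inj : ∀ x ∈ S, ∀ y ∈ S, ∀ t : ℂ, φ y = t • φ x → ∃ a, IsUnit a ∧ y = act a x
  imm : ∀ x ∈ S, ∀ v ∈ tn S x, ∀ t : ℂ, fderiv ℂ φ x v = t • φ x →
    ∃ ξ : A, v = fderiv ℂ (fun a => act a x) 1 ξ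

/-- The orbit space is projective. -/
def Prj (act : A → W → W) (S : Set W) : Prop :=
  ∃ (k : ℕ) (χ : A → ℂ) (φ : W → Fin k → ℂ), Emb act S χ φ

end emb

section cone

open P269.Hdg

variable {N : ℕ}

/-- The cone over a closed complex submanifold of dimension `n` of projective space. -/
structure SubC (C : Set (E N)) (n : ℕ) : Prop where
  ne : ∀ x ∈ C, x ≠ 0
  inv : ∀ t : ℂ, t ≠ 0 → ∀ x ∈ C, t • x ∈ C
  cl : ∀ x ∈ closure C, x ≠ 0 → x ∈ C
  mfd : ∀ x ∈ C, MfdAt C (n + 1) x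

/-- The forms that vanish on the subspace `T`. -/
noncomputable def nul (T : Submodule ℂ (E N)) : Submodule ℂ (Λ N) where
  carrier := {o | ∀ P : E N →L[ℝ] E N, (∀ v, P v ∈ T) → mp (tr P) o = 0}
  zero_mem' _ _ := map_zero _
  add_mem' ha hb P h := by rw [map_add, ha P h, hb P h, add_zero]
  smul_mem' c _ ha P h := by rw [map_smul, ha P h, smul_zero]

/-- The forms that vanish on the tangent space of `C` at `y`. -/
noncomputable abbrev nl (C : Set (E N)) (y : E N) : Submodule ℂ (Λ N) := nul (tn C y)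

/-- Smooth forms whose restriction to `C` vanishes. -/
noncomputable def Nl (C : Set (E N)) : Submodule ℂ (SM N) where
  carrier := {u | ∀ y ∈ C, u.1 y ∈ nl C y}
  zero_mem' := fun _ _ => zero_mem _
  add_mem' hu hv y hy := add_mem (hu y hy) (hv y hy)
  smul_mem' c _ hu y hy := Submodule.smul_mem _ c (hu y hy)

end cone

end Vale.Agent.P287Q.Hb
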