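import Vale.Agent.P287Q.Hb.D2
import Vale.Agent.P287Q.Hb.PV
import Vale.Agent.P287Q.Pv.BlL
import Vale.Agent.P269.Grr.PBA

/-!
# The projective bundle of a holomorphic subbundle: Leray-Hirsch and the fibre integral
-/

set_option linter.unusedSectionVars false
set_option linter.style.haveILetI false

namespace Vale.Agent.P287Q.Hb

open Set Function Topology Filter Module P291Z P269 P269.Holo P269.Mono P269.Tq P269.Ch P269.Orb

variable {J R K : Type} [Fintype J] [Fintype R] [Fintype K] {π : J → R} {C U : Set (J → ℂ)}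
  {V : (J → ℂ) → Submodule ℂ (K → ℂ)} {r m : ℕ} {y : J → ℂ}

namespace SubB

/-- local frames with their coordinates -/
theorem frm (h : SubB π C V r) (hy : y ∈ C) :
    ∃ (G : (J → ℂ) → (Fin (r + 1) → ℂ) →L[ℂ] K → ℂ)
      (L : (J → ℂ) → (K → ℂ) →L[ℂ] Fin (r + 1) → ℂ), AnalyticAt ℂ G y ∧ AnalyticAt ℂ L y ∧
      ∀ᶠ z in 𝓝 y, (∀ a, L z (G z a) = a) ∧ (z ∈ C → ∀ u, u ∈ V z ↔ ∃ a, G z a = u) := by
  obtain ⟨s, h1, h2⟩ := h.loc y hy
  let G : (J → ℂ) → (Fin (r + 1) → ℂ) →L[ℂ] K → ℂ := fun z =>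
    LinearMap.toContinuousLinearMap (Fintype.linearCombination ℂ (s z))
  have a : AnalyticAt ℂ G y := analyticAt_of_apply fun v =>
    (Finset.analyticAt_fun_sum (f := fun i z => v i • s z i) Finset.univ fun i _ =>
      analyticAt_const.fun_smul (analyticAt_pi_iff.1 h1 i)).congr
      (.of_forall fun z => (Fintype.linearCombination_apply ℂ (s z) v).symm)
  obtain ⟨L, l1, l2⟩ := exists_linv a
    (linearIndependent_iff_injective_fintypeLinearCombination.1 (h2.self_of_nhdsWithin hy).1)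
  refine ⟨G, L, a, l1, l2.and ((eventually_nhdsWithin_iff.1 h2).mono fun z b c u => ?_)⟩
  rw [(b c).2, ← Fintype.range_linearCombination]
  rfl

theorem rank (h : SubB π C V r) (hy : y ∈ C) : finrank ℂ (V y) = r + 1 := by
  obtain ⟨s, -, h2⟩ := h.loc y hy
  obtain ⟨a, b⟩ := h2.self_of_nhdsWithin hy
  rw [b, finrank_span_eq_card a, Fintype.card_fin]

theorem mono (h : SubB π C V r) (e : U ⊆ C) : SubB π U V r :=
  ⟨fun t a y b => h.inv t a y (e b), fun y a => (h.loc y (e a)).imp fun _ b =>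
    ⟨b.1, b.2.filter_mono (nhdsWithin_mono _ e)⟩⟩

theorem mem_of_tendsto (h : SubB π C V r) (hy : y ∈ C) {X : Type*} {l : Filter X} [l.NeBot]
    {z : X → J → ℂ} {w : X → K → ℂ} {u : K → ℂ} (hz : Tendsto z l (𝓝 y)) (hw : Tendsto w l (𝓝 u))
    (e : ∀ᶠ x in l, z x ∈ C ∧ w x ∈ V (z x)) : u ∈ V y := by
  obtain ⟨G, L, g, g', k⟩ := h.frm hy
  have a := (an_apply (g.comp (f := Prod.fst) (x := (y, u)) analyticAt_fst)
    (an_apply (g'.comp (f := Prod.fst) (x := (y, u)) analyticAt_fst) analyticAt_snd)).continuousAt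
  refine (k.self_of_nhds.2 hy u).2 ⟨L y u, tendsto_nhds_unique_of_eventuallyEq
    (a.tendsto.comp (hz.prodMk_nhds hw)) hw ?_⟩
  filter_upwards [hz.eventually k, e] with x b c
  obtain ⟨v, d⟩ := (b.2 c.1 _).1 c.2
  exact (congrArg (fun v => G (z x) (L (z x) v)) d.symm).trans ((congrArg _ (b.1 v)).trans d)

end SubB

theorem pb_mc (hC : MC π C) (hV : SubB π C V r) : MC (blP K π) (pbA C V) where
  sub w a o := o.rec ((ne_iff.1 a.2.1).elim fun i b => ⟨.inr i, rfl, b⟩)
    fun o => (hC.sub a.1 o).elim fun j b => ⟨.inl j, congrArg some b.1, b.2⟩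
  inv t ht w a := by
    have b : IsUnit (t ∘ some) := unit_iff.2 fun _ => unit_iff.1 ht _
    exact ⟨hC.inv _ b _ a.1, smul_ne_zero (r := t none) (unit_iff.1 ht _) a.2.1,
      (hV.inv _ b _ a.1).ge (Submodule.smul_mem _ (t none) a.2.2)⟩
  cl w a b := by
    have c : w ∘ .inl ∈ C := hC.cl _ (map_mem_closure (f := fun s : J ⊕ K → ℂ => s ∘ Sum.inl)
      (by fun_prop) a fun _ d => d.1) fun o => by
        obtain ⟨j | i, d, e⟩ := b (some o)
        exacts [⟨j, Option.some.inj d, e⟩, nomatch d]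
    have := mem_closure_iff_nhdsWithin_neBot.1 a
    refine ⟨c, fun d => ?_, hV.mem_of_tendsto c (l := 𝓝[pbA C V] w)
      ((an_pre Sum.inl w).continuousAt.tendsto.mono_left nhdsWithin_le_nhds)
      ((an_pre Sum.inr w).continuousAt.tendsto.mono_left nhdsWithin_le_nhds)
      (eventually_mem_nhdsWithin.mono fun _ d => ⟨d.1, d.2.2⟩)⟩
    obtain ⟨j | i, e, f⟩ := b none
    exacts [(nomatch e), f (congrFun d i)]

theorem pb_mfd (hV : SubB π C V r) {w : J ⊕ K → ℂ} (hw : w ∈ pbA C V)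
    (h : MfdAt C m (w ∘ .inl)) : MfdAt (pbA C V) (m + (r + 1)) w := by
  obtain ⟨G, L, g, g', k⟩ := hV.frm hw.1
  obtain ⟨a, ha⟩ := (k.self_of_nhds.2 hw.1 _).1 hw.2.2
  have a1 := an_apply (g.comp (f := Prod.fst) (x := (w ∘ .inl, a)) analyticAt_fst) analyticAt_snd
  have e : Sum.elim (w ∘ .inl) (G (w ∘ .inl) a) = w := by rw [ha, Sum.elim_comp_inl_inr]
  have := (h.prod (.univ a)).iso (S' := pbA C V) (F := fun p => Sum.elim p.1 (G p.1 p.2))
    (G := fun s => (s ∘ .inl, L (s ∘ .inl) (s ∘ .inr))) (an_elim analyticAt_fst a1)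
    ((an_pre _ _).prod (an_apply (AnalyticAt.comp (g := L) (by exact g') (an_pre _ _))
      (an_pre _ _))) ?_ ?_
  · rwa [finrank_fin_fun, e] at this
  · filter_upwards [(continuousAt_fst (p := (w ∘ .inl, a))).eventually k,
      a1.continuousAt.eventually_ne (ha ▸ hw.2.1)] with p b c d
    exact ⟨⟨d.1, c, (b.2 d.1 _).2 ⟨_, rfl⟩⟩, Prod.ext rfl (b.1 _)⟩
  · filter_upwards [(an_pre Sum.inl
      (Sum.elim (w ∘ .inl) (G (w ∘ .inl) a))).continuousAt.eventually k] with s b c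
    obtain ⟨v, d⟩ := (b.2 c.1 _).1 c.2.2
    refine ⟨⟨c.1, trivial⟩, ?_⟩
    rw [← d, b.1, d, Sum.elim_comp_inl_inr]

/-- **The projective bundle is a smooth projective variety.** -/
theorem pb_pv (hC : PV π C m) (hV : SubB π C V r) : PV (blP K π) (pbA C V) (m + r) :=
  ⟨pb_mc hC.toMC hV, fun w a => by
    rw [Fintype.card_option, show m + r + (Fintype.card R + 1) = m + Fintype.card R + (r + 1) by ring]
    exact pb_mfd hV a (hC.mfd _ a.1)⟩

theorem pb_hol : Hol (scl (blP K π)) (scl π) (pbA C V) C (fun t => t ∘ some)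
    fun w => w ∘ Sum.inl := hol_coord Sum.inl some (fun _ => rfl) fun _ a => a.1

section opn

variable {A W X Y X' Y' : Type} [NormedRing A] [NormedAlgebra ℂ A] [NormedAddCommGroup W]
  [NormedSpace ℂ W] [FiniteDimensional ℂ A] [FiniteDimensional ℂ W] {act : A → W → W} {S Z : Set W}
  [IsAct act univ] {n : ℤ} [TopologicalSpace X] [TopologicalSpace Y] [TopologicalSpace X']
  [TopologicalSpace Y']

/-- open invariant subsets -/
theorem qm_open [FP act S] (h : QM act S n) (e : Z ⊆ S) (hZ : IsOpen (Subtype.val ⁻¹' Z : Set S))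
    (hi : ∀ a, IsUnit a → ∀ x ∈ Z, act a x ∈ Z) : ∃ _ : FP act Z, Dim act Z n.toNat ∧
      IsOpenEmbedding (qinc act e) ∧ res (qinc act e) (fnd act S) = fnd act Z := by
  have := h.fp.lc
  have := FiniteDimensional.complete ℂ W
  have := QMA.fp_sub h.fp e hi (IsOpenEmbedding.inclusion e hZ).locallyCompactSpace
  have hd : Dim act Z n.toNat := fun x hx => (h.dim x (e hx)).congr
    (((ev_sub (e hx) (p := fun s => s ∈ Z)).1 (hZ.mem_nhds hx)).mono fun s k => ⟨k, @e s⟩)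
  have hj := isOpenEmbedding_qinc (act := act) e hZ
  exact ⟨this, hd, hj, QMA.res_fnd hd h.dim h.lin (Hol.incl e) hj⟩

theorem isPr_sq {j : Y' → Y} (hj : Continuous j) {j' : X' → X} (hj' : IsEmbedding j') {f : X → Y}
    (hf : IsPr f) {g : X' → Y'} (hg : Continuous g) (hi : Injective j)
    (sq : ∀ u, f (j' u) = j (g u)) (hr : f ⁻¹' range j ⊆ range j') : IsPr g := by
  refine ⟨hg, fun T hT => hj'.isCompact_iff.2 ?_⟩
  rw [show j' '' (g ⁻¹' T) = f ⁻¹' (j '' T) from Subset.antisymm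
    (by rintro _ ⟨u, a, rfl⟩; exact ⟨_, a, (sq u).symm⟩) fun x ⟨t, a, b⟩ => by
      obtain ⟨u, rfl⟩ := hr ⟨t, b⟩
      exact ⟨u, mem_of_eq_of_mem (s := T) (hi ((sq u).symm.trans b.symm)) a, rfl⟩]
  exact hf.pre _ (hT.image hj)

theorem push_xi_homeo {Y : Loc.HO} {E : VB Y.toSp} {hE han} {hr : E.r = r + 1} [Nice X]
    {e : C(X, E.PS.X)} (he : IsHomeomorph e) {p : C(X, Y.X)} (hp : p = E.pp.map.comp e) {ξ : H X}
    (hξ : ξ = H.map e E.xi.1) {β : BM X} (hβ : res e (Grr.psF hE han r hr) = β) :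
    push p (cap (ξ ^ r) β) = Y.fund := by
  rw [← hβ, hξ, ← map_pow, ← res_cap he.isOpenEmbedding, hp, ContinuousMap.coe_comp,
    ← push_push (.of_isHomeomorph he) E.isPr_pp, push_res_homeo he, Grr.push_xi_top]

end opn

variable [IsAct (scl π) univ] [IsAct (scl (blP K π)) univ]

section cmp

variable [FP (scl π) U] {E : VB (sp (scl π) U)} {P : (K → ℂ) →L[ℂ] E.W}

/-- the group acts trivially on the representation -/
def PbT {Y : Ch.Sp} (E : VB Y) : Prop := ∀ (g : Y.G) (w : E.W), g • w = w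

variable (V E P) in
/-- `P` identifies `V` with the bundle `E`. -/
structure PbI : Prop where
  triv : PbT E
  inv : ∀ t, IsUnit t → ∀ y ∈ U, V (scl π t y) = V y
  mem : ∀ t : Sp (scl π) U, ∀ u ∈ V t.val, P u ∈ E.F t
  inj : ∀ t ∈ U, ∀ u ∈ V t, P u = 0 → u = 0
  surj : ∀ t : Sp (scl π) U, ∀ w ∈ E.F t, ∃ u ∈ V t.val, P u = w

namespace PbI

variable [FP (scl (blP K π)) (pbA U V)] (h : PbI V E P)

/-- the comparison with the projective bundle -/
noncomputable def pm : Mor (sp (scl (blP K π)) (pbA U V)) E.PS :=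
  ⟨(hm_pre some).ρ.toMonoidHom.prod (hm_crd none).ρ.toMonoidHom,
    fun x => VB.PT.mk (pb_hol.toEqh.mor.f x) (P (x.val ∘ .inr)) (h.mem _ _ x.val_mem.2.2)
      fun e => x.val_mem.2.1 (h.inj _ x.val_mem.1 _ x.val_mem.2.2 e),
    (hm_pre some).ρ.continuous.prodMk (hm_crd none).ρ.continuous,
    VB.PT.continuous_mk pb_hol.toEqh.mor.cf (P.continuous.comp (continuous_pi fun _ =>
      (continuous_apply _).comp Sp.continuous_val)) _ _,
    fun g x => VB.PT.ext (pb_hol.toEqh.mor.eqv g x)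
      ((map_smul P (g.val none) (x.val ∘ .inr)).trans (congrArg _ (h.triv _ _).symm))⟩

theorem pm_bij : Bijective h.pm.map := by
  refine ⟨(sp _ (pbA U V)).surj.forall₂.2 fun x x' e => ?_, E.PS.surj.forall.2 fun p => ?_⟩
  · rw [Mor.map_π, Mor.map_π] at e
    obtain ⟨g, k⟩ := (E.PS.fib _ _).1 e
    have x1 := Sp.val_mem (act := scl (blP K π)) x
    have x2 := Sp.val_mem (act := scl (blP K π)) x'
    have k1 : scl π g.1.val (Sp.val (act := scl (blP K π)) x ∘ .inl) =
      Sp.val (act := scl (blP K π)) x' ∘ .inl := congrArg (fun p : E.PT => Sp.val (act := scl π) p.t) k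
    have k2 : g.2.val • Sp.val (act := scl (blP K π)) x ∘ Sum.inr =
        Sp.val (act := scl (blP K π)) x' ∘ .inr := by
      refine sub_eq_zero.1 (h.inj _ x2.1 _ (sub_mem ?_ x2.2.2) ?_)
      · rw [← k1, h.inv _ g.1.isUnit _ x1.1]
        exact Submodule.smul_mem _ _ x1.2.2
      · rw [map_sub, map_smul, sub_eq_zero]
        exact (congrArg _ (h.triv g.1 _).symm).trans (congrArg VB.PT.w k)
    refine ((sp _ (pbA U V)).fib _ _).2 ⟨IsUnit.unit (a := fun o => o.elim g.2.val g.1.val)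
      (unit_iff.2 fun o => o.rec g.2.ne_zero (unit_iff.1 g.1.isUnit)), Holo.Sp.ext (act := scl (blP K π)) (funext fun j => ?_)⟩
    exact j.rec (congrFun k1) (congrFun k2)
  · obtain ⟨u, a, b⟩ := h.surj p.t p.w p.mem
    exact ⟨_, (Mor.map_π h.pm (Sp.of (scl (blP K π)) (Sum.elim (Sp.val (act := scl π) p.t) u)
      ⟨Sp.val_mem (act := scl π) p.t, fun c => p.ne (by rw [← b, show u = 0 from c, map_zero]),
        a⟩)).trans (congrArg E.PS.π (VB.PT.ext rfl b))⟩

theorem q_eq : (pb_hol (π := π) (C := U) (V := V)).q = E.pp.map.comp h.pm.map := by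
  rw [← Mor.map_comp, Hol.q, ← pb_hol.toEqh.mor_map]
  exact Mor.map_ext fun _ => rfl

theorem xi_eq : lcq (scl (blP K π)) (pbA U V) (fun t => t none) = H.map h.pm.map E.xi.1 :=
  (lce_val (hm_crd none)).symm.trans (congrArg Subtype.val
    ((congrArg (c1 (Y := sp _ (pbA U V))) (ContinuousMonoidHom.ext fun _ => Units.ext rfl)).trans
      (map_c1 h.pm E.o1).symm))

theorem homeo (hp : IsPr (pb_hol (π := π) (C := U) (V := V)).q) : IsHomeomorph h.pm.map := by
  have c := h.pm.map.continuous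
  refine isHomeomorph_iff_continuous_isClosedMap_bijective.2
    ⟨c, (IsPr.isProperMap ⟨c, fun T hT => ?_⟩).isClosedMap, h.pm_bij⟩
  rw [h.q_eq] at hp
  exact (hp.pre _ (hT.image E.pp.map.continuous)).of_isClosed_subset (hT.isClosed.preimage c)
    fun x a => ⟨_, a, rfl⟩

include h in
theorem lh (hp : IsPr (pb_hol (π := π) (C := U) (V := V)).q) (hr : E.r = r + 1) :
    Bijective fun v : Fin (r + 1) → H (Quo (scl π) U) => ∑ k, H.map pb_hol.q (v k) *
      lcq (scl (blP K π)) (pbA U V) (fun t => t none) ^ (k : ℕ) := by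
  have b := E.lh_bijective
  rw [hr] at b
  refine (congrArg Bijective (funext fun v => ?_)).mp
    (((H.map_bijective_of_homeomorph ((h.homeo hp).homeomorph _)).comp b).comp
      Finsupp.equivFunOnFinite.symm.bijective)
  rw [comp_apply, comp_apply, ← Finsupp.univ_sum_single (Finsupp.equivFunOnFinite.symm v), map_sum,
    map_sum]
  refine Finset.sum_congr rfl fun l _ => ?_
  rw [H.lh_single, map_mul, map_pow, h.q_eq, h.xi_eq]
  exact congrArg₂ (· * ·) (H.map_map _ _ _) rfl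

include h in
theorem push_top (hp : IsPr (pb_hol (π := π) (C := U) (V := V)).q) (hr : E.r = r + 1)
    (hE : ∀ t, E.F t = ⊤) (hd : Dim (scl π) U m) (hd' : Dim (scl (blP K π)) (pbA U V) (m + r)) :
    push pb_hol.q (cap (lcq (scl (blP K π)) (pbA U V) (fun t => t none) ^ r)
      (fnd (scl (blP K π)) (pbA U V))) = fnd (scl π) U := by
  have he := h.homeo hp
  have := (Grr.ps (hd.ho (lin_scl π)) E hE (fun _ => analyticAt_snd.congr
    (.of_forall fun p => (h.triv _ _).symm)) r hr).res_fund_of_mor (F := sp _ (pbA U V))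
    hd'.holOrb h.pm he.isOpenEmbedding (fun t => (holAt_spv_iff (x := t)
      (g := fun x => (x ∘ Sum.inl, P (x ∘ Sum.inr)))).2 ⟨_, (an_pre _ _).prod
        ((P.analyticAt _).comp (an_pre _ _)), .of_forall fun _ => rfl⟩) (fun t g hg => ?_) (l := 1)
    fun t => Nat.card_eq_one_iff_unique.2 ⟨⟨fun a b => Subtype.ext
      ((FP.free t _ a.2.1).trans (FP.free t _ b.2.1).symm)⟩, ⟨⟨1, one_smul _ _, map_one _⟩⟩⟩
  · rw [Nat.cast_one, one_smul] at this
    exact (push_xi_homeo (Y := hd.ho (lin_scl π)) he h.q_eq h.xi_eq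
      (this.trans hd'.fnd_eq.symm)).trans (hd.ho_fund _)
  · have h1 : g.1 = 1 :=
      FP.free (act := scl π) (S := U) (pb_hol.toEqh.mor.f t) g.1 (congrArg VB.PT.t hg)
    have h2 : g.2.val • (h.pm.f t).w = (h.pm.f t).w :=
      (congrArg _ (h.triv g.1 _).symm).trans (congrArg VB.PT.w hg)
    exact ⟨1, one_smul _ _, (map_one _).trans (Prod.ext h1 (Units.ext
      (smul_left_injective ℂ (h.pm.f t).ne (h2.trans (one_smul ℂ _).symm)))).symm⟩

end PbI

end cmp

variable {n n' : ℤ}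

theorem pb_lh (hV : SubB π C V r) (hC : QM (scl π) C n) (hE : QM (scl (blP K π)) (pbA C V) n') :
    Bijective fun v : Fin (r + 1) → H (Quo (scl π) C) => ∑ k, H.map pb_hol.q (v k) *
      lcq (scl (blP K π)) (pbA C V) (fun t => t none) ^ (k : ℕ) := by
  have := hC.fp
  have := hE.fp
  have := hE.cpt
  let E : VB (sp (scl π) C) := (trivB _ (K → ℂ)).sub (fun t => V (Sp.val (act := scl π) t)) (r + 1)
    (isClosed_of_closure_subset fun x a => @SubB.mem_of_tendsto _ _ _ _ _ _ _ _ _ _ _ hV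
      (Sp.val_mem (act := scl π) x.1) _ _ (mem_closure_iff_nhdsWithin_neBot.1 a) _ _ _
      (((Sp.continuous_val.comp continuous_fst).tendsto x).mono_left nhdsWithin_le_nhds)
      ((continuous_snd.tendsto x).mono_left nhdsWithin_le_nhds)
      (eventually_mem_nhdsWithin.mono fun z b => ⟨Sp.val_mem (act := scl π) z.1, b⟩))
    (fun t => hV.rank (Sp.val_mem (act := scl π) t))
    fun g t _ a => (hV.inv _ g.isUnit _ (Sp.val_mem (act := scl π) t)).ge a
  exact PbI.lh (E := E) (P := .id ℂ _) ⟨fun _ _ => rfl, hV.inv, fun _ _ a => a, fun _ _ _ _ a => a,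
    fun _ w a => ⟨w, a, rfl⟩⟩ (.of_compact pb_hol.q.continuous) rfl

theorem pb_push (hV : SubB π C V r) (hC : QM (scl π) C n) (hE : QM (scl (blP K π)) (pbA C V) n')
    (e : n' = n + r) (hn : 0 ≤ n) :
    push pb_hol.q (cap (lcq (scl (blP K π)) (pbA C V) (fun t => t none) ^ r)
      (fnd (scl (blP K π)) (pbA C V))) = fnd (scl π) C := by
  have := hC.fp
  have := hE.fp
  have := hE.cpt
  have hp : IsPr (pb_hol (π := π) (C := C) (V := V)).q := .of_compact pb_hol.q.continuous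
  have hd := (hE.ori.deg.cap (Hev.pow_deg (c1_deg (Y := sp (scl (blP K π)) (pbA C V))
    (hm_crd none).ρ) r)).push (pb_hol (π := π) (C := C) (V := V)).q
  refine (hC.ori.eq_smul' (l := 1) (D := univ) ?_ (fun S _ a => eq_univ_of_univ_subset a)
    fun x _ a h1 h2 _ => ?_).trans (one_smul _ _)
  · rw [← lce_val (hm_crd none), show 2 * n = 2 * n' - 2 * (r * 1) by rw [e]; ring]
    exact hd
  obtain ⟨⟨y, hy⟩, rfl⟩ := mk_surj x
  obtain ⟨G, L, -, -, k⟩ := hV.frm hy
  let U := {z | z ∈ C ∧ ∀ u ∈ V z, L y u = 0 → u = 0}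
  have eU : U ⊆ C := fun _ a => a.1
  have eU' : pbA U V ⊆ pbA C V := fun _ a => ⟨a.1.1, a.2⟩
  have iU : ∀ t, IsUnit t → ∀ z ∈ U, scl π t z ∈ U := fun t b z c =>
    ⟨hC.fp.mem t b z c.1, (hV.inv t b z c.1).symm ▸ c.2⟩
  have oU : ∀ z ∈ U, ∀ᶠ s in 𝓝 z, s ∈ C → s ∈ U := fun z b => by
    obtain ⟨G', L', g, -, k'⟩ := hV.frm b.1
    filter_upwards [k', eventually_injective (an_comp analyticAt_const g).continuousAt
      ((injective_iff_map_eq_zero ((L y).comp (G' z))).2 fun v c => by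
        rw [← k'.self_of_nhds.1 v, b.2 _ ((k'.self_of_nhds.2 b.1 _).2 ⟨v, rfl⟩) c, map_zero])]
      with s c d f
    refine ⟨f, fun u g g' => ?_⟩
    obtain ⟨v, rfl⟩ := (c.2 f u).1 g
    rw [(injective_iff_map_eq_zero _).1 d v g', map_zero]
  obtain ⟨_, d1, j1, r1⟩ := qm_open hC eU
    (isOpen_iff_mem_nhds.2 fun z b => (ev_sub z.2 (p := fun s => s ∈ U)).2 (oU _ b)) iU
  obtain ⟨_, d2, j2, r2⟩ := qm_open hE eU' (isOpen_iff_mem_nhds.2 fun z b =>
      (ev_sub z.2 (p := fun s => s ∈ pbA U V)).2 (((an_pre Sum.inl z.1).continuousAt.eventually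
        (oU _ b.1)).mono fun s c d => ⟨c d.1, d.2⟩))
    fun t b z c => ⟨iU _ ((hm_pre some).isUnit b) _ c.1, (hE.fp.mem t b z (eU' c)).2⟩
  have sq : ∀ u, pb_hol.q (qinc (scl (blP K π)) eU' u) = qinc (scl π) eU (pb_hol.q u) :=
    mk_surj.forall.2 fun _ => rfl
  have hr : pb_hol.q ⁻¹' range (qinc (scl π) eU) ⊆ range (qinc (scl (blP K π)) eU') :=
    Sp.surjective_mk.forall.2 fun w b => (mk_mem_range_qinc eU').2
      ⟨(mk_mem_range_qinc eU (x := Sp.of _ _ w.val_mem.1)).1 b, w.val_mem.2⟩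
  have hg := isPr_sq j1.continuous j2.isEmbedding hp pb_hol.q.continuous j1.injective sq hr
  have h3 : supp a ⊆ range (qinc (scl π) eU) := h2.trans (singleton_subset_iff.2
    ⟨Quo.mk _ ⟨y, hy, fun u b c => by
      obtain ⟨v, rfl⟩ := (k.self_of_nhds.2 hy u).1 b
      rw [← k.self_of_nhds.1 v, c, map_zero]⟩, rfl⟩)
  have h4 := PbI.push_top (E := trivB (sp (scl π) U) (Fin (r + 1) → ℂ)) (P := L y)
    ⟨fun _ _ => rfl, (hV.mono eU).inv, fun _ _ _ => trivial, fun _ b => b.2, fun t w _ => by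
      obtain ⟨u, b⟩ := (LinearMap.injective_iff_surjective_of_finrank_eq_finrank
        (f := (L y : (K → ℂ) →ₗ[ℂ] Fin (r + 1) → ℂ).domRestrict (V t.val))
        ((hV.rank t.val_mem.1).trans (finrank_fin_fun ℂ).symm)).1
        ((injective_iff_map_eq_zero _).2 fun u b => Subtype.ext (t.val_mem.2 _ u.2 b)) w
      exact ⟨u, u.2, b⟩⟩ hg (finrank_fin_fun ℂ) (fun _ => rfl) d1
    ((show n'.toNat = n.toNat + r by omega) ▸ d2)
  rw [one_mul, ← ev_res j1 _ (Zc_of_pt h1 h2) h3, ← ev_res j1 (fnd _ _) (Zc_of_pt h1 h2) h3,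
    res_push j1 j2 hp hg sq hr, res_cap j2, r1, r2, map_pow,
    show H.map (qinc (scl (blP K π)) eU') _ = _ from (Eqh.incl eU').map_lcq (hm_crd none), h4]

/-- **Leray-Hirsch and the fibre integral** -/
theorem pb_lhb' (hV : SubB π C V r) (hC : QM (scl π) C n) (hE : QM (scl (blP K π)) (pbA C V) n')
    (e : n' = n + r) : LHB hC.ps hE.ps r pb_hol.q (lcq _ _ fun t => t none) := by
  have := hC.fp
  have := hE.fp
  have := hC.cpt
  have := hE.cpt
  refine ⟨e, lcq_deg (hm_crd none), pb_lh hV hC hE, fun a => ?_⟩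
  by_cases hn : n < 0
  · have : IsEmpty (Quo (scl π) C) := ⟨mk_surj.forall.2 fun x => (hC.neg hn).subset x.2⟩
    rw [Subsingleton.elim a 0, map_zero, zero_mul, map_zero, map_zero]
  exact (Loc.intg_cap _ _ _).symm.trans ((Loc.intg_push _ _ _).symm.trans
    (congrArg (Loc.intg · a) (pb_push hV hC hE e (not_lt.1 hn))))

theorem pb_lhb (hV : SubB π C V r) (hC : QM (scl π) C n)
    (hE : QM (scl (blP K π)) (pbA C V) (n + r)) :
    LHB hC.ps hE.ps r pb_hol.q (lcq _ _ fun t => t none) := pb_lhb' hV hC hE rfl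

end Vale.Agent.P287Q.Hb
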