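import Vale.Agent.P287Q.Hb.Bl
import Vale.Agent.P287Q.Hb.PBg
import Vale.Agent.P287Q.Pv.Bl
import Vale.Agent.P287Q.Mf.Api

/-!
# The cohomology of the blow-up of a smooth projective variety
-/

set_option linter.unusedSectionVars false
set_option linter.style.haveILetI false

namespace Vale.Agent.P287Q

open Set Function Topology Filter Module MvPolynomial P291Z P269 P269.Holo P269.Mono P269.Coh
open P269.Tq Hb

section loc

variable {A W : Type} [NormedRing A] [NormedAlgebra ℂ A] [NormedAddCommGroup W] [NormedSpace ℂ W]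
  [FiniteDimensional ℂ A] [FiniteDimensional ℂ W] {act : A → W → W} {S Z : Set W} [IsAct act univ]

/-- Transverse zero sets of sections which are holomorphic on `S`. -/
theorem BlPV_gys [FP act S] [FP act Z] {n : ℕ} {ι : Type} [Fintype ι] {c : ι → A → ℂ}
    {s : W → ι → ℂ} (h : Sec act S c s) (hd : Dim act S (n + Fintype.card ι))
    (hl : ∀ a, IsUnit a → IsLinearMap ℂ (act a)) (hZ : ∀ x, x ∈ Z ↔ x ∈ S ∧ s x = 0)
    (hol : ∀ x ∈ Z, ∃ Φ : W → ι → ℂ, AnalyticAt ℂ Φ x ∧ (∀ᶠ y in 𝓝 x, y ∈ S → s y = Φ y) ∧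
      ∀ w, ∃ v ∈ tn S x, fderiv ℂ Φ x v = w) (e : Z ⊆ S) :
    push (qinc act e) (fnd act Z) = cap (∏ i, lce act S (h.hm i)).1 (fnd act S) := by
  obtain ⟨h1, h2, -, h4⟩ := (hd.ho hl).gys_eul_hol rfl (E := Ch.chars fun i => (h.hm i).ρ) rfl
    h.isSec (Sp.isEmbedding_incl (act := act) e) (Sp.incl_smul e)
    (fun t => (Sp.mem_range_incl e).trans ((hZ _).trans (and_iff_right t.val_mem)))
    (fun z => (hol _ z.val_mem).imp fun Φ k => ⟨k.1,
      (ev_sub (e z.val_mem) (p := fun y => s y = Φ y)).2 k.2.1,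
      fun w _ => (k.2.2 w).imp fun _ a => ⟨tn_eq (e z.val_mem) ▸ a.1, a.2⟩⟩)
    P269.Orb.isQuo_sp (i := qinc act e) fun _ => rfl
  have h5 : Dim act Z n := fun x hx => ⟨hx, h2 (Sp.of act x hx)⟩
  rw [h5.fnd_eq, hd.fnd_eq, ← h.hcls_eul, ← gys_id_eq_cap h.isSec.isCo.cocycle]
  refine (congrArg _ h4.symm).trans (push_gys h1 IsClosedEmbedding.id h.isSec.isCo.cocycle
    (h.isSec.isCo.supp.trans ?_) _)
  rintro _ ⟨t, ht, rfl⟩
  exact ⟨Sp.mk (Sp.of act t.val ((hZ _).2 ⟨t.val_mem, ht⟩)), rfl⟩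

/-- The class of a smooth divisor whose equation is holomorphic on `S`. -/
theorem BlPV_div {n : ℕ} (h : QM act S (n + 1 : ℕ)) (k : QM act Z n) {c : A → ℂ} {s : W → ℂ}
    (hc : Hm c) (hs : ContinuousOn s S) (he : ∀ a, IsUnit a → ∀ x ∈ S, s (act a x) = c a * s x)
    (hZ : ∀ x, x ∈ Z ↔ x ∈ S ∧ s x = 0)
    (hol : ∀ x ∈ Z, ∃ Φ : W → ℂ, AnalyticAt ℂ Φ x ∧ (∀ᶠ y in 𝓝 x, y ∈ S → s y = Φ y) ∧
      ∃ v ∈ tn S x, fderiv ℂ Φ x v = 1) (e : Z ⊆ S) :
    PS.push (X := k.ps) (Y := h.ps) (qinc act e) 1 = lcq act S c := by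
  have := h.fp
  have := k.fp
  have := h.cpt
  have := k.cpt
  have hs' : Sec act S (fun _ : Unit => c) fun x _ => s x :=
    ⟨fun _ => hc, continuousOn_pi.2 fun _ => hs, fun a h1 x hx _ => he a h1 x hx⟩
  have h1 := BlPV_gys (n := n) hs' h.dim h.lin
    (fun x => (hZ x).trans (and_congr_right' ⟨fun h => funext fun _ => h, fun h => congrFun h ()⟩))
    (fun x hx => by
      obtain ⟨Φ, h1, h2, v, h3, h4⟩ := hol x hx
      refine ⟨fun y _ => Φ y, analyticAt_pi_iff.2 fun _ => h1,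
        h2.mono fun _ a b => funext fun _ => a b, fun w => ⟨w () • v, Submodule.smul_mem _ _ h3,
          funext fun _ => ?_⟩⟩
      rw [fderiv_pi fun _ => h1.differentiableAt, ContinuousLinearMap.pi_apply, map_smul, h4,
        smul_eq_mul, mul_one]) e
  rw [Fintype.prod_unique] at h1
  refine h.ps.ext_left fun b => ?_
  rw [PS.J_push_mul, one_mul]
  show Loc.intg (fnd act Z) (H.map (qinc act e) b) = Loc.intg (fnd act S) (_ * b)
  rw [← Loc.intg_push, h1, Loc.intg_cap, ← lce_val hc, Ch.Hev.commute (Subtype.prop _)]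

end loc

variable {J R K : Type} [Fintype J] [Fintype R] [Fintype K] [DecidableEq R] {π : J → R}
  {A C : Set (J → ℂ)} {δ : R → ℤ} {g : K → MvPolynomial J ℂ} {n m r : ℕ} {w : J ⊕ K → ℂ}

/-- The normal bundle of the centre, twisted into the trivial bundle. -/
noncomputable def nrmB (A : Set (J → ℂ)) (g : K → MvPolynomial J ℂ) (y : J → ℂ) :
    Submodule ℂ (K → ℂ) := (tn A y).map (fderiv ℂ (gv g) y : (J → ℂ) →ₗ[ℂ] K → ℂ)

/-- The multicone over the exceptional divisor. -/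
def excA (A C : Set (J → ℂ)) (g : K → MvPolynomial J ℂ) : Set (J ⊕ K → ℂ) := pbA C (nrmB A g)

theorem hm_cha (δ : R → ℤ) : Hm (cha δ) := hm_chr δ

namespace Cut

theorem mem_exc (h : Cut π A C δ g) : w ∈ excA A C g ↔ w ∈ blA A g ∧ w ∘ .inl ∈ C :=
  ⟨fun a => ⟨⟨h.sub a.1, a.2.1, 0, ((h.zero _ (h.sub a.1)).1 a.1).trans (zero_smul _ _).symm,
    fun _ => a.2.2⟩, a.1⟩, fun a => ⟨a.2, a.1.2.1,
      ((mem_blA_on ((h.zero _ a.1.1).1 a.2)).1 ((Sum.elim_comp_inl_inr w).symm ▸ a.1)).2.2⟩⟩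

theorem mem_exc' (h : Cut π A C δ g) : w ∈ excA A C g ↔ w ∈ blA A g ∧ blE g w = 0 :=
  h.mem_exc.trans (and_congr_right fun a => (h.blE_zero a).symm)

theorem exc_eq (h : Cut π A C δ g) : excA A C g = {w ∈ blA A g | blE g w = 0} :=
  Set.ext fun _ => h.mem_exc'

theorem exc_sub (h : Cut π A C δ g) : excA A C g ⊆ blA A g := fun _ a => (h.mem_exc.1 a).1

variable (h : Cut π A C δ g) (hA : PV π A n) (hC : PV π C m)
include h hA hC

theorem nrm_le {t : R → ℂ} (ht : IsUnit t) {y : J → ℂ} (hy : y ∈ C) :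
    nrmB A g y ≤ nrmB A g (scl π t y) := fun u hu => by
  rcases eq_or_ne u 0 with rfl | h0
  · exact zero_mem _
  have h1 := (h.mc_bl hA hC).inv (fun o => o.elim 1 t) (unit_option.2 ⟨ht, one_ne_zero⟩) _
    (h.exc_sub (a := Sum.elim y u) ⟨hy, h0, hu⟩)
  have h2 := (h.mem_exc.2 ⟨h1, hC.inv t ht y hy⟩).2.2
  rw [scl_blP_inr] at h2
  exact one_smul ℂ u ▸ h2

theorem subB (hd : m + r + 1 = n) : SubB π C (nrmB A g) r := by
  refine ⟨fun t ht y hy => le_antisymm ?_ (h.nrm_le hA hC ht hy), fun y hy => ?_⟩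
  · have := h.nrm_le hA hC (unit_inv ht) (hC.inv t ht y hy)
    rwa [scl_inv_scl ht] at this
  obtain ⟨ψ, G, h1, rfl, -⟩ := h.exists_blD hA hC hy
  obtain ⟨κ, h2, h3, -, h4⟩ := h1.prm.exists_inv
  let b := (Pi.basisFun ℂ (Fin (n - m))).reindex (finCongr (show n - m = r + 1 by omega))
  have h5 : Tendsto κ (𝓝 (ψ (0, 0))) (𝓝 (0, 0)) := h2.continuousAt.tendsto.mono_right
    (by rw [h3])
  have h6 : AnalyticAt ℂ (fun z => G (κ z)) (ψ (0, 0)) := h1.an.comp_of_eq h2 h3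
  refine ⟨fun z i => G (κ z) (b i), analyticAt_pi_iff.2 fun i =>
    ((ContinuousLinearMap.apply ℂ (K → ℂ) (b i)).analyticAt _).comp h6,
      eventually_nhdsWithin_iff.2 ?_⟩
  filter_upwards [h4, h5.eventually h1.zero,
    (continuous_snd.continuousAt.tendsto.comp h5).eventually h1.eventually] with z k1 k2 k3 hz
  have k4 := k1 (h.sub hz)
  have k5 : κ z = (0, (κ z).2) := Prod.ext (k2.1 (by rw [k4]; exact (h.zero _ (h.sub hz)).1 hz)) rfl
  have k6 : BlD A g ψ (κ z).2 G := k3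
  rw [k5] at k4 ⊢
  generalize (κ z).2 = x at k4 k6
  subst k4
  refine ⟨b.linearIndependent.map' (G (0, x)).toLinearMap (LinearMap.ker_eq_bot.2 k6.inj), ?_⟩
  rw [show (range fun i => G (0, x) (b i)) = (G (0, x)).toLinearMap '' range b from
    range_comp _ _, ← Submodule.map_span, b.span_eq, Submodule.map_top]
  exact Submodule.ext fun u => k6.img

theorem exc_pv (hd : m + r + 1 = n) : PV (blP K π) (excA A C g) (m + r) :=
  pb_pv hC (h.subB hA hC hd)

end Cut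

/-- The blow-down. -/
theorem bl_hol : Hol (scl (blP K π)) (scl π) (blA A g) A (fun t => t ∘ some) fun w => w ∘ Sum.inl :=
  hol_coord Sum.inl some (fun _ => rfl) fun _ a => a.1

/-- The projection of the exceptional divisor. -/
theorem exc_hol :
    Hol (scl (blP K π)) (scl π) (excA A C g) C (fun t => t ∘ some) fun w => w ∘ Sum.inl := pb_hol

variable (π A C δ g) in
/-- The class of the conormal bundle of the exceptional divisor. -/
noncomputable def excXi : H (Spc (blP K π) (excA A C g)) :=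
  (lcq (scl (blP K π)) (excA A C g) fun t => t none) +
    H.map (exc_hol (π := π)).q (-lcq (scl π) C (cha δ))

variable [IsAct (scl π) univ] [IsAct (scl (blP K π)) univ]

namespace Cut

variable (h : Cut π A C δ g) (hA : PV π A n) (hC : PV π C m)
include h hA hC

theorem pre : (bl_hol (π := π)).q ⁻¹' range (qinc (scl π) h.sub) =
    range (qinc (scl (blP K π)) h.exc_sub) := by
  have := hA.isAct
  have := hC.isAct
  have := (h.mc_bl hA hC).isAct
  have := (h.exc_eq ▸ (h.exc hA hC).toMC : MC (blP K π) (excA A C g)).isAct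
  exact Set.ext (mk_surj.forall.2 fun x =>
    (mk_mem_range_qinc h.sub (x := Sp.of _ (x.1 ∘ .inl) x.2.1)).trans
      (((and_iff_right x.2).symm.trans h.mem_exc.symm).trans
        (mk_mem_range_qinc h.exc_sub (x := Sp.of _ x.1 x.2)).symm))

theorem injOn : InjOn (bl_hol (π := π)).q (range (qinc (scl (blP K π)) h.exc_sub))ᶜ := by
  have k : ∀ x : blA A g, Quo.mk _ x ∈ (range (qinc (scl (blP K π)) h.exc_sub))ᶜ →
      ∃ s : ℂ, s ≠ 0 ∧ x.1 ∘ .inr = s • gv g (x.1 ∘ .inl) := fun x hx =>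
    ((mem_blA_off fun e => hx ⟨Quo.mk _ ⟨x.1, h.mem_exc.2 ⟨x.2, (h.zero _ x.2.1).2 e⟩⟩, rfl⟩).1
      ((Sum.elim_comp_inl_inr x.1).symm ▸ x.2)).2
  refine mk_surj.forall.2 fun x hx => mk_surj.forall.2 fun y hy e => ?_
  obtain ⟨t, ht, e1⟩ : ∃ t, IsUnit t ∧ y.1 ∘ .inl = scl π t (x.1 ∘ .inl) := hA.mk_eq_iff.1 e
  obtain ⟨s, h1, h2⟩ := k x hx
  obtain ⟨s', h3, h4⟩ := k y hy
  refine Quot.sound ⟨fun o => o.elim (s' * cha δ t / s) t,
    unit_option.2 ⟨ht, div_ne_zero (mul_ne_zero h3 (cha_ne ht)) h1⟩, ?_⟩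
  rw [← Sum.elim_comp_inl_inr x.1, scl_blP, ← Sum.elim_comp_inl_inr y.1, h4, e1, gv_scl h.hom ht, h2,
    smul_smul, smul_smul]
  simp only [Option.elim, div_mul_cancel₀ _ h1]
  rfl

omit hA hC in
theorem surj_off : (range (qinc (scl π) h.sub))ᶜ ⊆ range (bl_hol (π := π) (g := g)).q :=
  mk_surj.forall.2 fun y hy => ⟨Quo.mk _ ⟨Sum.elim y.1 (gv g y.1),
    (mem_blA_off fun e => hy ⟨Quo.mk _ ⟨y.1, (h.zero _ y.2).2 e⟩, rfl⟩).2
      ⟨y.2, 1, one_ne_zero, (one_smul _ _).symm⟩⟩, rfl⟩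

/-- The blow-down has degree one. -/
theorem bl_int (hd : m < n) (a : H (Spc π A)) :
    (h.bl hA hC).qm.ps.J (H.map bl_hol.q a) = hA.qm.ps.J a :=
  (h.bl hA hC).qm.J_map_bir hA.qm bl_hol hC.qm (by exact_mod_cast hd) h.sub
    (h.pre hA hC ▸ h.injOn hA hC) h.surj_off a

/-- The class of the exceptional divisor. -/
theorem push_exc (hd : m + r + 1 = n) :
    PS.push (X := (h.exc_pv hA hC hd).qm.ps) (Y := (h.bl hA hC).qm.ps) (qinc _ h.exc_sub) 1 =
      lcq (scl (blP K π)) (blA A g) fun t => cha δ (t ∘ some) * t none ^ (-1 : ℤ) := by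
  subst hd
  refine BlPV_div (h.bl hA hC).qm _ (s := blE g)
    (((hm_pre some).comp (hm_cha δ)).mul' (hm_zpow (hm_crd none) _))
    (fun w hw => (holOn_blE hw).tendsto hw) (fun t ht w hw => ?_)
    (fun _ => h.mem_exc') (fun w hw => ?_) _
  · rw [blE_scl h.hom ht hw, zpow_neg_one, div_eq_mul_inv]
  · obtain ⟨h1, h2⟩ := h.mem_exc'.1 hw
    obtain ⟨Φ, h3, h4⟩ := holOn_blE h1
    exact ⟨Φ, h3, h4, h.exc_tn hA hC h1 h2 h3 h4⟩

theorem map_push_exc (hd : m + r + 1 = n) : H.map (qinc _ h.exc_sub)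
    (PS.push (X := (h.exc_pv hA hC hd).qm.ps) (Y := (h.bl hA hC).qm.ps) (qinc _ h.exc_sub) 1) =
      -excXi π A C δ g := by
  have := (h.exc_pv hA hC hd).fp
  have := (h.bl hA hC).fp
  have := hC.fp
  have h1 := (hm_pre some).comp (hm_cha δ)
  rw [h.push_exc hA hC hd]
  refine ((Hol.incl h.exc_sub).toEqh.map_lcq (h1.mul' (hm_zpow (hm_crd none) _))).trans ?_
  rw [lcq_mul h1 (hm_zpow (hm_crd none) _), lcq_ipow (hm_crd none), excXi, map_neg,
    exc_hol.toEqh.map_lcq (hm_cha δ)]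
  simp

theorem lhb (hd : m + r + 1 = n) :
    LHB hC.qm.ps (h.exc_pv hA hC hd).qm.ps r exc_hol.q (excXi π A C δ g) :=
  (pb_lhb' (h.subB hA hC hd) hC.qm (h.exc_pv hA hC hd).qm (Nat.cast_add m r)).twist
    ((H.deg _ 2).neg_mem (hC.lcq_deg (hm_cha δ)))

/-- **The cohomology of the blow-up.** -/
theorem blT (hd : m + r + 1 = n) :
    BlT hA.qm.ps hC.qm.ps (h.bl hA hC).qm.ps (h.exc_pv hA hC hd).qm.ps (qinc _ h.sub) bl_hol.q
      (qinc _ h.exc_sub) exc_hol.q r (excXi π A C δ g) :=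
  .of_geo hA.qm.geo hC.qm.geo (h.bl hA hC).qm.geo (h.exc_pv hA hC hd).qm.geo (h.lhb hA hC hd) rfl
    (show (n : ℤ) = (m + r : ℕ) + 1 by omega) (mk_surj.forall.2 fun _ => rfl) (h.bl_int hA hC (by omega))
    (hA.qm.qinc_injective _) ((h.bl hA hC).qm.qinc_injective _) (h.map_push_exc hA hC hd)
    (h.pre hA hC) (h.injOn hA hC) h.surj_off

/-- The Hodge structures on the blow-up square are compatible. -/
theorem blH (hd : m + r + 1 = n) (gZ : HG hA.qm.ps (QT (scl π) A)) (gS : HG hC.qm.ps (QT (scl π) C))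
    (gB : HG (h.bl hA hC).qm.ps (QT (scl (blP K π)) (blA A g)))
    (gE : HG (h.exc_pv hA hC hd).qm.ps (QT (scl (blP K π)) (excA A C g)))
    (h1 : ∀ o, (lcq (scl (blP K π)) (excA A C g) fun t => t o) ∈
      QT (scl (blP K π)) (excA A C g) 1 1) :
    BlH hA.qm.ps hC.qm.ps (h.bl hA hC).qm.ps (h.exc_pv hA hC hd).qm.ps bl_hol.q
      (qinc _ h.exc_sub) exc_hol.q (excXi π A C δ g) (QT (scl π) A) (QT (scl π) C)
      (QT (scl (blP K π)) (blA A g)) (QT (scl (blP K π)) (excA A C g)) := by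
  refine ⟨gZ, gS, gB, gE, fun _ _ _ => Mf.map_mem_QT (h.bl hA hC).qm bl_hol,
    fun _ _ _ => Mf.map_mem_QT (h.exc_pv hA hC hd).qm (Hol.incl h.exc_sub),
    fun _ _ _ => Mf.map_mem_QT (h.exc_pv hA hC hd).qm exc_hol, add_mem (h1 none) ?_⟩
  rw [map_neg, show lcq (scl π) C (cha δ) = _ from hC.lcq_zpow δ, map_sum]
  refine neg_mem (sum_mem fun i _ => ?_)
  rw [H.map_smulC]
  exact Submodule.smul_mem _ _
    (map_lcq_coord hC.toMC (h.exc_pv hA hC hd).toMC (fun _ => rfl) (fun _ a => a.1) i ▸ h1 (some i))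

end Cut

end Vale.Agent.P287Q
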