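import Vale.Agent.P287Q.Hb.Defs

/-!
# Formal consequences of a Hodge structure on a space with Poincare duality
-/

set_option linter.unusedSectionVars false

namespace Vale.Agent.P287Q.Hb

open Set Function P291Z P269 P269.Mono P269.Coh Module
open scoped ComplexConjugate

theorem exists_J (Y : PS) (ψ : Module.Dual ℂ (H Y.X)) : ∃ c, ∀ y, Y.J (c * y) = ψ y := by
  have hi : Injective (bil Y.J) := fun a a' h => Y.ext_left fun b => LinearMap.congr_fun h b
  obtain ⟨c, hc⟩ := (LinearMap.injective_iff_surjective_of_finrank_eq_finrank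
    Subspace.dual_finrank_eq.symm).1 hi ψ
  exact ⟨c, fun y => LinearMap.congr_fun hc y⟩

namespace HG

variable {X Y : PS} {T : ℤ → ℤ → Submodule ℂ (H Y.X)} {T' : ℤ → ℤ → Submodule ℂ (H X.X)}
  {p q p' q' k : ℤ} {c : H Y.X}

section one

variable (hY : HG Y T)
include hY

theorem induction {P : H Y.X → Prop} (h0 : P 0) (hadd : ∀ a b, P a → P b → P (a + b))
    (h : ∀ p q, ∀ c ∈ T p q, P c) (c : H Y.X) : P c :=
  Submodule.iSup_induction (motive := P) _ (hY.span c) (fun i => h i.1 i.2) h0 hadd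

/-- linear maps which agree on all types are equal -/
theorem ext_ty {M : Type*} [AddCommGroup M] [Module ℂ M] {f g : H Y.X →ₗ[ℂ] M}
    (h : ∀ p q, ∀ c ∈ T p q, f c = g c) : f = g :=
  LinearMap.ext (hY.induction (by rw [map_zero, map_zero])
    (fun a b ha hb => by rw [map_add, map_add, ha, hb]) h)

theorem eq_zero_out (hc : c ∈ T p q) (h : p < 0 ∨ q < 0 ∨ Y.n < p ∨ Y.n < q) : c = 0 :=
  (Submodule.mem_bot ℂ).1 (hY.out p q h ▸ hc)

theorem J_eq_zero (hc : c ∈ T p q) (h : ¬(p = Y.n ∧ q = Y.n)) : Y.J c = 0 := by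
  by_cases h1 : p + q = 2 * Y.n
  · rw [hY.eq_zero_out hc (by omega), map_zero]
  · exact Y.pd.deg _ h1 _ (hY.deg p q c hc)

theorem J_mul_eq_zero {y : H Y.X} (hc : c ∈ T p q) (hy : y ∈ T p' q')
    (h : ¬(p + p' = Y.n ∧ q + q' = Y.n)) : Y.J (c * y) = 0 :=
  hY.J_eq_zero (hY.mul _ _ _ _ c hc y hy) h

theorem nondeg (hc : c ∈ T p q) (h : ∀ y ∈ T (Y.n - p) (Y.n - q), Y.J (c * y) = 0) : c = 0 :=
  Y.ext_left fun b => (LinearMap.congr_fun (hY.ext_ty (f := bil Y.J c) (g := 0)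
    fun p' q' y hy => by
      by_cases e : p' = Y.n - p ∧ q' = Y.n - q
      · exact h y (e.1 ▸ e.2 ▸ hy)
      · exact hY.J_mul_eq_zero hc hy (by omega)) b).trans
    (by rw [zero_mul, map_zero, LinearMap.zero_apply])

theorem nondeg' (hc : c ∈ T p q) (h : ∀ y ∈ T (Y.n - p) (Y.n - q), Y.J (y * c) = 0) : c = 0 :=
  Y.pd.nondeg c fun b => LinearMap.congr_fun (hY.ext_ty (f := (bil Y.J).flip c) (g := 0)
    fun p' q' y hy => by
      by_cases e : p' = Y.n - p ∧ q' = Y.n - q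
      · exact h y (e.1 ▸ e.2 ▸ hy)
      · exact hY.J_mul_eq_zero hy hc (by omega)) b

theorem eq_zero_of_ne (hc : c ∈ T p q) (hc' : c ∈ T p' q') (h : ¬(p = p' ∧ q = q')) : c = 0 :=
  hY.nondeg hc fun _ hy => hY.J_mul_eq_zero hc' hy (by omega)

theorem isCompl (p q : ℤ) : IsCompl (T p q) (⨆ i : {i : ℤ × ℤ // i ≠ (p, q)}, T i.1.1 i.1.2) := by
  refine ⟨Submodule.disjoint_def.2 fun c hc hc' => hY.nondeg hc fun y hy => ?_,
    codisjoint_iff.2 (eq_top_iff.2 fun c _ => ?_)⟩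
  · refine Submodule.iSup_induction (motive := fun c => Y.J (c * y) = 0) _ hc' (fun i x hx => ?_)
      (by rw [zero_mul, map_zero]) fun a b ha hb => by rw [add_mul, map_add, ha, hb, add_zero]
    exact hY.J_mul_eq_zero hx hy fun e => i.2 (Prod.ext (by omega) (by omega))
  · refine hY.induction (P := fun c => c ∈ T p q ⊔ ⨆ i : {i : ℤ × ℤ // i ≠ (p, q)}, T i.1.1 i.1.2)
      (zero_mem _) (fun _ _ => add_mem) (fun p' q' x hx => ?_) c
    by_cases e : (p', q') = (p, q)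
    · obtain ⟨rfl, rfl⟩ := Prod.mk.inj e
      exact Submodule.mem_sup_left hx
    · exact Submodule.mem_sup_right (Submodule.mem_iSup_of_mem ⟨(p', q'), e⟩ hx)

/-- The component of type `(p, q)`. -/
noncomputable def prj (p q : ℤ) : Module.End ℂ (H Y.X) := (T p q).projection _ (hY.isCompl p q)

theorem prj_mem (p q : ℤ) (c : H Y.X) : hY.prj p q c ∈ T p q :=
  Submodule.projection_apply_mem _ c

theorem prj_self (hc : c ∈ T p q) : hY.prj p q c = c := Submodule.projection_apply_of_mem_left _ hc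

theorem prj_ne (hc : c ∈ T p' q') (h : ¬(p = p' ∧ q = q')) : hY.prj p q c = 0 :=
  Submodule.projection_apply_of_mem_right _ (Submodule.mem_iSup_of_mem
    ⟨(p', q'), fun e => h ⟨(Prod.mk.inj e).1.symm, (Prod.mk.inj e).2.symm⟩⟩ hc)

theorem prj_of_mem (p q : ℤ) (hc : c ∈ T p' q') :
    hY.prj p q c = if p = p' ∧ q = q' then c else 0 := by
  split_ifs with h
  · exact hY.prj_self (h.1 ▸ h.2 ▸ hc)
  · exact hY.prj_ne hc h

theorem mem_iff_prj : c ∈ T p q ↔ hY.prj p q c = c :=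
  ⟨hY.prj_self, fun h => h ▸ hY.prj_mem p q c⟩

theorem sum_prj (c : H Y.X) :
    ∑ p ∈ Finset.Icc 0 Y.n, ∑ q ∈ Finset.Icc 0 Y.n, hY.prj p q c = c := by
  refine hY.induction
    (P := fun c => ∑ p ∈ Finset.Icc 0 Y.n, ∑ q ∈ Finset.Icc 0 Y.n, hY.prj p q c = c)
    (by simp only [map_zero, Finset.sum_const_zero])
    (fun a b ha hb => by simp only [map_add, Finset.sum_add_distrib, ha, hb])
    (fun p q c hc => ?_) c
  by_cases h : p < 0 ∨ q < 0 ∨ Y.n < p ∨ Y.n < q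
  · simp only [hY.eq_zero_out hc h, map_zero, Finset.sum_const_zero]
  · rw [Finset.sum_eq_single_of_mem p (Finset.mem_Icc.2 (by omega)) fun p' _ e =>
      Finset.sum_eq_zero fun q' _ => hY.prj_ne hc fun e' => e e'.1,
      Finset.sum_eq_single_of_mem q (Finset.mem_Icc.2 (by omega)) fun q' _ e =>
        hY.prj_ne hc fun e' => e e'.2, hY.prj_self hc]

theorem exists_prj : ∃ P : ℤ → ℤ → Module.End ℂ (H Y.X), (∀ p q c, P p q c ∈ T p q) ∧
    (∀ p q p' q', ∀ c ∈ T p' q', P p q c = if p = p' ∧ q = q' then c else 0) ∧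
    ∀ c, ∑ p ∈ Finset.Icc 0 Y.n, ∑ q ∈ Finset.Icc 0 Y.n, P p q c = c :=
  ⟨hY.prj, hY.prj_mem, fun p q _ _ _ hc => hY.prj_of_mem p q hc, hY.sum_prj⟩

theorem ext_prj {c' : H Y.X} (h : ∀ p q, hY.prj p q c = hY.prj p q c') : c = c' := by
  rw [← hY.sum_prj c, ← hY.sum_prj c']
  simp only [h]

theorem mem_of_prj {K : Submodule ℂ (H Y.X)} (h : ∀ p q, hY.prj p q c ∈ K) : c ∈ K :=
  hY.sum_prj c ▸ sum_mem fun p _ => sum_mem fun q _ => h p q

theorem J_prj_mul {y : H Y.X} (hy : y ∈ T (Y.n - p) (Y.n - q)) (c : H Y.X) :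
    Y.J (hY.prj p q c * y) = Y.J (c * y) :=
  LinearMap.congr_fun (hY.ext_ty (f := (bil Y.J).flip y ∘ₗ hY.prj p q) (g := (bil Y.J).flip y)
    fun p' q' c hc => by
      change Y.J (hY.prj p q c * y) = Y.J (c * y)
      rw [hY.prj_of_mem p q hc]
      split_ifs with e
      · rfl
      · rw [zero_mul, map_zero, hY.J_mul_eq_zero hc hy (by omega)]) c

theorem J_mul_prj {y : H Y.X} (hy : y ∈ T (Y.n - p) (Y.n - q)) (c : H Y.X) :
    Y.J (y * hY.prj p q c) = Y.J (y * c) :=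
  LinearMap.congr_fun (hY.ext_ty (f := bil Y.J y ∘ₗ hY.prj p q) (g := bil Y.J y)
    fun p' q' c hc => by
      change Y.J (y * hY.prj p q c) = Y.J (y * c)
      rw [hY.prj_of_mem p q hc]
      split_ifs with e
      · rfl
      · rw [mul_zero, map_zero, hY.J_mul_eq_zero hy hc (by omega)]) c

theorem mem_iff : c ∈ T p q ↔
    ∀ p' q', ∀ y ∈ T p' q', ¬(p + p' = Y.n ∧ q + q' = Y.n) → Y.J (c * y) = 0 := by
  refine ⟨fun hc _ _ _ hy => hY.J_mul_eq_zero hc hy, fun h => hY.mem_of_prj fun p' q' => ?_⟩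
  by_cases e : p' = p ∧ q' = q
  · exact e.1 ▸ e.2 ▸ hY.prj_mem p' q' c
  · rw [hY.nondeg (hY.prj_mem p' q' c) fun y hy => by
      rw [hY.J_prj_mul hy, h _ _ y hy (by omega)]]
    exact zero_mem _

theorem mem_iff' : c ∈ T p q ↔
    ∀ p' q', ∀ y ∈ T p' q', ¬(p + p' = Y.n ∧ q + q' = Y.n) → Y.J (y * c) = 0 := by
  refine ⟨fun hc _ _ _ hy e => hY.J_mul_eq_zero hy hc (by omega),
    fun h => hY.mem_of_prj fun p' q' => ?_⟩
  by_cases e : p' = p ∧ q' = q
  · exact e.1 ▸ e.2 ▸ hY.prj_mem p' q' c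
  · rw [hY.nondeg' (hY.prj_mem p' q' c) fun y hy => by
      rw [hY.J_mul_prj hy, h _ _ y hy (by omega)]]
    exact zero_mem _

theorem exists_dual (φ : Module.Dual ℂ (T (Y.n - p) (Y.n - q))) :
    ∃ c ∈ T p q, ∀ y : T (Y.n - p) (Y.n - q), Y.J (c * y) = φ y := by
  obtain ⟨c, hc⟩ := exists_J Y (φ ∘ₗ (T _ _).projectionOnto _ (hY.isCompl (Y.n - p) (Y.n - q)))
  exact ⟨hY.prj p q c, hY.prj_mem p q c, fun y => by
    rw [hY.J_prj_mul y.2, hc, LinearMap.comp_apply, Submodule.projectionOnto_apply_left]⟩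

theorem prj_deg (hc : H.IsDeg k c) (h : p + q ≠ k) : hY.prj p q c = 0 :=
  hY.nondeg (hY.prj_mem p q c) fun y hy => by
    rw [hY.J_prj_mul hy]
    exact Y.pd.deg _ (by omega) _ (hc.mul (hY.deg _ _ y hy))

theorem mem_of_deg {K : Submodule ℂ (H Y.X)} (hc : H.IsDeg k c) (h : ∀ p, T p (k - p) ≤ K) :
    c ∈ K := hY.mem_of_prj fun p q => by
  by_cases e : q = k - p
  · exact h p (e ▸ hY.prj_mem p q c)
  · rw [hY.prj_deg hc (by omega)]
    exact zero_mem _

theorem deg_sum (hc : H.IsDeg k c) : c ∈ ⨆ p, T p (k - p) :=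
  hY.mem_of_deg hc fun p => le_iSup (fun p => T p (k - p)) p

theorem deg_induction {P : H Y.X → Prop} (hc : H.IsDeg k c) (h0 : P 0)
    (hadd : ∀ a b, P a → P b → P (a + b)) (h : ∀ p, ∀ c ∈ T p (k - p), P c) : P c :=
  Submodule.iSup_induction (motive := P) _ (hY.deg_sum hc) h h0 hadd

theorem sum_prj_deg (hc : H.IsDeg k c) : ∑ p ∈ Finset.Icc 0 Y.n, hY.prj p (k - p) c = c := by
  refine Eq.trans (Finset.sum_congr rfl fun p _ => ?_) (hY.sum_prj c)
  refine (Finset.sum_eq_single (k - p)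
    (fun q _ e => hY.prj_deg hc fun h => e (eq_sub_of_add_eq' h))
    fun e => ?_).symm
  exact hY.eq_zero_out (hY.prj_mem p (k - p) c) (by rw [Finset.mem_Icc] at e; omega)

theorem cj_prj (p q : ℤ) (c : H Y.X) : Mono.cj (hY.prj p q c) = hY.prj q p (Mono.cj c) := by
  refine hY.induction (P := fun c => Mono.cj (hY.prj p q c) = hY.prj q p (Mono.cj c))
    (by simp only [map_zero]) (fun a b ha hb => by simp only [map_add, ha, hb])
    (fun p' q' c hc => ?_) c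
  rw [hY.prj_of_mem p q hc, hY.prj_of_mem q p (hY.cj _ _ c hc), apply_ite Mono.cj, map_zero]
  exact if_congr and_comm rfl rfl

theorem cj_mem_iff : Mono.cj c ∈ T q p ↔ c ∈ T p q :=
  ⟨fun h => cj_cj c ▸ hY.cj _ _ _ h, hY.cj _ _ c⟩

theorem eq_bot_swap (h : T p q = ⊥) : T q p = ⊥ := eq_bot_iff.2 fun x hx => by
  have h1 := hY.cj _ _ x hx
  rw [h, Submodule.mem_bot] at h1
  rw [← cj_cj x, h1, map_zero]
  exact zero_mem _

theorem eq_bot_dual (h : T (Y.n - p) (Y.n - q) = ⊥) : T p q = ⊥ := eq_bot_iff.2 fun x hx =>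
  hY.nondeg hx fun y hy => by rw [h, Submodule.mem_bot] at hy; rw [hy, mul_zero, map_zero]

theorem rank_one {h : H Y.X} (hh : H.IsDeg (2 * k) h)
    (h1 : ∀ x, H.IsDeg (2 * k) x → ∃ c : ℂ, x = c • h) : h ∈ T k k := by
  refine hY.mem_of_deg hh fun p x hx => ?_
  by_cases e : p = k
  · rwa [e, show 2 * k - k = k by ring] at hx
  have hd : H.IsDeg (2 * k) x := (show p + (2 * k - p) = 2 * k by ring) ▸ hY.deg _ _ x hx
  obtain ⟨a, ha⟩ := h1 x hd
  obtain ⟨b, hb⟩ := h1 _ (isDeg_cj hd)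
  have h2 : b • x = a • Mono.cj x := by rw [hb, ha, smul_comm]
  have h3 : b • x = 0 := hY.eq_zero_of_ne (Submodule.smul_mem _ b hx)
    (h2 ▸ Submodule.smul_mem _ a (hY.cj _ _ x hx)) (by omega)
  rcases smul_eq_zero.1 h3 with h4 | h4
  · rw [← cj_cj x, hb, h4, zero_smul, map_zero]
    exact zero_mem _
  · rw [h4]
    exact zero_mem _

theorem pow {h : H Y.X} (hh : h ∈ T 1 1) (m : ℕ) : h ^ m ∈ T m m := by
  induction m with
  | zero => rw [pow_zero]; exact hY.one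
  | succ m ih => rw [pow_succ, Nat.cast_succ]; exact hY.mul _ _ _ _ _ ih h hh

theorem finrank_swap (p q : ℤ) : finrank ℂ (T p q) = finrank ℂ (T q p) :=
  congrArg Cardinal.toNat (rank_eq_of_equiv_equiv (starRingEnd ℂ)
    { toFun := fun x => ⟨Mono.cj x.1, hY.cj _ _ _ x.2⟩
      invFun := fun x => ⟨Mono.cj x.1, hY.cj _ _ _ x.2⟩
      left_inv := fun x => Subtype.ext (cj_cj x.1)
      right_inv := fun x => Subtype.ext (cj_cj x.1)
      map_add' := fun x y => Subtype.ext (map_add Mono.cj x.1 y.1) }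
    (Involutive.bijective fun z => starRingEnd_self_apply z)
    fun r x => Subtype.ext (Mono.cj.map_smulₛₗ r x.1))

theorem bij_dual (p q : ℤ) :
    Bijective ((bil Y.J).domRestrict₁₂ (T p q) (T (Y.n - p) (Y.n - q))) :=
  ⟨(injective_iff_map_eq_zero _).2 fun x hx => Subtype.ext
    (hY.nondeg x.2 fun y hy => LinearMap.congr_fun hx ⟨y, hy⟩), fun φ => by
      obtain ⟨c, hc, h⟩ := hY.exists_dual φ
      exact ⟨⟨c, hc⟩, LinearMap.ext h⟩⟩

theorem finrank_dual (p q : ℤ) : finrank ℂ (T p q) = finrank ℂ (T (Y.n - p) (Y.n - q)) :=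
  (LinearEquiv.ofBijective _ (hY.bij_dual p q)).finrank_eq.trans Subspace.dual_finrank_eq

theorem finrank_deg (k : ℤ) :
    finrank ℂ (H.deg Y.X k) = ∑ p ∈ Finset.Icc 0 Y.n, finrank ℂ (T p (k - p)) := by
  let f : H.deg Y.X k →ₗ[ℂ] ∀ p : Finset.Icc 0 Y.n, T p (k - p) := LinearMap.pi fun p =>
    (hY.prj p (k - p) ∘ₗ (H.deg Y.X k).subtype).codRestrict _ fun c => hY.prj_mem _ _ c.1
  have hf : Bijective f := by
    refine ⟨(injective_iff_map_eq_zero _).2 fun x hx => Subtype.ext ?_, fun x => ?_⟩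
    · rw [← hY.sum_prj_deg x.2]
      exact Finset.sum_eq_zero fun p hp => congrArg Subtype.val (congrFun hx ⟨p, hp⟩)
    · refine ⟨⟨∑ p, (x p).1, sum_mem fun p _ => ?_⟩, funext fun p => Subtype.ext ?_⟩
      · have h1 := hY.deg _ _ _ (x p).2
        rwa [add_sub_cancel] at h1
      · change hY.prj p (k - p) (∑ p, (x p).1) = (x p).1
        rw [map_sum, Finset.sum_eq_single p (fun p' _ e => hY.prj_ne (x p').2
          fun e' => e (Subtype.ext e'.1.symm)) fun e => absurd (Finset.mem_univ p) e,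
          hY.prj_self (x p).2]
  rw [(LinearEquiv.ofBijective f hf).finrank_eq, finrank_pi_fintype,
    Finset.sum_coe_sort (Finset.Icc 0 Y.n) fun p => finrank ℂ (T p (k - p))]

theorem prim (h0 : T (Y.n - p - 1) (Y.n - q - 1) = ⊥) {h x : H Y.X} (hh : h ∈ T 1 1)
    (hx : x ∈ T p q) : h * x = 0 := by
  have h1 := hY.mul _ _ _ _ h hh x hx
  rwa [hY.eq_bot_dual (p := 1 + p) (q := 1 + q) (by
    rw [show Y.n - (1 + p) = Y.n - p - 1 by ring, show Y.n - (1 + q) = Y.n - q - 1 by ring, h0]),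
    Submodule.mem_bot] at h1

theorem exists_end (w : ℤ → ℤ → ℂ) :
    ∃ ν : Module.End ℂ (H Y.X), ∀ p q, ∀ c ∈ T p q, ν c = w p q • c := by
  refine ⟨∑ p ∈ Finset.Icc 0 Y.n, ∑ q ∈ Finset.Icc 0 Y.n, w p q • hY.prj p q, fun p q c hc => ?_⟩
  rw [← congrArg (w p q • ·) (hY.sum_prj c)]
  simp only [LinearMap.sum_apply, LinearMap.smul_apply, Finset.smul_sum]
  refine Finset.sum_congr rfl fun p' _ => Finset.sum_congr rfl fun q' _ => ?_
  rw [hY.prj_of_mem p' q' hc]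
  split_ifs with e
  · rw [e.1, e.2]
  · rw [smul_zero, smul_zero]

theorem exists_nu : ∃ ν, Y.Nu ν ∧ ∀ p q : ℤ, ∀ c ∈ T p q, ν c = ((p - q) / 2 : ℂ) • c := by
  obtain ⟨ν, h⟩ := hY.exists_end fun p q => ((p - q) / 2 : ℂ)
  refine ⟨ν, ⟨fun k x hx => ?_, fun a b => ?_, by rw [h 0 0 1 hY.one]; simp⟩, h⟩
  · refine hY.deg_induction (P := fun x => H.IsDeg k (ν x)) hx
      (by rw [map_zero]; exact (H.deg _ k).zero_mem)
      (fun a b ha hb => by rw [map_add]; exact (H.deg _ k).add_mem ha hb) fun p c hc => ?_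
    rw [h _ _ c hc]
    exact (H.deg _ k).smul_mem _ ((show p + (k - p) = k by ring) ▸ hY.deg _ _ c hc)
  · refine LinearMap.congr_fun₂ (hY.ext_ty (f := bil Y.J ∘ₗ ν) (g := -(bil Y.J).compl₂ ν)
      fun p q x hx => hY.ext_ty fun p' q' y hy => ?_) a b
    change Y.J (ν x * y) = -Y.J (x * ν y)
    rw [h _ _ x hx, h _ _ y hy, smul_mul_assoc, mul_smul_comm, map_smul, map_smul]
    by_cases e : p + p' = Y.n ∧ q + q' = Y.n
    · have : (p : ℂ) + p' = q + q' := by exact_mod_cast e.1.trans e.2.symm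
      rw [smul_eq_mul, smul_eq_mul]
      linear_combination (1 / 2 * Y.J (x * y)) * this
    · rw [hY.J_mul_eq_zero hx hy e, smul_zero, smul_zero, neg_zero]

theorem congr {T₁ : ℤ → ℤ → Submodule ℂ (H Y.X)} (e : ∀ p q, T p q = T₁ p q) : HG Y T₁ :=
  (funext₂ e : T = T₁) ▸ hY

/-- transport along an isomorphism of the cohomology rings -/
theorem map {f : C(X.X, Y.X)} (hf : Surjective (H.map f)) (hn : X.n = Y.n) :
    HG X fun p q => (T p q).map (pl f) where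
  deg p q _ := fun ⟨c, hc, e⟩ => e ▸ (hY.deg p q c hc).map f
  one := ⟨1, hY.one, map_one (H.map f)⟩
  mul p q p' q' _ := fun ⟨a, ha, e⟩ _ ⟨b, hb, e'⟩ =>
    ⟨a * b, hY.mul p q p' q' a ha b hb, e ▸ e' ▸ map_mul (H.map f) a b⟩
  out p q h := by rw [hY.out p q (hn ▸ h), Submodule.map_bot]
  span := hf.forall.2 (hY.induction
    (P := fun c => H.map f c ∈ ⨆ i : ℤ × ℤ, (T i.1 i.2).map (pl f))
    (by rw [map_zero]; exact zero_mem _) (fun a b ha hb => by rw [map_add]; exact add_mem ha hb)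
    fun p q c hc => Submodule.mem_iSup_of_mem (p, q) ⟨c, hc, rfl⟩)
  cj p q _ := fun ⟨c, hc, e⟩ => ⟨Mono.cj c, hY.cj p q c hc, e ▸ (cj_map f c).symm⟩

end one

section two

variable (hY : HG Y T) (hX : HG X T') {f : C(X.X, Y.X)}
  (hf : ∀ p q, ∀ c ∈ T p q, H.map f c ∈ T' p q)
include hY hX hf

theorem push {a : H X.X} (ha : a ∈ T' p q) :
    PS.push f a ∈ T (p + (Y.n - X.n)) (q + (Y.n - X.n)) :=
  hY.mem_iff.2 fun p' q' y hy e => by
    rw [PS.J_push_mul]
    exact hX.J_mul_eq_zero ha (hf _ _ y hy) (by omega)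

theorem map_prj (p q : ℤ) (c : H Y.X) : H.map f (hY.prj p q c) = hX.prj p q (H.map f c) :=
  LinearMap.congr_fun (hY.ext_ty (f := pl f ∘ₗ hY.prj p q) (g := hX.prj p q ∘ₗ pl f)
    fun p' q' c hc => by
      change H.map f (hY.prj p q c) = hX.prj p q (H.map f c)
      rw [hY.prj_of_mem p q hc, hX.prj_of_mem p q (hf _ _ c hc), apply_ite (H.map f), map_zero]) c

theorem push_prj (p q : ℤ) (a : H X.X) :
    PS.push f (hX.prj p q a) = hY.prj (p + (Y.n - X.n)) (q + (Y.n - X.n)) (PS.push f a) :=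
  LinearMap.congr_fun (hX.ext_ty (f := PS.push f ∘ₗ hX.prj p q)
    (g := hY.prj (p + (Y.n - X.n)) (q + (Y.n - X.n)) ∘ₗ PS.push f) fun p' q' c hc => by
      rw [LinearMap.comp_apply, LinearMap.comp_apply, hX.prj_of_mem p q hc,
        hY.prj_of_mem _ _ (hY.push hX hf hc), apply_ite (PS.push f), map_zero]
      exact if_congr (by omega) rfl rfl) a

theorem of_map (hi : Injective (H.map f)) (hc : H.map f c ∈ T' p q) : c ∈ T p q :=
  hY.mem_iff_prj.2 (hi (by rw [hY.map_prj hX hf, hX.prj_self hc]))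

/-- a class of type `(p, q)` in the image is the image of a class of type `(p, q)` -/
theorem exists_map (hc : H.map f c ∈ T' p q) : ∃ c' ∈ T p q, H.map f c' = H.map f c :=
  ⟨hY.prj p q c, hY.prj_mem p q c, by rw [hY.map_prj hX hf, hX.prj_self hc]⟩

theorem map_eq (hs : Surjective (H.map f)) (p q : ℤ) : (T p q).map (pl f) = T' p q :=
  le_antisymm (fun _ ⟨c, hc, e⟩ => e ▸ hf p q c hc) fun a ha => by
    obtain ⟨c, rfl⟩ := hs a
    exact hY.exists_map hX hf ha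

end two

/-- two comparable Hodge structures are equal -/
theorem eq_of_le {T₁ : ℤ → ℤ → Submodule ℂ (H Y.X)} (hY : HG Y T) (h₁ : HG Y T₁)
    (e : ∀ p q, T p q ≤ T₁ p q) (p q : ℤ) : T p q = T₁ p q :=
  le_antisymm (e p q) fun _ hc => hY.mem_iff.2 fun _ _ _ hy => h₁.J_mul_eq_zero hc (e _ _ hy)

end HG

end Vale.Agent.P287Q.Hb
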