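import Vale.Agent.P287Q.Hb.Defs
import Vale.Agent.P287Q.Pv.Prm
import Vale.Agent.P287Q.Mf.Quo

/-!
# The image cone of a projective embedding
-/

set_option linter.unusedSectionVars false
set_option linter.style.haveILetI false

namespace Vale.Agent.P287Q.Hb

open Set Function Topology Filter Module P291Z P269 P269.Holo P269.Mono P269.Coh P269.Tq Mf

section holm

variable {W W' W'' Y Y' Y'' : Type} [NormedAddCommGroup W] [NormedSpace ℂ W]
  [NormedAddCommGroup W'] [NormedSpace ℂ W'] [NormedAddCommGroup W''] [NormedSpace ℂ W'']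
  {S : Set W} {S' : Set W'} {S'' : Set W''} {π : S → Y} {π' : S' → Y'} {π'' : S'' → Y''}
  {g : Y → Y'} {g' : Y' → Y''}

theorem HolM.comp (h : HolM S π S' π' g) (h' : HolM S' π' S'' π'' g') :
    HolM S π S'' π'' (g' ∘ g) := fun x => by
  classical
  obtain ⟨Φ, h1, h2⟩ := h x
  obtain ⟨h0, -⟩ := h2.self_of_nhds
  obtain ⟨Ψ, h3, h4⟩ := h' ⟨Φ x, h0⟩
  refine ⟨fun y => Ψ (Φ y), AnalyticAt.comp (g := Ψ) h3 h1, ?_⟩
  have t : Tendsto (fun y : S => Φ y) (𝓝 x) (𝓝 (Φ x)) :=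
    h1.continuousAt.tendsto.comp continuous_subtype_val.continuousAt
  have h5 := (ev_sub h0 (p := fun s => ∀ k : s ∈ S', ∃ h : Ψ s ∈ S'',
    g' (π' ⟨s, k⟩) = π'' ⟨Ψ s, h⟩)).1 (h4.mono fun y a _ => a)
  filter_upwards [h2, t.eventually h5] with y ⟨a, b⟩ c
  obtain ⟨d, e⟩ := c a a
  exact ⟨d, by rw [comp_apply, b, e]⟩

theorem HolM.id : HolM S π S π id := fun _ =>
  ⟨fun y => y, analyticAt_id, .of_forall fun y => ⟨y.2, rfl⟩⟩

end holm

variable {A A' W W' : Type} [NormedRing A] [NormedAlgebra ℂ A] [NormedAddCommGroup W]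
  [NormedSpace ℂ W] [NormedRing A'] [NormedAlgebra ℂ A'] [NormedAddCommGroup W'] [NormedSpace ℂ W']
  [FiniteDimensional ℂ A] [FiniteDimensional ℂ W] [FiniteDimensional ℂ A'] [FiniteDimensional ℂ W']
  {act : A → W → W} {act' : A' → W' → W'} {S : Set W} {S' : Set W'} {n : ℤ}

theorem _root_.Vale.Agent.P269.Tq.Hol.holM {θ : A → A'} {f : W → W'}
    (h : Tq.Hol act act' S S' θ f) : HolM S (Quo.mk act) S' (Quo.mk act') h.q := fun x => by
  obtain ⟨Φ, h1, h2⟩ := h.an x x.2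
  refine ⟨Φ, h1, ?_⟩
  filter_upwards [(ev_sub x.2 (p := fun s => f s = Φ s)).2 (eventually_nhdsWithin_iff.1 h2)]
    with y a
  exact ⟨a ▸ h.maps y.2, (h.toEqh.toEqv.qm_mk y).trans (congrArg _ (Subtype.ext a))⟩

theorem _root_.Vale.Agent.P269.Tq.QM.mfdAt (h : QM act S n) : ∀ x ∈ S, ∃ k, MfdAt S k x :=
  fun x hx => ⟨_, h.dim x hx⟩

section cone

open P269.Hdg

variable {N : ℕ}

theorem emb_closed {K : Set (E N)} (hK : IsCompact K) (h0 : ∀ k ∈ K, k ≠ 0) :
    IsClosed {y : E N | ∃ t : ℂ, ∃ k ∈ K, y = t • k} := by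
  refine IsSeqClosed.isClosed fun y y₀ hy h => ?_
  choose t k hk e using hy
  obtain ⟨k₀, h1, u, hu, h2⟩ := hK.tendsto_subseq hk
  obtain ⟨i, hi⟩ := Function.ne_iff.1 (h0 k₀ h1)
  have h3 := h.comp hu.tendsto_atTop
  have h4 := (continuous_apply i).continuousAt.tendsto.comp h2
  have h5 : Tendsto (fun m => t (u m)) atTop (𝓝 (y₀ i / k₀ i)) := by
    refine (((continuous_apply i).continuousAt.tendsto.comp h3).div h4 hi).congr' ?_
    filter_upwards [h4.eventually_ne hi] with m hm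
    simp only [Pi.div_apply, comp_apply, e, Pi.smul_apply, smul_eq_mul] at hm ⊢
    exact mul_div_cancel_right₀ _ hm
  exact ⟨_, k₀, h1, tendsto_nhds_unique h3 ((h5.smul h2).congr fun m => (e _).symm)⟩

/-- The scalar action. -/
theorem isAct_smul : IsAct (fun (a : ℂ) (x : E N) => a • x) univ :=
  ⟨fun x _ => one_smul _ x, fun _ _ _ _ _ _ => mul_smul _ _ _, fun _ _ _ _ => trivial,
    fun _ _ _ _ => analyticAt_fst.smul analyticAt_snd⟩

theorem subC_top : SubC ({0}ᶜ : Set (E N)) N :=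
  ⟨fun _ h => h, fun _ ht _ h => smul_ne_zero ht h, fun _ _ h => h, fun x hx => by
    simpa using (MfdAt.univ x).congr ((isOpen_compl_singleton.eventually_mem hx).mono fun _ a =>
      ⟨fun _ => a, fun _ => trivial⟩)⟩

theorem subC_qm {C : Set (E N)} {n : ℕ} (h : SubC C n) :
    QM (fun (a : ℂ) (x : E N) => a • x) C n ∧
      IsProj (Quo.mk (fun (a : ℂ) (x : E N) => a • x) : C → _) := by
  haveI := isAct_smul (N := N)
  have hm : ∀ {x y : C} {t : ℂ}, t ≠ 0 → t • x.1 = y.1 →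
      Quo.mk (fun (a : ℂ) (x : E N) => a • x) x = Quo.mk (fun (a : ℂ) (x : E N) => a • x) y :=
    fun ht e => Quot.sound ⟨_, ht.isUnit, e.symm⟩
  have hC : C = {0}ᶜ ∩ closure C :=
    Subset.antisymm (fun x hx => ⟨h.ne x hx, subset_closure hx⟩) fun x hx => h.cl x hx.2 hx.1
  haveI : FP (fun (a : ℂ) (x : E N) => a • x) C := by
    refine fp_of (fun a ha x hx => h.inv a ha.ne_zero x hx)
      (hC ▸ isOpen_compl_singleton.isLocallyClosed.inter isClosed_closure.isLocallyClosed)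
      (fun a _ x hx e => smul_left_injective ℂ (h.ne x hx) (e.trans (one_smul ℂ x).symm))
      fun x a x₀ x₁ _ _ h3 _ h5 h6 h7 => ?_
    have h8 := norm_ne_zero_iff.2 (h.ne _ h3)
    refine not_tendsto_atTop_of_tendsto_nhds ((h6.norm.div h5.norm h8).congr'
      ((h5.norm.eventually_ne h8).mono fun n hn => ?_)) h7
    simp only [Pi.div_apply, norm_smul]
    rw [mul_div_cancel_right₀ _ hn]
  have e : Metric.sphere (0 : E N) 1 ∩ closure C ⊆ C := fun x hx =>
    h.cl x hx.2 fun k => by simpa [k] using hx.1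
  haveI : CompactSpace ↥(Metric.sphere (0 : E N) 1 ∩ closure C) :=
    isCompact_iff_compactSpace.1 ((isCompact_sphere _ _).inter_right isClosed_closure)
  haveI : CompactSpace (Quo (fun (a : ℂ) (x : E N) => a • x) C) := by
    refine Surjective.compactSpace (continuous_mk.comp (continuous_inclusion e))
      (mk_surj.forall.2 fun x => ?_)
    have k := norm_ne_zero_iff.2 (h.ne _ x.2)
    have k' : (‖x.1‖ : ℂ) ≠ 0 := Complex.ofReal_ne_zero.2 k
    refine ⟨⟨(‖x.1‖ : ℂ)⁻¹ • x.1, ?_, subset_closure (h.inv _ (inv_ne_zero k') _ x.2)⟩,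
      hm k' (smul_inv_smul₀ k' _)⟩
    simp [norm_smul, inv_mul_cancel₀ k]
  refine ⟨.of_mfd (fun a _ => ⟨smul_add a, fun c x => smul_comm a c x⟩) fun x hx =>
    ⟨n + 1, by rw [finrank_self]; push_cast; ring, h.mfd x hx⟩, isQuotientMap_quot_mk,
    fun x y => ⟨fun e => (QMA.mk_eq e).elim fun a ha => ⟨a, ha.2.symm⟩, fun ⟨t, e⟩ =>
      hm (fun k => h.ne _ y.2 (by rw [← e, k, zero_smul])) e⟩⟩

variable [IsAct act univ] {χ : A → ℂ} {φ : W → E N}

/-- The cone over the image. -/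
def embC (S : Set W) (φ : W → E N) : Set (E N) := {y | ∃ t : ℂ, t ≠ 0 ∧ ∃ x ∈ S, y = t • φ x}

/-- The projection of the cone over the image. -/
noncomputable def embP (act : A → W → W) (S : Set W) (φ : W → E N) (y : embC S φ) : Quo act S :=
  Quo.mk act ⟨y.2.choose_spec.2.choose, y.2.choose_spec.2.choose_spec.1⟩

theorem emb_cpt [FP act S] [CompactSpace (Quo act S)] :
    ∃ K : Set S, IsCompact K ∧ ∀ z, ∃ x ∈ K, Quo.mk act x = z := by
  haveI := FP.lc (act := act) (S := S)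
  choose K hK using fun x : S => exists_compact_mem_nhds x
  choose s hs using (mk_surj : Surjective (Quo.mk act : S → Quo act S))
  obtain ⟨T, hT⟩ := CompactSpace.elim_nhds_subcover (fun z => Quo.mk act '' K (s z)) fun z => by
    have := (Sp.isOpenQuotientMap_mk (act := act) (S := S)).isOpenMap.image_mem_nhds
      (x := s z) (hK (s z)).2
    rw [← hs z]
    rw [show s (Quo.mk act (s z)) = s z by rw [hs z]]
    exact this
  refine ⟨⋃ z ∈ T, K (s z), T.isCompact_biUnion fun z _ => (hK _).1, fun z => ?_⟩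
  obtain ⟨w, hw, x, hx, e⟩ := mem_iUnion₂.1 (hT.ge (mem_univ z))
  exact ⟨x, mem_biUnion hw hx, e⟩

namespace Emb

variable (e : Emb act S χ φ)
include e

theorem mem {t : ℂ} (ht : t ≠ 0) (x : S) : t • φ x ∈ embC S φ := ⟨t, ht, x, x.2, rfl⟩

theorem mem1 (x : S) : φ x ∈ embC S φ := ⟨1, one_ne_zero, x, x.2, (one_smul _ _).symm⟩

theorem P_eq {y : embC S φ} {t : ℂ} {x : S} (h : y.1 = t • φ x) :
    embP act S φ y = Quo.mk act x := by
  obtain ⟨h1, h2⟩ := y.2.choose_spec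
  have h3 := h2.choose_spec
  obtain ⟨a, h4, h5⟩ := e.inj _ x.2 _ h3.1 ((y.2.choose)⁻¹ * t)
    (by rw [mul_smul, ← h, eq_inv_smul_iff₀ h1]; exact h3.2.symm)
  exact (Quot.sound ⟨a, h4, h5⟩).symm

theorem ne0 {y : E N} (h : y ∈ embC S φ) : y ≠ 0 := by
  obtain ⟨t, ht, x, hx, rfl⟩ := h
  exact smul_ne_zero ht (e.ne x hx)

theorem of_P {y : embC S φ} {x : S} (h : embP act S φ y = Quo.mk act x) :
    ∃ t : ℂ, t ≠ 0 ∧ y.1 = t • φ x := by
  obtain ⟨y, t, ht, x', hx', rfl⟩ := y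
  rw [e.P_eq (x := ⟨x', hx'⟩) rfl] at h
  obtain ⟨a, h1, h2⟩ := QMA.mk_eq h.symm
  refine ⟨t * χ a, mul_ne_zero ht (e.hm.isUnit h1).ne_zero, ?_⟩
  rw [mul_smul, ← e.eqv a h1 _ x.2, ← h2]

theorem cont : Continuous fun x : S => φ x :=
  continuous_iff_continuousAt.2 fun x =>
    (e.an x x.2).continuousAt.comp continuous_subtype_val.continuousAt

theorem pre [FP act S] [CompactSpace (Quo act S)] {Z : Set (Quo act S)} (hZ : IsClosed Z) :
    ∃ D : Set (E N), IsClosed D ∧ (∀ y : embC S φ, embP act S φ y ∈ Z ↔ y.1 ∈ D) ∧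
      ∀ y ∈ D, y ≠ 0 → y ∈ embC S φ := by
  obtain ⟨K, hK, h⟩ := emb_cpt (act := act) (S := S)
  refine ⟨_, emb_closed ((hK.inter_right (hZ.preimage continuous_mk)).image e.cont)
    (by rintro _ ⟨x, -, rfl⟩; exact e.ne x x.2), fun y => ⟨fun hy => ?_, ?_⟩, ?_⟩
  · obtain ⟨x, h1, h2⟩ := h (embP act S φ y)
    obtain ⟨t, -, h3⟩ := e.of_P h2.symm
    exact ⟨t, _, ⟨x, ⟨h1, (h2.symm ▸ hy : Quo.mk act x ∈ Z)⟩, rfl⟩, h3⟩
  · rintro ⟨t, _, ⟨x, h1, rfl⟩, h2⟩
    rw [e.P_eq h2]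
    exact h1.2
  · rintro y ⟨t, _, ⟨x, -, rfl⟩, rfl⟩ h0
    exact e.mem (left_ne_zero_of_smul h0) x

theorem contP [FP act S] [CompactSpace (Quo act S)] : Continuous (embP act S φ) :=
  continuous_iff_isClosed.2 fun Z hZ => by
    obtain ⟨D, h1, h2, -⟩ := e.pre hZ
    exact (Set.ext h2 : embP act S φ ⁻¹' Z = Subtype.val ⁻¹' D) ▸ h1.preimage continuous_subtype_val

theorem prm [FP act S] [CompactSpace (Quo act S)] {m : ℕ} {σ : (Fin m → ℂ) → Sp act S}
    (hσ : Sl σ 0) {t : ℂ} (ht : t ≠ 0) :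
    Prm (embC S φ) (fun p : ℂ × (Fin m → ℂ) => p.1 • φ (σ p.2).val) (t, 0) := by
  classical
  haveI := FiniteDimensional.complete ℂ A
  have a1 := hσ.an
  have a2 := e.an _ (σ 0).val_mem
  have a3 : AnalyticAt ℂ (fun z => φ (σ z).val) 0 := AnalyticAt.comp (g := φ) a2 a1
  have a4 : AnalyticAt ℂ (fun p : ℂ × (Fin m → ℂ) => p.1 • φ (σ p.2).val) (t, 0) :=
    analyticAt_fst.smul (AnalyticAt.comp (g := fun z => φ (σ z).val) a3 analyticAt_snd)
  refine ⟨a4, ?_, le_antisymm ?_ ?_⟩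
  · rw [injective_iff_map_eq_zero]
    rintro ⟨s, v⟩ h
    rw [fderiv_prod_apply a4] at h
    simp only at h
    rw [fderiv_smul_const differentiableAt_fun_id, fderiv_fun_const_smul a3.differentiableAt,
      fderiv_comp_an (g := φ) (f := fun z => (σ z).val) a2 a1] at h
    simp only [fderiv_fun_id, ContinuousLinearMap.smulRight_apply, ContinuousLinearMap.id_apply,
      smul_apply, ContinuousLinearMap.comp_apply] at h
    obtain ⟨ξ, hξ⟩ := e.imm _ (σ 0).val_mem _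
      (fderiv_mem_tn a1 (.of_forall fun z => (σ z).val_mem) v) (-(t⁻¹ * s)) (by
        rw [neg_smul, mul_smul, ← smul_neg, eq_inv_smul_iff₀ ht]
        exact eq_neg_of_add_eq_zero_right h)
    have a5 := IsAct.an (act := act) (S := S) 1 isUnit_one _ (σ 0).val_mem
    have a6 : AnalyticAt ℂ (fun a => act a (σ 0).val) (NormedSpace.exp (0 : A)) := by
      rw [NormedSpace.exp_zero]
      exact a5.comp (f := fun a => (a, (σ 0).val)) (analyticAt_id.prod analyticAt_const)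
    have hi : inf (expU : A → Aˣ) Sp.val (σ 0) = fderiv ℂ (fun a => act a (σ 0).val) 1 := by
      have := fderiv_comp_an (g := fun a => act a (σ 0).val) a6 (exp_an 0)
      rw [(hasFDerivAt_exp_zero (𝕂 := ℂ)).fderiv, NormedSpace.exp_zero] at this
      exact this
    have hv := IsSlK.injective isExp_expU (holAct_units a5 fun _ _ => rfl) hσ
      (a₁ := (-ξ, v)) (a₂ := 0) (by
        rw [map_zero, ContinuousLinearMap.coprod_apply, hi, map_neg, ← hξ, neg_add_cancel])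
    have hv0 : v = 0 := congrArg Prod.snd hv
    rw [hv0, map_zero, map_zero, smul_zero, add_zero] at h
    exact Prod.ext ((smul_eq_zero.1 h).resolve_right (e.ne _ (σ 0).val_mem)) hv0
  · refine tendsto_nhdsWithin_iff.2 ⟨a4.continuousAt, ?_⟩
    filter_upwards [continuousAt_fst.eventually_ne (x := (t, (0 : Fin m → ℂ))) ht] with p hp
    exact e.mem hp (σ p.2)
  · obtain ⟨c, -, c1, c2⟩ := hσ.exists_gd
    obtain ⟨i, hi⟩ := Function.ne_iff.1 (e.ne _ (σ 0).val_mem)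
    have h0 : t • φ (σ 0).val ∈ embC S φ := e.mem ht (σ 0)
    have h1 : embP act S φ ⟨_, h0⟩ = c.symm 0 := (e.P_eq rfl).trans (c2 0).symm
    have h2 : Tendsto (embP act S φ) (𝓝 ⟨_, h0⟩) (𝓝 (c.symm 0)) := h1 ▸ e.contP.continuousAt
    have h3 : Tendsto (fun y => c (embP act S φ y)) (𝓝 ⟨_, h0⟩) (𝓝 0) := by
      have := (c.continuousAt (c.map_target c1)).tendsto.comp h2
      rwa [c.right_inv c1] at this
    have h4 := ((continuous_apply i).continuousAt.tendsto.comp a3.continuousAt.tendsto).comp h3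
    have h5 : Tendsto (fun y : embC S φ => (y.1 i / φ (σ (c (embP act S φ y))).val i,
        c (embP act S φ y))) (𝓝 ⟨_, h0⟩) (𝓝 (t, 0)) := by
      refine Tendsto.prodMk_nhds ?_ h3
      have := (((continuous_apply i).comp continuous_subtype_val).tendsto
        (⟨_, h0⟩ : embC S φ)).div h4 hi
      simp only [comp_apply, Pi.smul_apply, smul_eq_mul] at this
      rwa [mul_div_cancel_right₀ _ hi] at this
    refine (map_nhds_subtype_val (⟨_, h0⟩ : embC S φ)).ge.trans fun U hU => ?_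
    rw [mem_map] at hU ⊢
    filter_upwards [h5.eventually hU, h2.eventually (c.open_source.mem_nhds (c.map_target c1)),
      h4.eventually_ne hi] with y b1 b2 b3
    obtain ⟨s, -, hs⟩ := e.of_P (x := σ (c (embP act S φ y)))
      ((c.left_inv b2).symm.trans (c2 _))
    have : y.1 i / φ (σ (c (embP act S φ y))).val i = s :=
      (congrArg (· / _) (congrFun hs i)).trans (mul_div_cancel_right₀ _ b3)
    rw [this] at b1
    rw [mem_preimage, hs]
    exact b1

theorem exists_cone (h : QM act S n) : ∃ (C : Set (E N)) (π : C → Quo act S), SubC C n.toNat ∧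
    IsProj π ∧ (∀ x : S, ∃ hx : φ x ∈ C, π ⟨φ x, hx⟩ = Quo.mk act x) ∧
    HolM S (Quo.mk act) C π id ∧ HolM C π S (Quo.mk act) id := by
  haveI := h.fp
  haveI := h.cpt
  have h1 : ∀ x : S, embP act S φ ⟨φ x, e.mem1 x⟩ = Quo.mk act x := fun x =>
    e.P_eq (one_smul ℂ _).symm
  have h2 : ∀ y ∈ embC S φ, ∃ (σ : (Fin n.toNat → ℂ) → Sp act S) (t : ℂ),
      y = t • φ (σ 0).val ∧ AnalyticAt ℂ (fun z => (σ z).val) 0 ∧
      Prm (embC S φ) (fun p : ℂ × (Fin n.toNat → ℂ) => p.1 • φ (σ p.2).val) (t, 0) := by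
    rintro _ ⟨t, ht, x, hx, rfl⟩
    obtain ⟨σ, s1, s2⟩ := exists_sl h.dim (Sp.of act x hx)
    exact ⟨σ, t, by rw [s1]; rfl, s2.an, e.prm s2 ht⟩
  refine ⟨embC S φ, embP act S φ, ⟨fun _ => e.ne0, ?_, fun y hy h0 => ?_, fun y hy => ?_⟩,
    ⟨?_, fun x y => ⟨fun k => ?_, fun ⟨t, k⟩ => ?_⟩⟩, fun x => ⟨_, h1 x⟩,
    fun x => ⟨φ, e.an x x.2, .of_forall fun y => ⟨_, (h1 y).symm⟩⟩, fun y => ?_⟩
  · rintro s hs _ ⟨t, ht, x, hx, rfl⟩
    exact ⟨s * t, mul_ne_zero hs ht, x, hx, (mul_smul _ _ _).symm⟩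
  · obtain ⟨D, d1, d2, d3⟩ := e.pre isClosed_univ
    exact d3 y (closure_minimal (fun z hz => (d2 ⟨z, hz⟩).1 trivial) d1 hy) h0
  · obtain ⟨σ, t, rfl, -, k⟩ := h2 y hy
    exact k.mfdAt (by simp [add_comm])
  · refine IsQuotientMap.of_comp (f := fun x : S => (⟨φ x, e.mem1 x⟩ : embC S φ))
      (e.cont.subtype_mk _) e.contP ?_
    rw [show (embP act S φ ∘ fun x : S => (⟨φ x, e.mem1 x⟩ : embC S φ)) = Quo.mk act from funext h1]
    exact isQuotientMap_quot_mk
  · obtain ⟨z, hz⟩ := mk_surj (embP act S φ y)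
    obtain ⟨s, hs, k1⟩ := e.of_P (k.trans hz.symm)
    obtain ⟨t, -, k2⟩ := e.of_P hz.symm
    exact ⟨t * s⁻¹, by rw [k1, k2, mul_smul, inv_smul_smul₀ hs]⟩
  · obtain ⟨z, hz⟩ := mk_surj (embP act S φ x)
    obtain ⟨s, -, k1⟩ := e.of_P hz.symm
    rw [← hz, e.P_eq (y := y) (t := t * s) (x := z) (by rw [← k, k1, mul_smul])]
  · obtain ⟨σ, t, k0, a1, k⟩ := h2 y y.2
    obtain ⟨w, w1, w2, -, w4⟩ := k.exists_inv
    simp only [← k0] at w1 w2 w4
    refine ⟨fun s => (σ (w s).2).val, AnalyticAt.comp (g := fun z => (σ z).val)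
      (f := fun s => (w s).2) (by rwa [w2]) (analyticAt_snd.comp w1), ?_⟩
    filter_upwards [(ev_sub y.2 (p := fun s => (w s).1 • φ (σ (w s).2).val = s)).2 w4] with z hz
    exact ⟨Sp.val_mem _, e.P_eq hz.symm⟩

end Emb

end cone

end Vale.Agent.P287Q.Hb
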