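import Vale.Agent.P287Q.Hb.Span
import Vale.Agent.P287Q.Hb.Emb
import Vale.Agent.P287Q.Hb.PV
import Vale.Agent.P287Q.Hb.Abs

/-!
# Hodge structures on projective orbit spaces
-/

set_option linter.unusedSectionVars false

namespace Vale.Agent.P287Q.Hb

open Set P291Z P269 P269.Holo P269.Mono P269.Coh P269.Tq Mf

section gen

variable {W W' Y : Type} [NormedAddCommGroup W] [NormedSpace ℂ W] [NormedAddCommGroup W']
  [NormedSpace ℂ W'] [FiniteDimensional ℂ W] [FiniteDimensional ℂ W'] [TopologicalSpace Y]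
  {S : Set W} {S' : Set W'} {π : S → Y} {π' : S' → Y}

theorem HT_le_of_holM (hS : ∀ x ∈ S, ∃ k, MfdAt S k x) (hg : HolM S π S' π' id) (p q : ℤ) :
    HT S' π' p q ≤ HT S π p q := fun c hc => by
  unfold HT at hc ⊢
  split_ifs at hc ⊢ with k
  · have := IsHd.pull_lift' hS (ContinuousMap.id Y) hg hc
    rwa [H.map_id fun _ => rfl] at this
  · exact hc

/-- The types do not depend on the presentation. -/
theorem HT_eq_of_holM (hS : ∀ x ∈ S, ∃ k, MfdAt S k x) (hS' : ∀ x ∈ S', ∃ k, MfdAt S' k x)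
    (hg : HolM S π S' π' id) (hg' : HolM S' π' S π id) : HT S π = HT S' π' :=
  funext₂ fun p q => le_antisymm (HT_le_of_holM hS' hg' p q) (HT_le_of_holM hS hg p q)

end gen

variable {A W : Type} [NormedRing A] [NormedAlgebra ℂ A] [NormedAddCommGroup W]
  [NormedSpace ℂ W] [FiniteDimensional ℂ A] [FiniteDimensional ℂ W] {act : A → W → W} {S : Set W}
  [IsAct act univ] {n : ℤ}

/-- A projective orbit space is the projectivisation of a cone, with the same types. -/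
theorem Emb.exists_cone' {N : ℕ} {χ : A → ℂ} {φ : W → Hdg.E N} (e : Emb act S χ φ)
    (h : QM act S n) : ∃ (C : Set (Hdg.E N)) (π : C → Quo act S), SubC C n.toNat ∧
      Hdg.IsProj π ∧ (∀ x : S, ∃ hx : φ x ∈ C, π ⟨φ x, hx⟩ = Quo.mk act x) ∧
      (n < 0 → C = ∅) ∧ QT act S = HT C π := by
  obtain ⟨C, π, h1, h2, h3, h4, h5⟩ := e.exists_cone h
  refine ⟨C, π, h1, h2, h3, fun hn => eq_empty_of_forall_notMem fun y hy => ?_,
    HT_eq_of_holM h.mfdAt (fun x hx => ⟨_, h1.mfd x hx⟩) h4 h5⟩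
  obtain ⟨x, -⟩ := mk_surj (π ⟨y, hy⟩)
  exact (h.neg hn ▸ x.2 : x.1 ∈ (∅ : Set W))

/-- **Hodge theory of projective orbit spaces.** -/
theorem hg_of (h : QM act S n) (hp : Prj act S) : HG h.ps (QT act S) := by
  obtain ⟨k, χ, φ, e⟩ := hp
  obtain ⟨N, ψ, e⟩ := e.succ
  obtain ⟨C, π, h1, h2, -, h3, h4⟩ := e.exists_cone' h
  rw [h4]
  refine h1.hg (Y := h.ps) h2 ((lt_or_ge n 0).symm.imp (fun k => ?_) h3)
  exact (Int.toNat_of_nonneg k).le

theorem _root_.Vale.Agent.P287Q.PV.hg {J R : Type} [Fintype J] [Fintype R] {π : J → R}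
    {A : Set (J → ℂ)} {n : ℕ} [IsAct (scl π) univ] (h : PV π A n) :
    HG h.qm.ps (QT (scl π) A) := hg_of h.qm h.prj

end Vale.Agent.P287Q.Hb
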