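import Vale.Agent.P287Q.Hb.Defs
import Vale.Agent.P287Q.D.Sard

/-!
# The top power of the class of a line bundle generated by sections counts points
-/

set_option linter.unusedSectionVars false
set_option linter.style.haveILetI false

namespace Vale.Agent.P287Q.Hb

open Set Function Topology Filter Module MeasureTheory P291Z P269 P269.Holo P269.Mono P269.Coh P269.Tq

section bertini

variable {W V : Type} [NormedAddCommGroup W] [NormedSpace ℂ W] [FiniteDimensional ℂ W]
  [NormedAddCommGroup V] [NormedSpace ℂ V] [FiniteDimensional ℂ V] {p : ℕ} {S : Set W}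

theorem pos_an {f : V → Fin p → ℂ} {z : V} (h : AnalyticAt ℂ f z) (l : Fin p → ℂ) :
    AnalyticAt ℂ (fun y => ∑ i, l i * f y i) z :=
  Finset.analyticAt_fun_sum _ fun i _ => analyticAt_const.mul (analyticAt_pi_iff.1 h i)

theorem pos_open (f : V → Fin p → ℂ) : ∀ᵐ l : Fin p → ℂ, ∀ z, AnalyticAt ℂ f z → f z ≠ 0 →
    ∑ i, l i * f z i = 0 → ∃ v, fderiv ℂ (fun y => ∑ i, l i * f y i) z v ≠ 0 := by
  let G : V × (Fin p → ℂ) → ℂ := fun x => ∑ i, x.2 i * f x.1 i
  have hG : ∀ x : V × (Fin p → ℂ), AnalyticAt ℂ f x.1 → AnalyticAt ℂ G x := fun x h =>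
    Finset.analyticAt_fun_sum _ fun i _ => (analyticAt_pi_iff.1 analyticAt_snd i).mul
      (analyticAt_pi_iff.1 (h.comp analyticAt_fst) i)
  refine (D.sard_zero (U := {x : V × (Fin p → ℂ) | AnalyticAt ℂ f x.1 ∧ f x.1 ≠ 0})
    (G := G) (T := Prod.snd) (fun x h => hG x h.1) (fun _ _ => analyticAt_snd) ?_).mono
    fun l hl z h1 h2 h3 => ?_
  · rintro ⟨z, l⟩ ⟨h1, h2⟩ - w
    obtain ⟨i, hi⟩ := Function.ne_iff.1 h2
    have e3 : HasFDerivAt (fun m => G (z, m)) _ l := HasFDerivAt.comp (g := G)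
      (f := fun m => (z, m)) l (hG (z, l) h1).differentiableAt.hasFDerivAt
      (hasFDerivAt_prodMk_right z l)
    let L : (Fin p → ℂ) →L[ℂ] ℂ := ∑ j, f z j • ContinuousLinearMap.proj j
    have e4 : (fun m => G (z, m)) = L := funext fun m => by simp [G, L, mul_comm]
    rw [e4] at e3
    refine ⟨(0, Pi.single i (w / f z i)), ?_⟩
    have e5 := congr($(e3.unique L.hasFDerivAt) (Pi.single i (w / f z i)))
    refine e5.trans ?_
    rw [← e4]
    simp only [G, Pi.single_apply, ite_mul, zero_mul, Finset.sum_ite_eq', Finset.mem_univ, if_true]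
    exact div_mul_cancel₀ _ hi
  · obtain ⟨v, hv⟩ := hl (z, l) ⟨h1, h2⟩ h3 rfl (1, 0)
    have e1 : fderiv ℂ G (z, l) v = 1 := congrArg Prod.fst hv
    have e2 : v.2 = 0 := by simpa [fderiv_snd] using congrArg Prod.snd hv
    have e3 := HasFDerivAt.comp (g := G) (f := fun y => (y, l)) z
      (hG (z, l) h1).differentiableAt.hasFDerivAt (hasFDerivAt_prodMk_left z l)
    refine ⟨v.1, ?_⟩
    rw [show fderiv ℂ (fun y => ∑ i, l i * f y i) z = _ from e3.fderiv]
    change fderiv ℂ G (z, l) (v.1, 0) ≠ 0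
    rw [← e2, Prod.mk.eta, e1]
    exact one_ne_zero

/-- **Bertini**: a general member of a linear system without base points is smooth. -/
theorem pos_bertini (hS : ∀ x ∈ S, ∃ k, MfdAt S k x) {φ : W → Fin p → ℂ}
    (ha : ∀ x ∈ S, AnalyticAt ℂ φ x) (hn : ∀ x ∈ S, φ x ≠ 0) :
    ∀ᵐ l : Fin p → ℂ, ∀ x (hx : x ∈ S), ∑ i, l i * φ x i = 0 →
      ∃ v ∈ tan (Subtype.val : S → W) ⟨x, hx⟩, fderiv ℂ (fun y => ∑ i, l i * φ y i) x v ≠ 0 := by
  have := FiniteDimensional.complete ℂ W
  have := FiniteDimensional.proper ℂ W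
  have key : ∀ x₀ : S, ∃ N ∈ 𝓝 x₀, ∀ᵐ l : Fin p → ℂ, ∀ x ∈ N, ∑ i, l i * φ x i = 0 →
      ∃ v ∈ tan (Subtype.val : S → W) x, fderiv ℂ (fun y => ∑ i, l i * φ y i) x v ≠ 0 := by
    intro x₀
    obtain ⟨k, _, ψ, h1, h2⟩ := hS x₀ x₀.2
    refine ⟨ψ '' {z | IsParam Subtype.val ψ z}, ?_, ?_⟩
    · have h3 := h1.lh.map_nhds
      rw [h2] at h3
      exact h3 ▸ image_mem_map h1.eventually
    filter_upwards [pos_open fun z => φ (ψ z)] with l hl
    rintro _ ⟨z, hz, rfl⟩ h0
    obtain ⟨v, hv⟩ := hl z ((ha _ (ψ z).2).comp (f := fun z => (ψ z).1) hz.an) (hn _ (ψ z).2) h0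
    refine ⟨_, fderiv_mem_tan hz.lh.cont hz.an v, ?_⟩
    rwa [fderiv_comp_an (f := fun z => (ψ z).1) (g := fun y => ∑ i, l i * φ y i)
      (pos_an (ha _ (ψ z).2) l) hz.an] at hv
  choose N h1 h2 using key
  obtain ⟨s, hs1, hs2⟩ := TopologicalSpace.countable_cover_nhds h1
  filter_upwards [(ae_ball_iff hs1).2 fun x _ => h2 x] with l hl x hx h0
  obtain ⟨y, hy, hy'⟩ := mem_iUnion₂.1 (hs2.superset (mem_univ ⟨x, hx⟩))
  exact hl y hy _ hy' h0

end bertini

variable {A W I : Type} [NormedRing A] [NormedAlgebra ℂ A] [NormedAddCommGroup W]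
  [NormedSpace ℂ W] [FiniteDimensional ℂ A] [FiniteDimensional ℂ W] [Fintype I]
  {act : A → W → W} [IsAct act univ] {S Z : Set W} {χ : A → ℂ} {φ : W → I → ℂ}

theorem Gen.res (g : Gen act S χ φ) (e : Z ⊆ S) : Gen act Z χ φ :=
  ⟨g.hm, fun x hx => g.an x (e hx), fun x hx => g.ne x (e hx), fun a ha x hx => g.eqv a ha x (e hx)⟩

/-- A smooth divisor in the class of a line bundle generated by sections. -/
theorem Gen.exists_div {n : ℤ} (g : Gen act S χ φ) (h : QM act S n) :
    ∃ (Z : Set W) (e : Z ⊆ S) (k : QM act Z (n - 1)),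
      PS.push (X := k.ps) (Y := h.ps) (qinc act e) 1 = lcq act S χ := by
  let q := (Fintype.equivFin I).symm
  have a1 : ∀ x ∈ S, AnalyticAt ℂ (fun y j => φ y (q j)) x := fun x hx =>
    analyticAt_pi_iff.2 fun j => analyticAt_pi_iff.1 (g.an x hx) _
  obtain ⟨l, hl⟩ := (pos_bertini (fun x hx => (h.mfd hx).imp' _ fun _ k => k.2) a1
    fun x hx e => g.ne x hx (funext (q.surjective.forall.2 (congrFun e)))).exists
  let s : W → ℂ := fun y => ∑ j, l j * φ y (q j)
  have a2 : ∀ x ∈ S, AnalyticAt ℂ s x := fun x hx => pos_an (a1 x hx) l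
  have a3 : ContinuousOn s S := fun x hx => (a2 x hx).continuousAt.continuousWithinAt
  have a4 : ∀ a, IsUnit a → ∀ x ∈ S, s (act a x) = χ a * s x := fun a ha x hx => by
    simp only [s, g.eqv a ha x hx, Pi.smul_apply, smul_eq_mul, Finset.mul_sum, mul_left_comm]
  have k : QM act {x | x ∈ S ∧ s x = 0} (n - Fintype.card Unit) :=
    h.zero (ι := Unit) (c := fun _ => χ) (s := fun x _ => s x)
      ⟨fun _ => g.hm, continuousOn_pi.2 fun _ => a3, fun a h1 x hx _ => a4 a h1 x hx⟩
      (fun x => and_congr_right' ⟨fun h => funext fun _ => h, fun h => congrFun h ()⟩)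
      (fun x hx => analyticAt_pi_iff.2 fun _ => a2 x hx.1) fun x hx h1 w => by
        obtain ⟨v, h2, h3⟩ := hl x hx h1.2
        refine ⟨(w () / fderiv ℂ s x v) • v, Submodule.smul_mem _ _ h2, funext fun _ => ?_⟩
        rw [fderiv_pi fun _ => (a2 x hx).differentiableAt, ContinuousLinearMap.pi_apply, map_smul,
          smul_eq_mul, div_mul_cancel₀ _ h3]
  exact ⟨_, fun _ hx => hx.1, k, h.push_one' g.hm a3 a4 (fun _ => Iff.rfl) (fun x hx => a2 x hx.1)
    (fun x hx h1 => hl x hx h1.2) k _⟩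

theorem pos_discrete (h : QM act S 0) : DiscreteTopology (Quo act S) := by
  have := h.fp
  have := h.fp.lc
  refine discreteTopology_iff_isOpen_singleton.2 fun x => isOpen_iff_mem_nhds.2 ?_
  rintro x rfl
  obtain ⟨x, rfl⟩ := Sp.surjective_mk x
  have hd : Dim act S 0 := h.dim
  obtain ⟨ψ, a, rfl⟩ := hd.holOrb.slice x
  have h1 := LH.map_nhds a.1
  have h2 := (Orb.isQuo_sp (act := act) (S := S)).oq.map_nhds_eq (ψ 0)
  simp only [one_smul] at h1
  rw [← h2, ← h1]
  exact mem_map.2 (mem_map.2 (univ_mem' fun y => ((Orb.isQuo_sp.eq_iff _ _).2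
    ⟨y.1, congrArg (fun z => y.1 • ψ z) (Subsingleton.elim _ _)⟩).symm))

/-- In dimension zero the integral of `1` is the number of points. -/
theorem pos_J_one (h : QM act S 0) : h.ps.J 1 = Nat.card (Quo act S) := by
  classical
  have := h.fp
  have := h.fp.lc
  have := h.cpt
  have := pos_discrete h
  have : Finite (Quo act S) := finite_of_compact_of_discrete
  have := Fintype.ofFinite (Quo act S)
  have c : ∀ f : Quo act S → ℂ, supp (δ (fn f)) = ∅ := fun f =>
    Orb.cocycle_fn.2 (IsLocallyConstant.of_discrete f)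
  have h1 : ∀ x : Quo act S, h.ps.J (hcls (fn (Pi.single x 1))) = 1 := fun x => by
    obtain ⟨x, rfl⟩ := Sp.surjective_mk x
    have hd : Dim act S 0 := h.dim
    obtain ⟨ψ, a, rfl⟩ := hd.holOrb.slice x
    refine (Loc.intg_hcls _ (c _)).trans ((one_mul _).symm.trans
      ((h.isFund.val a (FP.free _)).2 _ 1 (c _) (fun y hy => by_contra fun k => ?_) ?_))
    · refine fn_van.2 ?_ hy
      rw [nhds_discrete]
      exact Pi.single_eq_of_ne k _
    · rw [pull_fn, show (Pi.single (Sp.mk (ψ 0)) 1 : Quo act S → ℂ) ∘ Sp.mk ∘ ψ = fun _ => 1 from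
        funext fun z => by rw [Subsingleton.elim z 0]; exact Pi.single_eq_same _ _, fn_one,
        ← tau_zero]
      exact Orb.locCo_tau
  have h2 : ∀ s : Finset (Quo act S), h.ps.J (hcls (fn (∑ x ∈ s, Pi.single x 1))) = s.card := by
    intro s
    induction s using Finset.induction_on with
    | empty =>
      rw [Finset.sum_empty, show fn (0 : Quo act S → ℂ) = 0 from
        (fn_const 0).trans (zero_smul _ _), hcls_zero, map_zero, Finset.card_empty, Nat.cast_zero]
    | insert x s hx ih =>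
      rw [Finset.sum_insert hx, fn_add, hcls_add (c _) (c _), map_add, h1, ih,
        Finset.card_insert_of_notMem hx, Nat.cast_succ, add_comm]
  have h3 := h2 Finset.univ
  rwa [show (∑ x, Pi.single x 1 : Quo act S → ℂ) = fun _ => 1 from Finset.univ_sum_single _,
    fn_one, hcls_one, Finset.card_univ, ← Nat.card_eq_fintype_card] at h3

/-- **The top power of the class of a line bundle generated by sections is a natural number.** -/
theorem Gen.J_pow {n : ℕ} (g : Gen act S χ φ) (h : QM act S n) :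
    ∃ m : ℕ, h.ps.J (Tq.lcq act S χ ^ n) = m := by
  induction n generalizing S with
  | zero => exact ⟨_, (congrArg _ (pow_zero _)).trans (pos_J_one h)⟩
  | succ n ih =>
    obtain ⟨Z, e, k, hk⟩ := g.exists_div h
    have k' : QM act Z n := by simpa using k
    have := h.fp
    have := k.fp
    obtain ⟨m, hm⟩ := ih (g.res e) k'
    refine ⟨m, ?_⟩
    rw [pow_succ', ← hm]
    nth_rewrite 1 [← hk]
    rw [PS.J_push_mul, one_mul, map_pow]
    exact congrArg (fun c => k.ps.J (c ^ n)) ((Eqh.incl e).map_lcq g.hm)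

end Vale.Agent.P287Q.Hb
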