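import Vale.Agent.P287Q.Hb.HRd
import Vale.Agent.P287Q.Hb.Emb
import Vale.Agent.P287Q.Hb.Pos
import Vale.Agent.P287Q.Hb.Abs
import Vale.Agent.P287Q.Mf.Var
import Vale.Agent.P287Q.Defs
import Vale.Agent.P287Q.Cub.N0
import Vale.Agent.P287Q.Int.All

/-!
# The Hodge-Riemann relations for a projective manifold
-/

set_option linter.style.haveILetI false

namespace Vale.Agent.P287Q.Hb

open Set P291Z P269 P269.Holo P269.Mono P269.Coh P269.Tq P269.Hdg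

theorem con_of_conn {X : Type} [TopologicalSpace X] [ConnectedSpace X] (y : H X)
    (hy : H.IsDeg 0 y) : ∃ t : ℂ, y = t • 1 := by
  obtain ⟨a, ha, h0, rfl⟩ := H.isDeg_iff.1 hy
  rw [h0.eq_fn] at ha
  obtain ⟨t, ht⟩ := (Orb.cocycle_fn.1 ha).exists_eq_const
  exact ⟨t, by rw [h0.eq_fn, ht, ← hcls_one, ← hcls_smul t cocycle_one, ← fn_const]; rfl⟩

/-- On a fourfold without holomorphic two-forms the hermitian form is negative on `H^{3,1}`. -/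
theorem HG.neg31 {Y : PS} {T : ℤ → ℤ → Submodule ℂ (H Y.X)} (g : HG Y T) {h : H Y.X}
    (r : HR Y T h) (hn : Y.n = 4) (h20 : T 2 0 = ⊥) (hh : h ∈ T 1 1) {x : H Y.X} (hx : x ∈ T 3 1)
    (h0 : x ≠ 0) : ∃ t : ℝ, t < 0 ∧ Y.J (x * Mono.cj x) = t := by
  have h42 : T 4 2 = ⊥ := g.eq_bot_dual (by rw [hn]; exact g.eq_bot_swap h20)
  obtain ⟨t, h1, e⟩ := r 3 1 (by omega) x hx h0 (h42.le (g.mul 1 1 3 1 h hh x hx))
  norm_num at e
  exact ⟨-t, neg_neg_of_pos h1, by rw [neg_eq_iff_eq_neg.1 e, Complex.ofReal_neg]⟩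

variable {A W : Type} [NormedRing A] [NormedAlgebra ℂ A] [NormedAddCommGroup W] [NormedSpace ℂ W]
  [FiniteDimensional ℂ A] [FiniteDimensional ℂ W] {act : A → W → W} [IsAct act univ] {S : Set W}
  {χ : A → ℂ}

/-- The class of Fubini and Study is a real multiple of the hyperplane class. -/
theorem Gen.kcl_eq {N m : ℕ} {n : ℤ} {φ : W → E N} (g : Gen act S χ φ) (h : QM act S n)
    {C : Set (E N)} (hC : SubC C m) {π : C → Quo act S} (hπ : IsProj π)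
    (h1 : ∀ x : S, ∃ hx : φ x ∈ C, π ⟨φ x, hx⟩ = Quo.mk act x) :
    ∃ t : ℝ, kcl hC hπ = (t : ℂ) • lcq act S χ := by
  haveI := isAct_smul (N := N)
  have s := Cub.sc_smul (N := N) (act := fun a x => a • x) fun _ _ => rfl
  have h0 : IsCI (Empty.elim : Empty → MP N) Empty.elim :=
    ⟨fun j => j.elim, fun j => j.elim, fun _ _ => linearIndependent_empty_type⟩
  have hP : SubC (cone (Empty.elim : Empty → MP N)) N :=
    (Set.ext fun _ => ⟨fun k => ⟨k, fun j => j.elim⟩, fun k => k.1⟩ :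
      {0}ᶜ = cone (Empty.elim : Empty → MP N)) ▸ subC_top
  haveI := h.fp
  haveI := (s.qm h0 (n := N) rfl).fp
  have f : Eqh act (fun a x => a • x) S (cone (Empty.elim : Empty → MP N)) χ φ :=
    ⟨g.hm, fun x hx => ⟨g.ne x hx, fun j => j.elim⟩,
      fun x hx => (g.an x hx).continuousAt.continuousWithinAt, g.eqv⟩
  obtain ⟨_, e⟩ := cmp_incl hC hπ hP s.isProj (fun y hy => ⟨hC.ne y hy, fun j => j.elim⟩) f.toEqv.qm
    (fun y => by
      obtain ⟨x, hx⟩ := mk_surj (π y)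
      obtain ⟨k, e⟩ := h1 x
      obtain ⟨t, ht, e'⟩ := hC.fib hπ (e.trans hx)
      rw [← hx]
      exact s.mk_smul ht e'.symm) (kap_Z hP)
  obtain ⟨c, hc⟩ : ∃ c : ℂ, kcl hC hπ = c • lcq act S χ := by
    refine (amb_deg (s.h_deg h0 (n := N) rfl) (s.amb_P h0 rfl _) (kcl_deg hP s.isProj)).elim
      (fun k => ⟨0, ?_⟩) fun ⟨j, c, k, k'⟩ => ⟨c, ?_⟩
    · rw [zero_smul]; exact e.trans ((congrArg _ k).trans (map_zero _))
    · rw [show j = 1 by omega, pow_one] at k'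
      exact e.trans ((congrArg _ k').trans ((H.map_smulC _ _ _).trans
        (congrArg _ (f.map_lcq Tq.Hm.id))))
  have h2 := cj_kcl hC hπ
  rw [hc, LinearMap.map_smulₛₗ, Zc.cj_of_Lam (Zc.lcq_Lk h g.hm).1] at h2
  refine ⟨c.re, ?_⟩
  rw [Complex.re_eq_add_conj, div_eq_inv_mul, mul_smul, add_smul, h2, hc, ← two_smul ℂ,
    inv_smul_smul₀ two_ne_zero]

/-- **The Hodge-Riemann relations** for a real multiple of the hyperplane class. -/
theorem Emb.hr_rel {I : Type} [Fintype I] {φ : W → I → ℂ} (e : Emb act S χ φ) {n : ℕ}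
    (h : QM act S n) (con : ∀ x : H (Quo act S), H.IsDeg 0 x → ∃ c : ℂ, x = c • 1)
    (hS : S.Nonempty) : ∃ (t : ℝ) (m : ℕ), h.ps.J (lcq act S χ ^ n) = m ∧ t ^ n * m ≠ 0 ∧
      (t : ℂ) • lcq act S χ ∈ QT act S 1 1 ∧
      ∀ p q : ℕ, p + q = n → ∀ x ∈ QT act S p q, x ≠ 0 → lcq act S χ * x = 0 →
        ∃ r : ℝ, 0 < r ∧ (-1) ^ ((p + q) * (p + q - 1) / 2) * Complex.I ^ p * (-Complex.I) ^ q *
          h.ps.J (x * cj x) = (r * (t ^ n * m) : ℝ) := by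
  obtain ⟨N, ψ, e'⟩ := e.succ
  obtain ⟨C, π, hC, hπ, h1, h2, h3⟩ := e'.exists_cone h
  obtain ⟨t, ht⟩ := e'.toGen.kcl_eq h hC hπ h1
  obtain ⟨m, hm⟩ := e.toGen.J_pow h
  obtain ⟨h4, h5⟩ := hC.hr (Y := h.ps) hπ rfl con ⟨_, (h1 ⟨_, hS.some_mem⟩).1⟩
  have h6 : h.ps.J (kcl hC hπ ^ n) = (t ^ n * m : ℝ) := by
    rw [ht, smul_pow, map_smul, hm]; simp
  refine ⟨t, m, hm, fun k => h4 (h6.trans (by rw [k]; simp)), ?_, fun p q k x hx h0 h7 => ?_⟩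
  · have := kcl_mem hC hπ
    rw [← ht, ← H.map_id (f := .id _) (fun _ => rfl) (kcl hC hπ)]
    exact (HT_nat _ _ 1 1).ge (Mf.IsHd.pull_lift' h.mfdAt _ h2 ((HT_nat _ _ 1 1).le this))
  · refine (h5 p q k x ?_ h0 (by rw [ht, smul_mul_assoc, h7, smul_zero])).imp fun r a =>
      ⟨a.1, a.2.trans (by rw [Complex.ofReal_mul r]; exact congrArg _ h6)⟩
    rw [← H.map_id (f := .id _) (fun _ => rfl) x]
    exact (HT_nat _ _ p q).ge (Mf.IsHd.pull_lift' (fun y hy => ⟨_, hC.mfd y hy⟩) _ h3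
      ((HT_nat _ _ p q).le hx))

variable {I : Type} [Fintype I] {φ : W → I → ℂ} (e : Emb act S χ φ) {n : ℕ} (h : QM act S n)
  (con : ∀ x : H (Quo act S), H.IsDeg 0 x → ∃ c : ℂ, x = c • 1) (hS : S.Nonempty)
include e con hS

/-- **The degree is positive.** -/
theorem Emb.J_pos : ∃ m : ℕ, 0 < m ∧ h.ps.J (lcq act S χ ^ n) = m :=
  let ⟨_, m, h1, h2, _⟩ := e.hr_rel h con hS
  ⟨m, Nat.pos_of_ne_zero fun k => h2 (by rw [k, Nat.cast_zero, mul_zero]), h1⟩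

/-- **The Hodge-Riemann relations** in even dimension. -/
theorem Emb.hr (hn : Even n) : HR h.ps (QT act S) (lcq act S χ) := fun p q k x hx h0 h1 => by
  obtain ⟨t, m, -, h2, -, h3⟩ := e.hr_rel h con hS
  obtain ⟨r, h4, h5⟩ := h3 p q (Nat.cast_injective ((Nat.cast_add p q).trans k)) x hx h0 h1
  exact ⟨_, mul_pos h4 ((mul_nonneg (hn.pow_nonneg t) m.cast_nonneg).lt_of_ne' h2), h5⟩

include h in
theorem Emb.mem11 (hn : n ≠ 0) : lcq act S χ ∈ QT act S 1 1 := by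
  obtain ⟨t, m, -, h2, h3, -⟩ := e.hr_rel h con hS
  exact (Submodule.smul_mem_iff _ (Complex.ofReal_ne_zero.2 fun k =>
    h2 (by rw [k, zero_pow hn, zero_mul]))).1 h3

end Vale.Agent.P287Q.Hb

namespace Vale.Agent.P287Q.Var

open P291Z P269 P269.Mono P269.Tq Hb

variable {n : ℕ} (V : Var n)

theorem con (y : H V.X) (hy : H.IsDeg 0 y) : ∃ t : ℂ, y = t • 1 := con_of_conn y hy

theorem emb : ∃ (N : ℕ) (φ : (V.J → ℂ) → Fin (N + 1) → ℂ),
    Emb (scl V.π) V.A (fun t => ∏ r, t r ^ (1 : V.R → ℤ) r) φ := by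
  simpa using V.pv.emb'

theorem amp_pos : ∃ m : ℕ, 0 < m ∧ V.int (V.lc 1 ^ n) = m :=
  let ⟨_, _, e⟩ := V.emb
  e.J_pos V.qm V.con V.conn.nonempty

theorem amp_mem (hn : n ≠ 0) : V.lc 1 ∈ V.T 1 1 :=
  let ⟨_, _, e⟩ := V.emb
  e.mem11 V.qm V.con V.conn.nonempty hn

theorem amp_Lk : V.lc 1 ∈ Zc.Lk V.X 2 := Zc.lcq_Lk V.qm (hm_chr 1)

/-- **The Hodge-Riemann relations.** -/
theorem hr (hn : Even n) : HR V.ps V.T (V.lc 1) :=
  let ⟨_, _, e⟩ := V.emb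
  e.hr V.qm V.con V.conn.nonempty hn

theorem neg31 (V : Var 4) (g : HG V.ps V.T) (h20 : V.Hg 2 0 = ⊥) {x : H V.X} (hx : x ∈ V.T 3 1)
    (h0 : x ≠ 0) : ∃ t : ℝ, t < 0 ∧ V.int (x * cj x) = t :=
  g.neg31 (V.hr (by decide)) rfl ((V.T_nat 2 0).trans h20) (V.amp_mem (by decide)) hx h0

theorem hr31 (V : Var 4) (g : HG V.ps V.T) (h20 : V.Hg 2 0 = ⊥) (x : H V.X) (hx : x ∈ V.T 3 1)
    (e : V.int (x * cj x) = 0) : x = 0 := by_contra fun h0 =>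
  let ⟨_, h1, h2⟩ := V.neg31 g h20 hx h0
  h1.ne (by exact_mod_cast h2.symm.trans e)

end Vale.Agent.P287Q.Var
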