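import Vale.Agent.P287Q.Hb.KBD

/-!
# Projective bundles over an orbit space are manifolds
-/

set_option linter.unusedSectionVars false
set_option linter.style.haveILetI false

namespace Vale.Agent.P287Q.Hb

open Set Function Topology Filter Module P291Z P269 P269.Holo P269.Mono P269.Tq

variable {A W K : Type} [NormedRing A] [NormedAlgebra ℂ A] [NormedAddCommGroup W] [NormedSpace ℂ W]
  [Fintype K] [FiniteDimensional ℂ A] [FiniteDimensional ℂ W] {act : A → W → W} {χ : K → A → ℂ}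
  {ψ : A → ℂ} {φ : W → K → ℂ} {S : Set W} {n m : ℤ} [IsAct act univ] [IsAct (pbAct act χ) univ]

namespace Chr

variable (c : Chr χ)
include c

theorem ne0 {a : A} (ha : IsUnit a) (k : K) : χ k a ≠ 0 := ((c.hm k).isUnit ha).ne_zero

theorem inv (h : FP act S) (g : A × ℂ) (hg : IsUnit g) (p : W × (K → ℂ)) (hp : p ∈ pbS S) :
    pbAct act χ g p ∈ pbS S := by
  obtain ⟨h1, h2⟩ := Prod.isUnit_iff.1 hg
  obtain ⟨k, hk⟩ := ne_iff.1 hp.2
  exact ⟨h.mem _ h1 _ hp.1, ne_iff.2 ⟨k, mul_ne_zero (mul_ne_zero h2.ne_zero (c.ne0 h1 k)) hk⟩⟩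

theorem fp (h : FP act S) : FP (pbAct act χ) (pbS S) := by
  haveI := h.lc
  haveI : IsAct (pbAct act χ) (pbS S) := IsAct.mono ‹_› (subset_univ _) (c.inv h)
  haveI : LocallyCompactSpace ({0}ᶜ : Set (K → ℂ)) := isOpen_compl_singleton.locallyCompactSpace
  let b : Sp (pbAct act χ) (pbS S) → Sp act S := fun x => .of act x.val.1 x.val_mem.1
  have hb : Continuous b := (continuous_fst.comp Sp.continuous_val).subtype_mk _
  have hw : ∀ k, Continuous fun x : Sp (pbAct act χ) (pbS S) => x.val.2 k := fun k =>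
    (continuous_apply k).comp (continuous_snd.comp Sp.continuous_val)
  refine { this with
    proper := properSMul_units_seq fun x y p g h1 h2 h3 => ?_
    lc := (Homeomorph.Set.prod S {0}ᶜ).isClosedEmbedding.locallyCompactSpace
    free := fun x g e => ?_ }
  · let U := Ultrafilter.of (atTop : Filter ℕ)
    have hU : (U : Filter ℕ) ≤ atTop := Ultrafilter.of_le _
    obtain ⟨a, ha⟩ := (properSMul_iff_continuousSMul_ultrafilter_tendsto_t2.1 h.proper).2
      (U.map fun n => (kb_fst.ρ (g n), b (p n))) (b y) (b x)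
      (Tendsto.prodMk_nhds (((hb.tendsto _).comp h2).mono_left hU)
        (((hb.tendsto _).comp h1).mono_left hU))
    have h4 : Tendsto (fun n => (g n).val.1) U (𝓝 a.val) :=
      (Units.continuous_val.tendsto a).comp ha
    obtain ⟨k, hk⟩ := ne_iff.1 x.val_mem.2
    have h5 : Tendsto (fun n => χ k (g n).val.1 * (p n).val.2 k) U (𝓝 (χ k a * x.val.2 k)) :=
      (((c.hm k).cont _ a.isUnit).tendsto.comp h4).mul ((((hw k).tendsto _).comp h1).mono_left hU)
    have h6 : Tendsto (fun n => (g n).val.2 * χ k (g n).val.1 * (p n).val.2 k) U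
        (𝓝 (y.val.2 k)) := (((hw k).tendsto _).comp h2).mono_left hU
    have h7 := mul_ne_zero (c.ne0 a.isUnit k) hk
    have h8 : Tendsto (fun n => (g n).val.2) U (𝓝 (y.val.2 k / (χ k a * x.val.2 k))) :=
      (h6.div h5 h7).congr' ((h5.eventually_ne h7).mono fun n hn => by
        rw [Pi.div_apply, mul_assoc, mul_div_cancel_right₀ _ hn])
    exact not_tendsto_nhds_of_tendsto_atTop (h3.mono_left hU) _ (h4.prodMk_nhds h8).norm
  · have h1 : g.val.1 = 1 := congrArg Units.val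
      (h.free (b x) (kb_fst.ρ g) (Sp.ext (congrArg (fun z => z.val.1) e)))
    obtain ⟨k, hk⟩ := ne_iff.1 x.val_mem.2
    have h2 : g.val.2 * χ k g.val.1 * x.val.2 k = x.val.2 k := congrArg (fun z => z.val.2 k) e
    rw [h1, (c.hm k).one, mul_one] at h2
    exact Units.ext (Prod.ext h1 ((mul_eq_right₀ hk).1 h2))

omit c in
theorem lin (h : ∀ a, IsUnit a → IsLinearMap ℂ (act a)) (g : A × ℂ) (hg : IsUnit g) :
    IsLinearMap ℂ (pbAct act χ g) :=
  ⟨fun _ _ => Prod.ext ((h _ (Prod.isUnit_iff.1 hg).1).map_add _ _) (funext fun _ => mul_add _ _ _),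
    fun _ _ => Prod.ext ((h _ (Prod.isUnit_iff.1 hg).1).map_smul _ _)
      (funext fun _ => mul_left_comm _ _ _)⟩

theorem cpt [FP act S] [CompactSpace (Quo act S)] : CompactSpace (Quo (pbAct act χ) (pbS S)) := by
  obtain ⟨T, hT, hs⟩ := Loc.exists_compact (sp act S) isCompact_univ
  haveI := isCompact_iff_compactSpace.1 hT
  let f : T × Metric.sphere (0 : K → ℂ) 1 → Quo (pbAct act χ) (pbS S) := fun p =>
    Quo.mk _ ⟨(Sp.val (act := act) p.1.1, p.2.1), Sp.val_mem (act := act) p.1.1,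
      ne_zero_of_mem_unit_sphere p.2⟩
  refine Surjective.compactSpace (f := f) (continuous_mk.comp (Continuous.subtype_mk
    ((Sp.continuous_val.comp (continuous_subtype_val.comp continuous_fst)).prodMk
      (continuous_subtype_val.comp continuous_snd)) _)) (mk_surj.forall.2 fun x => ?_)
  obtain ⟨t, ht, e⟩ := hs (mem_univ (Quo.mk act ⟨x.1.1, x.2.1⟩))
  obtain ⟨a, ha, e'⟩ := QMA.mk_eq (x := t) (y := ⟨x.1.1, x.2.1⟩) e
  let w : K → ℂ := fun k => x.1.2 k / χ k a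
  have hw : w ≠ 0 := (ne_iff.1 x.2.2).elim fun k hk => ne_iff.2 ⟨k, div_ne_zero hk (c.ne0 ha k)⟩
  have h0 : (‖w‖ : ℂ) ≠ 0 := Complex.ofReal_ne_zero.2 (norm_ne_zero_iff.2 hw)
  refine ⟨(⟨t, ht⟩, ⟨(‖w‖ : ℂ)⁻¹ • w, mem_sphere_zero_iff_norm.2 (norm_smul_inv_norm hw)⟩),
    Quot.sound ⟨(a, ‖w‖), Prod.isUnit_iff.2 ⟨ha, h0.isUnit⟩, Prod.ext e' (funext fun k => ?_)⟩⟩
  have := c.ne0 ha k
  change x.1.2 k = ‖w‖ * χ k a * ((‖w‖ : ℂ)⁻¹ * (x.1.2 k / χ k a))
  field_simp

/-- **The projective bundle is a compact manifold.** -/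
theorem qm (h : QM act S n) {r : ℕ} (hr : Fintype.card K = r + 1) :
    QM (pbAct act χ) (pbS S) (n + r) := by
  haveI := h.fp
  haveI := h.cpt
  haveI := c.fp h.fp
  haveI := c.cpt (act := act) (S := S)
  haveI := FiniteDimensional.complete ℂ W
  refine .of_mfd (lin h.lin) fun p hp => ?_
  obtain ⟨k, e, hk⟩ := h.mfd hp.1
  refine ⟨_, ?_, (hk.prod (.univ p.2)).congr ((continuousAt_snd.eventually_ne hp.2).mono fun s b =>
    ⟨fun d => ⟨d.1, b⟩, fun d => ⟨d.1, trivial⟩⟩)⟩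
  rw [finrank_prod, finrank_self, finrank_fintype_fun_eq_card, hr]
  omega

end Chr

theorem kb_sub : kbS S φ ⊆ pbS S := fun _ h => ⟨h.1, h.2.1⟩

namespace KB

variable (k : KB act S χ ψ φ)
include k

theorem hm' : Hm fun g : A × ℂ => g.2 * ψ g.1 := kb_snd.mul' (kb_fst.comp k.hψ)

theorem an' {p : W × (K → ℂ)} (hp : p.1 ∈ S) : AnalyticAt ℂ (fun p : W × (K → ℂ) => φ p.1 ⬝ᵥ p.2) p :=
  Finset.analyticAt_fun_sum _ fun i _ =>
    (analyticAt_pi_iff.1 ((k.aφ _ hp).comp analyticAt_fst) i).mul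
      (analyticAt_pi_iff.1 analyticAt_snd i)

theorem eqv' (g : A × ℂ) (hg : IsUnit g) (p : W × (K → ℂ)) (hp : p ∈ pbS S) :
    φ (pbAct act χ g p).1 ⬝ᵥ (pbAct act χ g p).2 = g.2 * ψ g.1 * φ p.1 ⬝ᵥ p.2 := by
  rw [dotProduct, dotProduct, Finset.mul_sum]
  refine Finset.sum_congr rfl fun i _ => ?_
  have := k.eqv _ (Prod.isUnit_iff.1 hg).1 _ hp.1 i
  simp only [pbAct]
  linear_combination g.2 * p.2 i * this

theorem trv (p : W × (K → ℂ)) (hp : p ∈ pbS S) : ∃ v ∈ tan (Subtype.val : pbS S → _) ⟨p, hp⟩,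
    fderiv ℂ (fun p : W × (K → ℂ) => φ p.1 ⬝ᵥ p.2) p v ≠ 0 := by
  classical
  obtain ⟨i, hi⟩ := ne_iff.1 (k.ne _ hp.1)
  let u : K → ℂ := Pi.single i 1
  have a1 : AnalyticAt ℂ (fun ε : ℂ => p.2 + ε • u) 0 :=
    analyticAt_const.add (analyticAt_id.smul analyticAt_const)
  have e0 : p.2 + (0 : ℂ) • u = p.2 := by rw [zero_smul, add_zero]
  have a : Arc (pbS S) p fun ε => (p.1, p.2 + ε • u) := ⟨analyticAt_const.prod a1, Prod.ext rfl e0,
    (a1.continuousAt.eventually_ne (e0.symm ▸ hp.2)).mono fun _ b => ⟨hp.1, b⟩⟩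
  refine ⟨_, a.mem_tan hp, ?_⟩
  have h1 := HasFDerivAt.comp_hasDerivAt_of_eq 0 (k.an' hp.1).differentiableAt.hasFDerivAt
    a.an.differentiableAt.hasDerivAt a.zero.symm
  have h2 : HasDerivAt (fun ε : ℂ => φ p.1 ⬝ᵥ p.2 + ε * φ p.1 i) (φ p.1 i) 0 :=
    (hasDerivAt_mul_const _).const_add _
  rw [h1.unique (h2.congr_of_eventuallyEq (.of_forall fun ε => by simp [u]))]
  exact hi

/-- **The projective bundle of the kernel is a compact manifold.** -/
theorem qm (h : QM act S n) {r : ℕ} (hr : Fintype.card K = r + 2) :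
    QM (pbAct act χ) (kbS S φ) (n + r) := by
  have h1 := (k.toChr.qm h (r := r + 1) hr).zero (ι := Unit) (Z := kbS S φ)
    (c := fun _ g => g.2 * ψ g.1) (s := fun p _ => φ p.1 ⬝ᵥ p.2)
    ⟨fun _ => k.hm', continuousOn_pi.2 fun _ p hp => (k.an' hp.1).continuousAt.continuousWithinAt,
      fun g hg p hp _ => k.eqv' g hg p hp⟩
    (fun p => ⟨fun a => ⟨kb_sub a, funext fun _ => a.2.2⟩, fun a => ⟨a.1.1, a.1.2, congrFun a.2 ()⟩⟩)
    (fun p hp => analyticAt_pi_iff.2 fun _ => k.an' hp.1) fun p hp _ w => by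
      obtain ⟨v, h2, h3⟩ := k.trv p hp
      refine ⟨(w () / fderiv ℂ (fun p : W × (K → ℂ) => φ p.1 ⬝ᵥ p.2) p v) • v,
        Submodule.smul_mem _ _ h2, funext fun _ => ?_⟩
      rw [fderiv_pi fun _ => (k.an' hp.1).differentiableAt, ContinuousLinearMap.pi_apply, map_smul,
        smul_eq_mul, div_mul_cancel₀ _ h3]
  rwa [show n + (r + 1 : ℕ) - Fintype.card Unit = n + r by simp; ring] at h1

/-- the class of the bundle of the kernel in the full bundle -/
theorem push_one {m' : ℤ} (h : QM (pbAct act χ) (pbS S) m) (h' : QM (pbAct act χ) (kbS S φ) m') :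
    Coh.PS.push (X := h'.ps) (Y := h.ps) (qinc _ kb_sub) 1 =
      lcq (pbAct act χ) (pbS S) fun g => g.2 * ψ g.1 :=
  h.push_one' k.hm' (fun _ hp => (k.an' hp.1).continuousAt.continuousWithinAt) k.eqv'
    (fun _ => ⟨fun a => ⟨kb_sub a, a.2.2⟩, fun a => ⟨a.1.1, a.1.2, a.2⟩⟩)
    (fun _ hp => k.an' hp.1) (fun p hp _ => k.trv p hp) h' kb_sub

end KB

end Vale.Agent.P287Q.Hb
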