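import Vale.Agent.P287Q.Hb.D2
import Vale.Agent.P287Q.Hb.Abs
import Vale.Agent.P269.Coh.Bl

/-!
# Cohomology of projective bundles and of blow-ups in any codimension
-/

set_option linter.unusedSectionVars false

namespace Vale.Agent.P287Q.Hb

open Set Function P269 P269.Coh P269.Coh.PS
open P291Z hiding push

section low

variable {T T' : Type} [TopologicalSpace T] [TopologicalSpace T']

/-- Polynomials of degree `< r` in `ξ` with coefficients from the base. -/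
noncomputable def low (p : C(T, T')) (ξ : H T) (r : ℕ) : (Fin r → H T') →ₗ[ℂ] H T where
  toFun v := ∑ k, H.map p (v k) * ξ ^ (k : ℕ)
  map_add' v w := by simp only [Pi.add_apply, map_add, add_mul, Finset.sum_add_distrib]
  map_smul' c v := by
    simp only [Pi.smul_apply, H.map_smulC, smul_mul_assoc, Finset.smul_sum, RingHom.id_apply]

theorem low_apply (p : C(T, T')) (ξ : H T) (r : ℕ) (v : Fin r → H T') :
    low p ξ r v = ∑ k, H.map p (v k) * ξ ^ (k : ℕ) := rfl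

theorem low_single (p : C(T, T')) (ξ : H T) {r : ℕ} (k : Fin r) (a : H T') :
    low p ξ r (Pi.single k a) = H.map p a * ξ ^ (k : ℕ) := by
  rw [low_apply, Finset.sum_eq_single k (fun j _ hj => by
    rw [Pi.single_eq_of_ne hj, map_zero, zero_mul]) fun h => absurd (Finset.mem_univ k) h,
    Pi.single_eq_same]

theorem low_one (p : C(T, T')) (ξ : H T) (v : Fin 1 → H T') : low p ξ 1 v = H.map p (v 0) := by
  rw [low_apply, Fin.sum_univ_one, Fin.val_zero, pow_zero, mul_one]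

theorem low_deg (p : C(T, T')) {ξ : H T} (hξ : H.IsDeg 2 ξ) {r : ℕ} {d : ℤ}
    {v : Fin r → H T'} (hv : ∀ k : Fin r, H.IsDeg (d - 2 * (k : ℕ)) (v k)) :
    H.IsDeg d (low p ξ r v) := by
  rw [low_apply, ← H.mem_deg]
  refine (H.deg T d).sum_mem fun k _ => ?_
  have := ((hv k).map p).mul (PBA.deg_pow hξ k)
  rwa [sub_add_cancel] at this

theorem comp_low (p : C(T, T')) {ξ : H T} (hξ : H.IsDeg 2 ξ) {r : ℕ} (d : ℤ)
    (v : Fin r → H T') :
    H.comp d (low p ξ r v) = low p ξ r fun k => H.comp (d - 2 * (k : ℕ)) (v k) := by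
  rw [low_apply, low_apply, map_sum]
  refine Finset.sum_congr rfl fun k _ => ?_
  rw [← H.comp_map, ← H.comp_mul_right (PBA.deg_pow hξ k), sub_add_cancel]

theorem low_succ (p : C(T, T')) {ξ : H T} (hξ : H.IsDeg 2 ξ) {r : ℕ} (v : Fin (r + 1) → H T') :
    low p ξ (r + 1) v = H.map p (v 0) + ξ * low p ξ r fun k => v k.succ := by
  rw [low_apply, low_apply, Fin.sum_univ_succ, Fin.val_zero, pow_zero, mul_one, Finset.mul_sum]
  refine congrArg _ (Finset.sum_congr rfl fun k _ => ?_)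
  rw [Fin.val_succ, pow_succ', ← mul_assoc, ← mul_assoc, hξ.commute even_two]

end low

namespace LHB

variable {S E E' : PS} {r : ℕ} {p : C(E.X, S.X)} {ξ : H E.X}

theorem of_pb {c : Fin (r + 1) → H S.X} (h : PB S E c p ξ) : LHB S E r p ξ :=
  ⟨h.dim, h.deg, h.lh, h.int⟩

variable (h : LHB S E r p ξ)
include h

theorem bij : Bijective (low p ξ (r + 1)) := h.lh

theorem int_lt {k : ℕ} (hk : k < r) (a : H S.X) : E.J (H.map p a * ξ ^ k) = 0 := by
  refine H.induction_deg (P := fun a => E.J (H.map p a * ξ ^ k) = 0) a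
    (by simp only [map_zero, zero_mul])
    (fun a b ha hb => by rw [map_add, add_mul, map_add, ha, hb, add_zero]) fun d => ?_
  by_cases hd : d + 2 * k = 2 * E.n
  · rw [S.eq_zero_of_lt (k := d) (by have := h.dim; omega) (H.isDeg_comp d a), map_zero, zero_mul,
      map_zero]
  · exact E.pd.deg _ hd _ (((H.isDeg_comp d a).map p).mul (PBA.deg_pow h.deg k))

theorem int_ev {q : Polynomial (H S.X)} (hq : q.natDegree ≤ r) :
    E.J (q.eval₂ (H.map p) ξ) = S.J (q.coeff r) := by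
  rw [Polynomial.eval₂_eq_sum_range' _ (Nat.lt_succ_of_le hq), Finset.sum_range_succ, map_add,
    map_sum, Finset.sum_eq_zero fun k hk => h.int_lt (Finset.mem_range.1 hk) _, zero_add, h.int]

/-- twisting by a line bundle -/
theorem twist {a : H S.X} (ha : H.IsDeg 2 a) : LHB S E r p (ξ + H.map p a) where
  dim := h.dim
  deg := (H.deg _ 2).add_mem h.deg (ha.map p)
  lh := PBA.lh_twist (fun _ => PBA.comm2 h.deg _) (PBA.comm2 ha) h.lh
  int b := by
    have hx : ∀ b, Commute (H.map p b) ξ := fun _ => PBA.comm2 h.deg _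
    have h1 : ((Polynomial.X + Polynomial.C a) ^ r).natDegree ≤ r :=
      (Polynomial.natDegree_pow_le_of_le r (PBA.deg_lin a)).trans (mul_one r).le
    have h2 : ((Polynomial.X + Polynomial.C a) ^ r).coeff r = 1 := by
      have := Polynomial.coeff_pow_of_natDegree_le (m := r) (PBA.deg_lin a)
      simpa using this
    have h3 := h.int_ev ((Polynomial.natDegree_C_mul_le b _).trans h1)
    have h4 := map_pow (Polynomial.eval₂RingHom' (H.map p) ξ hx) (Polynomial.X + Polynomial.C a) r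
    change Polynomial.eval₂ _ _ _ = Polynomial.eval₂ _ _ _ ^ r at h4
    rwa [PBA.ev_C_mul hx, h4, Polynomial.eval₂_add, Polynomial.eval₂_X, Polynomial.eval₂_C,
      Polynomial.coeff_C_mul, h2, mul_one] at h3

/-- transport along an isomorphism of the total space -/
theorem comp {f : C(E'.X, E.X)} (hb : Bijective (H.map f)) (hn : E'.n = E.n)
    (hJ : ∀ a, E'.J (H.map f a) = E.J a) : LHB S E' r (p.comp f) (H.map f ξ) where
  dim := hn.trans h.dim
  deg := h.deg.map f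
  lh := by
    have e : (fun v : Fin (r + 1) → H S.X =>
        ∑ k, H.map (p.comp f) (v k) * H.map f ξ ^ (k : ℕ)) =
        H.map f ∘ fun v : Fin (r + 1) → H S.X => ∑ k, H.map p (v k) * ξ ^ (k : ℕ) := by
      funext v
      simp only [comp_apply, map_sum, map_mul, map_pow, H.map_map]
    rw [e]
    exact hb.comp h.lh
  int a := by rw [← H.map_map, ← map_pow, ← map_mul, hJ, h.int]

/-- transport along an isomorphism of the base -/
theorem base {S' : PS} {g : C(S'.X, S.X)} (hb : Bijective (H.map g)) (hn : S'.n = S.n)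
    (hJ : ∀ a, S'.J (H.map g a) = S.J a) {p' : C(E.X, S'.X)} (e : ∀ x, g (p' x) = p x) :
    LHB S' E r p' ξ := by
  have e' : ∀ a, H.map p' (H.map g a) = H.map p a := fun a => by
    rw [H.map_map, show g.comp p' = p from ContinuousMap.ext e]
  refine ⟨by rw [hn, h.dim], h.deg, ?_, fun a => ?_⟩
  · refine (Bijective.of_comp_iff _ (hb.comp_left (α := Fin (r + 1)))).1 ?_
    have e2 : ((fun v : Fin (r + 1) → H S'.X => ∑ k, H.map p' (v k) * ξ ^ (k : ℕ)) ∘
        fun v : Fin (r + 1) → H S.X => H.map g ∘ v) =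
        fun v : Fin (r + 1) → H S.X => ∑ k, H.map p (v k) * ξ ^ (k : ℕ) := by
      funext v
      simp only [comp_apply, e']
    rw [e2]
    exact h.lh
  · obtain ⟨b, rfl⟩ := hb.2 a
    rw [e', h.int, hJ]

theorem injective : Injective (H.map p) := fun a b e =>
  S.ext_left fun x => by rw [← h.int, ← h.int, map_mul (H.map p) a, map_mul (H.map p) b, e]

theorem mul_map (a b : H S.X) (k : ℕ) :
    H.map p a * ξ ^ k * H.map p b = H.map p (a * b) * ξ ^ k := by
  rw [mul_assoc, ← ((PBA.comm2 h.deg (H.map p b)).pow_right k).eq, ← mul_assoc, map_mul]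

theorem mul_mul (a b : H S.X) (k l : ℕ) :
    H.map p a * ξ ^ k * (H.map p b * ξ ^ l) = H.map p (a * b) * ξ ^ (k + l) := by
  rw [← mul_assoc, h.mul_map, mul_assoc, pow_add]

theorem push_top (a : H S.X) : push p (H.map p a * ξ ^ r) = a :=
  S.ext_left fun b => by rw [J_push_mul, h.mul_map, h.int]

theorem push_lt {k : ℕ} (hk : k < r) (a : H S.X) : push p (H.map p a * ξ ^ k) = 0 :=
  S.ext_left fun b => by rw [J_push_mul, h.mul_map, h.int_lt hk, zero_mul, map_zero]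

theorem ind {P : H E.X → Prop} (h0 : P 0) (hadd : ∀ x y, P x → P y → P (x + y))
    (e : ∀ a, ∀ k ≤ r, P (H.map p a * ξ ^ k)) (x : H E.X) : P x := by
  obtain ⟨v, rfl⟩ := h.lh.2 x
  exact Finset.sum_induction _ P hadd h0 fun k _ => e _ _ (Nat.le_of_lt_succ k.2)

theorem exists_deg {d : ℤ} {x : H E.X} (hx : H.IsDeg d x) : ∃ v : Fin (r + 1) → H S.X,
    (∀ k : Fin (r + 1), H.IsDeg (d - 2 * (k : ℕ)) (v k)) ∧
      ∑ k, H.map p (v k) * ξ ^ (k : ℕ) = x := by
  obtain ⟨v, rfl⟩ := h.bij.2 x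
  exact ⟨_, fun k => H.isDeg_comp _ _, (comp_low p h.deg d v).symm.trans hx.comp_eq⟩

theorem J_low_mul (s : Fin r → H S.X) (a : H S.X) : E.J (low p ξ r s * H.map p a) = 0 := by
  rw [low_apply, Finset.sum_mul, map_sum]
  exact Finset.sum_eq_zero fun k _ => by rw [h.mul_map, h.int_lt k.2]

theorem J_mul_low (s : Fin r → H S.X) (a : H S.X) : E.J (H.map p a * low p ξ r s) = 0 := by
  rw [low_apply, Finset.mul_sum, map_sum]
  exact Finset.sum_eq_zero fun k _ => by rw [← mul_assoc, ← map_mul, h.int_lt k.2]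

theorem mul_low_inj {s t : Fin r → H S.X} (e : ξ * low p ξ r s = ξ * low p ξ r t) : s = t := by
  have h1 : low p ξ (r + 1) (Fin.cons 0 s) = low p ξ (r + 1) (Fin.cons 0 t) := by
    rw [low_succ p h.deg, low_succ p h.deg]
    simp only [Fin.cons_zero, Fin.cons_succ]
    exact congrArg _ e
  funext k
  simpa only [Fin.cons_succ] using congrFun (h.bij.1 h1) k.succ

theorem deg0 (h0 : ∀ a : H S.X, H.IsDeg 0 a → ∃ c : ℂ, a = c • 1) (x : H E.X)
    (hx : H.IsDeg 0 x) : ∃ c : ℂ, x = c • 1 := by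
  obtain ⟨v, hv, rfl⟩ := h.exists_deg hx
  obtain ⟨c, hc⟩ := h0 (v 0) (by simpa using hv 0)
  refine ⟨c, ?_⟩
  rw [Fin.sum_univ_succ, Finset.sum_eq_zero fun k _ => by
    rw [(hv k.succ).eq_zero (by rw [Fin.val_succ]; push_cast; omega), map_zero, zero_mul],
    add_zero, Fin.val_zero, pow_zero, mul_one, hc, H.map_smulC, map_one]

end LHB

namespace BlT

variable {Z S B E : PS} {ι : C(S.X, Z.X)} {π : C(B.X, Z.X)} {j : C(E.X, B.X)} {p : C(E.X, S.X)}
  {r : ℕ} {ξ : H E.X}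

theorem push_low_of (pb : LHB S E r p ξ) (sq : ∀ x, π (j x) = ι (p x)) (s : Fin r → H S.X) :
    push π (push j (low p ξ r s)) = 0 :=
  Z.ext_left fun b => by
    rw [J_push_mul, J_push_mul, BlA.map_sq sq, pb.J_low_mul, zero_mul, map_zero]

theorem of_geo (gZ : Z.Geo) (gS : S.Geo) (gB : B.Geo) (gE : E.Geo) (pb : LHB S E r p ξ)
    (dimB : B.n = Z.n) (dimE : B.n = E.n + 1) (sq : ∀ x, π (j x) = ι (p x))
    (int : ∀ a, B.J (H.map π a) = Z.J a) (hι : Injective ι) (hj : Injective j)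
    (e : H.map j (push j 1) = -ξ) (pre : π ⁻¹' range ι = range j) (inj : InjOn π (range j)ᶜ)
    (surj : (range ι)ᶜ ⊆ range π) : BlT Z S B E ι π j p r ξ := by
  have si : ∀ x, H.map j (push j x) = -(ξ * x) := fun x => by
    rw [gE.map_push gB hj, e, neg_mul]
  refine ⟨pb, dimB, dimE, sq, int, si, fun x y
    (h : _ + push j (low p ξ r x.2) = _ + push j (low p ξ r y.2)) => ?_, fun x => ?_⟩
  · have h1 := congrArg (PS.push π) h
    rw [map_add, map_add, push_low_of pb sq, push_low_of pb sq, push_map_of_J int,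
      push_map_of_J int, add_zero, add_zero] at h1
    rw [h1] at h
    have h2 := congrArg (H.map j) (add_left_cancel h)
    rw [si, si] at h2
    exact Prod.ext h1 (pb.mul_low_inj (neg_injective h2))
  · have := gS.cpt
    have := gE.cpt
    obtain ⟨v, hv⟩ := pb.bij.2 (H.map j x)
    obtain ⟨y, hy, -⟩ := gB.exists_map gZ hι hj sq pre inj surj
      (x := x + push j (low p ξ r fun k => v k.succ)) (u := v 0) (by
        rw [map_add, si, ← hv, low_succ p pb.deg, add_neg_cancel_right])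
    refine ⟨(y, -fun k => v k.succ), ?_⟩
    show H.map π y + push j (low p ξ r (-fun k => v k.succ)) = x
    rw [hy, map_neg, map_neg, add_neg_cancel_right]

theorem of_bl {c : Fin 2 → H S.X} (h : Bl Z S B E ι π j p c ξ) : BlT Z S B E ι π j p 1 ξ := by
  refine ⟨.of_pb h.pb, h.dimB, h.dimE, h.sq, h.int, h.si, fun x y
    (e : _ + push j (low p ξ 1 x.2) = _ + push j (low p ξ 1 y.2)) => ?_, fun x => ?_⟩
  · rw [low_one, low_one] at e
    have h1 := h.bij.1 (a₁ := (x.1, x.2 0)) (a₂ := (y.1, y.2 0)) e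
    refine Prod.ext (Prod.ext_iff.1 h1).1 (funext fun k => ?_)
    rw [Subsingleton.elim k 0]
    exact (Prod.ext_iff.1 h1).2
  · obtain ⟨a, s, e⟩ := h.exists_eq x
    refine ⟨(a, fun _ => s), ?_⟩
    show H.map π a + push j (low p ξ 1 fun _ => s) = x
    rw [low_one, e]

variable (h : BlT Z S B E ι π j p r ξ)
include h

theorem dimS : Z.n = S.n + r + 1 := by rw [← h.dimB, h.dimE, h.pb.dim]

theorem map_sq (a : H Z.X) : H.map j (H.map π a) = H.map p (H.map ι a) := BlA.map_sq h.sq a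

theorem push_map (a : H Z.X) : push π (H.map π a) = a := push_map_of_J h.int a

theorem map_injective : Injective (H.map π) := fun a b e => by
  rw [← h.push_map a, e, h.push_map]

theorem J_map_mul (a b : H Z.X) : B.J (H.map π a * H.map π b) = Z.J (a * b) := by
  rw [← map_mul, h.int]

theorem push_low (s : Fin r → H S.X) : push π (push j (low p ξ r s)) = 0 :=
  push_low_of h.pb h.sq s

theorem push_sum (s : Fin r → H S.X) :
    push π (push j (∑ k, H.map p (s k) * ξ ^ (k : ℕ))) = 0 := h.push_low s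

theorem push_exc {k : ℕ} (hk : k < r) (s : H S.X) : push π (push j (H.map p s * ξ ^ k)) = 0 := by
  have := h.push_low (Pi.single ⟨k, hk⟩ s)
  rwa [low_single] at this

theorem push_exc0 (hr : 0 < r) (s : H S.X) : push π (push j (H.map p s)) = 0 := by
  have := h.push_exc hr s
  rwa [pow_zero, mul_one] at this

/-- the top power comes from the centre -/
theorem push_top (s : H S.X) : push π (push j (H.map p s * ξ ^ r)) = push ι s := by
  rw [← push_comp, show π.comp j = ι.comp p from ContinuousMap.ext h.sq, push_comp, h.pb.push_top]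

theorem orth {k : ℕ} (hk : k < r) (a : H Z.X) (s : H S.X) :
    B.J (H.map π a * push j (H.map p s * ξ ^ k)) = 0 := by
  rw [J_mul_push, h.map_sq, ← mul_assoc, ← map_mul, h.pb.int_lt hk]

theorem orth' {k : ℕ} (hk : k < r) (a : H Z.X) (s : H S.X) :
    B.J (push j (H.map p s * ξ ^ k) * H.map π a) = 0 := by
  rw [J_push_mul, h.map_sq, h.pb.mul_map, h.pb.int_lt hk]

theorem orth0 (hr : 0 < r) (a : H Z.X) (s : H S.X) :
    B.J (H.map π a * push j (H.map p s)) = 0 := by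
  have := h.orth hr a s
  rwa [pow_zero, mul_one] at this

theorem orth0' (hr : 0 < r) (a : H Z.X) (s : H S.X) :
    B.J (push j (H.map p s) * H.map π a) = 0 := by
  have := h.orth' hr a s
  rwa [pow_zero, mul_one] at this

theorem orth_low (a : H Z.X) (s : Fin r → H S.X) :
    B.J (H.map π a * push j (low p ξ r s)) = 0 := by
  rw [J_mul_push, h.map_sq, h.pb.J_mul_low]

theorem orth_low' (a : H Z.X) (s : Fin r → H S.X) :
    B.J (push j (low p ξ r s) * H.map π a) = 0 := by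
  rw [J_push_mul, h.map_sq, h.pb.J_low_mul]

theorem J_push_push (u v : H E.X) : B.J (push j u * push j v) = -E.J (u * (ξ * v)) := by
  rw [J_push_mul, h.si, mul_neg, map_neg]

theorem J_exc_eq (k l : ℕ) (s t : H S.X) :
    B.J (push j (H.map p s * ξ ^ k) * push j (H.map p t * ξ ^ l)) =
      -E.J (H.map p (s * t) * ξ ^ (k + l + 1)) := by
  rw [h.J_push_push, h.pb.deg.commute even_two, ← mul_assoc, h.pb.mul_mul, mul_assoc, ← pow_succ]

theorem J_exc {k l : ℕ} (hkl : k + l + 1 = r) (s t : H S.X) :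
    B.J (push j (H.map p s * ξ ^ k) * push j (H.map p t * ξ ^ l)) = -S.J (s * t) := by
  rw [h.J_exc_eq, hkl, h.pb.int]

theorem J_exc_lt {k l : ℕ} (hkl : k + l + 1 < r) (s t : H S.X) :
    B.J (push j (H.map p s * ξ ^ k) * push j (H.map p t * ξ ^ l)) = 0 := by
  rw [h.J_exc_eq, h.pb.int_lt hkl, neg_zero]

theorem bij_low : Bijective ((pl π).coprod (PS.push j ∘ₗ low p ξ r)) := h.bij

theorem exists_eq (x : H B.X) : ∃ (a : H Z.X) (s : Fin r → H S.X),
    x = H.map π a + push j (∑ k, H.map p (s k) * ξ ^ (k : ℕ)) :=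
  let ⟨y, hy⟩ := h.bij.2 x
  ⟨y.1, y.2, hy.symm⟩

theorem eq_iff {a b : H Z.X} {s t : Fin r → H S.X} :
    H.map π a + push j (∑ k, H.map p (s k) * ξ ^ (k : ℕ)) =
      H.map π b + push j (∑ k, H.map p (t k) * ξ ^ (k : ℕ)) ↔ a = b ∧ s = t :=
  ⟨fun e => Prod.ext_iff.1 (h.bij.1 (a₁ := (a, s)) (a₂ := (b, t)) e),
    fun e => by rw [e.1, e.2]⟩

theorem low_injective : Injective (PS.push j ∘ₗ low p ξ r) := fun _ _ e =>
  (h.eq_iff (a := 0) (b := 0).1 (congrArg (H.map π 0 + ·) e)).2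

theorem exc_injective {k : ℕ} (hk : k < r) :
    Injective fun s : H S.X => push j (H.map p s * ξ ^ k) := fun s t e => by
  have h1 : (PS.push j ∘ₗ low p ξ r) (Pi.single ⟨k, hk⟩ s) =
      (PS.push j ∘ₗ low p ξ r) (Pi.single ⟨k, hk⟩ t) := by
    rw [LinearMap.comp_apply, LinearMap.comp_apply, low_single, low_single]
    exact e
  simpa only [Pi.single_eq_same] using congrFun (h.low_injective h1) ⟨k, hk⟩

theorem exc0_injective (hr : 0 < r) : Injective (PS.push j ∘ₗ pl p) := fun s t e =>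
  h.exc_injective hr (by
    show push j (H.map p s * ξ ^ 0) = push j (H.map p t * ξ ^ 0)
    rw [pow_zero, mul_one, mul_one]
    exact e)

theorem deg_push {d : ℤ} {u : H E.X} (hu : H.IsDeg d u) : H.IsDeg (d + 2) (push j u) := by
  have := push_deg j hu
  rwa [h.dimE, add_sub_cancel_left, mul_one] at this

theorem deg_exc {d : ℤ} {s : H S.X} (hs : H.IsDeg d s) (k : ℕ) :
    H.IsDeg (d + 2 * k + 2) (push j (H.map p s * ξ ^ k)) :=
  h.deg_push ((hs.map p).mul (PBA.deg_pow h.pb.deg k))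

theorem deg_exc0 {d : ℤ} {s : H S.X} (hs : H.IsDeg d s) :
    H.IsDeg (d + 2) (push j (H.map p s)) := h.deg_push (hs.map p)

theorem deg_sum {d : ℤ} {a : H Z.X} {s : Fin r → H S.X} (ha : H.IsDeg d a)
    (hs : ∀ k : Fin r, H.IsDeg (d - 2 * (k : ℕ) - 2) (s k)) :
    H.IsDeg d (H.map π a + push j (∑ k, H.map p (s k) * ξ ^ (k : ℕ))) := by
  have h1 := h.deg_push (low_deg p h.pb.deg (d := d - 2) (v := s) fun k => by
    rw [sub_right_comm]; exact hs k)
  rw [sub_add_cancel] at h1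
  exact (H.deg B.X d).add_mem (ha.map π) h1

theorem exists_deg {d : ℤ} {x : H B.X} (hx : H.IsDeg d x) :
    ∃ (a : H Z.X) (s : Fin r → H S.X), H.IsDeg d a ∧
      (∀ k : Fin r, H.IsDeg (d - 2 * (k : ℕ) - 2) (s k)) ∧
      x = H.map π a + push j (∑ k, H.map p (s k) * ξ ^ (k : ℕ)) := by
  obtain ⟨a, s, rfl⟩ := h.exists_eq x
  refine ⟨_, _, H.isDeg_comp d a, fun k => H.isDeg_comp _ (s k), hx.comp_eq.symm.trans ?_⟩
  have h1 := BlA.comp_shift (f := push j) (s := 2) (fun _ _ hu => h.deg_push hu) (d - 2)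
    (low p ξ r s)
  rw [sub_add_cancel, comp_low p h.pb.deg] at h1
  rw [map_add, H.comp_map]
  refine congrArg _ (h1.trans (congrArg _ (congrArg _ (funext fun k => ?_))))
  rw [sub_right_comm]

theorem ext {x y : H B.X} (e : push π x = push π y) (e' : H.map j x = H.map j y) : x = y := by
  obtain ⟨a, s, rfl⟩ := h.exists_eq x
  obtain ⟨b, t, rfl⟩ := h.exists_eq y
  rw [map_add, map_add, h.push_sum, h.push_sum, h.push_map, h.push_map, add_zero, add_zero] at e
  rw [e, map_add, map_add, h.si, h.si] at e'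
  rw [e, h.pb.mul_low_inj (neg_injective (add_left_cancel e'))]

/-- the classes killed by `π_*` come from the exceptional divisor -/
theorem push_eq_zero_iff {x : H B.X} : push π x = 0 ↔
    ∃ s : Fin r → H S.X, x = push j (∑ k, H.map p (s k) * ξ ^ (k : ℕ)) := by
  refine ⟨fun e => ?_, ?_⟩
  · obtain ⟨a, s, rfl⟩ := h.exists_eq x
    rw [map_add, h.push_sum, h.push_map, add_zero] at e
    exact ⟨s, by rw [e, map_zero, zero_add]⟩
  · rintro ⟨s, rfl⟩
    exact h.push_sum s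

theorem deg0 (h0 : ∀ a : H Z.X, H.IsDeg 0 a → ∃ c : ℂ, a = c • 1) (x : H B.X)
    (hx : H.IsDeg 0 x) : ∃ c : ℂ, x = c • 1 := by
  obtain ⟨a, s, ha, hs, rfl⟩ := h.exists_deg hx
  obtain ⟨c, rfl⟩ := h0 a ha
  refine ⟨c, ?_⟩
  rw [Finset.sum_eq_zero fun k _ => by rw [(hs k).eq_zero (by omega), map_zero, zero_mul],
    map_zero, add_zero, H.map_smulC, map_one]

/-- in degree `< 2` nothing is added -/
theorem exists_map_of_lt {d : ℤ} (hd : d < 2) {x : H B.X} (hx : H.IsDeg d x) :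
    ∃ a, H.IsDeg d a ∧ x = H.map π a := by
  obtain ⟨a, s, ha, hs, rfl⟩ := h.exists_deg hx
  refine ⟨a, ha, ?_⟩
  rw [Finset.sum_eq_zero fun k _ => by rw [(hs k).eq_zero (by omega), map_zero, zero_mul],
    map_zero, add_zero]

/-- counting dimensions -/
theorem finrank_of_iff {U : Submodule ℂ (H Z.X)} {V : Fin r → Submodule ℂ (H S.X)}
    {W : Submodule ℂ (H B.X)} (hW : ∀ x, x ∈ W ↔ ∃ y ∈ U, ∃ s : Fin r → H S.X, (∀ k, s k ∈ V k) ∧
      x = H.map π y + push j (∑ k, H.map p (s k) * ξ ^ (k : ℕ))) :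
    Module.finrank ℂ W = Module.finrank ℂ U + ∑ k, Module.finrank ℂ (V k) := by
  let G : (U × ∀ k, V k) →ₗ[ℂ] H Z.X × (Fin r → H S.X) :=
    U.subtype.prodMap (LinearMap.pi fun k => (V k).subtype ∘ₗ LinearMap.proj k)
  have hG : Injective G := fun x y e => Prod.ext (Subtype.ext (congrArg Prod.fst e))
    (funext fun k => Subtype.ext (congrFun (congrArg Prod.snd e) k))
  have hr : LinearMap.range ((pl π).coprod (PS.push j ∘ₗ low p ξ r) ∘ₗ G) = W := by
    ext x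
    rw [hW]
    constructor
    · rintro ⟨y, rfl⟩
      exact ⟨y.1, y.1.2, fun k => y.2 k, fun k => (y.2 k).2, rfl⟩
    · rintro ⟨y, hy, s, hs, rfl⟩
      exact ⟨(⟨y, hy⟩, fun k => ⟨s k, hs k⟩), rfl⟩
  have hi : Injective ((pl π).coprod (PS.push j ∘ₗ low p ξ r) ∘ₗ G) := fun x y e =>
    hG (h.bij_low.1 e)
  rw [← hr, LinearMap.finrank_range_of_inj hi, Module.finrank_prod, Module.finrank_pi_fintype]

theorem finrank_deg (d : ℤ) : Module.finrank ℂ (H.deg B.X d) = Module.finrank ℂ (H.deg Z.X d) +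
    ∑ k : Fin r, Module.finrank ℂ (H.deg S.X (d - 2 * (k : ℕ) - 2)) :=
  h.finrank_of_iff fun _ => ⟨fun hx =>
    let ⟨a, s, h1, h2, h3⟩ := h.exists_deg hx
    ⟨a, h1, s, h2, h3⟩, fun ⟨_, h1, _, h2, h3⟩ => h3 ▸ h.deg_sum h1 h2⟩

theorem finrank_eq :
    Module.finrank ℂ (H B.X) = Module.finrank ℂ (H Z.X) + r * Module.finrank ℂ (H S.X) := by
  rw [← (LinearEquiv.ofBijective _ h.bij_low).finrank_eq, Module.finrank_prod,
    Module.finrank_pi_fintype, Finset.sum_const, Finset.card_univ, Fintype.card_fin, smul_eq_mul]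

end BlT

/-- blowing up a divisor does nothing -/
theorem BlT.bij0 {Z S B E : PS} {ι : C(S.X, Z.X)} {π : C(B.X, Z.X)} {j : C(E.X, B.X)}
    {p : C(E.X, S.X)} {ξ : H E.X} (h : BlT Z S B E ι π j p 0 ξ) : Bijective (H.map π) :=
  ⟨h.map_injective, fun x => by
    obtain ⟨a, s, e⟩ := h.exists_eq x
    exact ⟨a, by rw [e, Fin.sum_univ_zero, map_zero, add_zero]⟩⟩

/-! ### Codimension two -/

namespace BlT

variable {Z S B E : PS} {ι : C(S.X, Z.X)} {π : C(B.X, Z.X)} {j : C(E.X, B.X)} {p : C(E.X, S.X)}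
  {ξ : H E.X} (h : BlT Z S B E ι π j p 1 ξ)
include h

theorem bij1 : Bijective fun x : H Z.X × H S.X => H.map π x.1 + push j (H.map p x.2) := by
  refine ⟨fun x y (e : _ + _ = _ + _) => ?_, fun x => ?_⟩
  · have h1 := h.bij_low.1 (a₁ := (x.1, fun _ => x.2)) (a₂ := (y.1, fun _ => y.2)) (by
      show H.map π x.1 + push j (low p ξ 1 fun _ => x.2) =
        H.map π y.1 + push j (low p ξ 1 fun _ => y.2)
      rw [low_one, low_one, e])
    exact Prod.ext (Prod.ext_iff.1 h1).1 (congrFun (Prod.ext_iff.1 h1).2 0)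
  · obtain ⟨a, s, e⟩ := h.exists_eq x
    exact ⟨(a, s 0), by rw [e, ← low_apply, low_one]⟩

theorem exists_eq1 (x : H B.X) : ∃ a s, x = H.map π a + push j (H.map p s) :=
  let ⟨y, hy⟩ := h.bij1.2 x
  ⟨y.1, y.2, hy.symm⟩

theorem exists_deg1 {d : ℤ} {x : H B.X} (hx : H.IsDeg d x) : ∃ a s, H.IsDeg d a ∧
    H.IsDeg (d - 2) s ∧ x = H.map π a + push j (H.map p s) := by
  obtain ⟨a, s, ha, hs, e⟩ := h.exists_deg hx
  exact ⟨a, s 0, ha, by simpa using hs 0, by rw [e, ← low_apply, low_one]⟩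

theorem J_exc1 (s t : H S.X) : B.J (push j (H.map p s) * push j (H.map p t)) = -S.J (s * t) := by
  have := h.J_exc (k := 0) (l := 0) rfl s t
  rwa [pow_zero, mul_one, mul_one] at this

theorem J_mul1 (a b : H Z.X) (s t : H S.X) :
    B.J ((H.map π a + push j (H.map p s)) * (H.map π b + push j (H.map p t))) =
      Z.J (a * b) - S.J (s * t) := by
  rw [add_mul, mul_add, mul_add, map_add, map_add, map_add, h.orth0 one_pos, h.orth0' one_pos,
    h.J_exc1, h.J_map_mul, add_zero, zero_add, sub_eq_add_neg]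

theorem toBl {c : Fin 2 → H S.X} (pb : PB S E c p ξ) : Bl Z S B E ι π j p c ξ :=
  ⟨pb, h.dimB, h.dimE, h.sq, h.int, h.si, h.bij1⟩

end BlT

/-! ### Hodge types -/

section types

variable {Z S B E : PS} {ι : C(S.X, Z.X)} {π : C(B.X, Z.X)} {j : C(E.X, B.X)} {p : C(E.X, S.X)}
  {r : ℕ} {ξ : H E.X} {TZ : ℤ → ℤ → Submodule ℂ (H Z.X)} {TS : ℤ → ℤ → Submodule ℂ (H S.X)}
  {TB : ℤ → ℤ → Submodule ℂ (H B.X)} {TE : ℤ → ℤ → Submodule ℂ (H E.X)}

theorem HG.prj_mul (gE : HG E TE) {u : H E.X} {a' b' : ℤ} (hu : u ∈ TE a' b') (a b : ℤ)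
    (c : H E.X) : gE.prj (a + a') (b + b') (c * u) = gE.prj a b c * u :=
  LinearMap.congr_fun (gE.ext_ty (f := gE.prj (a + a') (b + b') ∘ₗ LinearMap.mulRight ℂ u)
    (g := LinearMap.mulRight ℂ u ∘ₗ gE.prj a b) fun p' q' c hc => by
      change gE.prj (a + a') (b + b') (c * u) = gE.prj a b c * u
      rw [gE.prj_of_mem _ _ (gE.mul _ _ _ _ c hc u hu), gE.prj_of_mem a b hc]
      by_cases e : a = p' ∧ b = q'
      · rw [if_pos e, if_pos ⟨by rw [e.1], by rw [e.2]⟩]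
      · rw [if_neg e, if_neg fun e' => e ⟨add_right_cancel e'.1, add_right_cancel e'.2⟩,
          zero_mul]) c

theorem low_mem (gE : HG E TE) (mp : ∀ a b, ∀ c ∈ TS a b, H.map p c ∈ TE a b) (hξ : ξ ∈ TE 1 1)
    {a b : ℤ} {s : Fin r → H S.X} (hs : ∀ k : Fin r, s k ∈ TS (a - (k : ℕ)) (b - (k : ℕ))) :
    low p ξ r s ∈ TE a b := by
  rw [low_apply]
  refine Submodule.sum_mem _ fun k _ => ?_
  have := gE.mul _ _ _ _ _ (mp _ _ _ (hs k)) _ (gE.pow hξ k)
  rwa [sub_add_cancel, sub_add_cancel] at this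

theorem prj_low (gS : HG S TS) (gE : HG E TE) (mp : ∀ a b, ∀ c ∈ TS a b, H.map p c ∈ TE a b)
    (hξ : ξ ∈ TE 1 1) (a b : ℤ) (s : Fin r → H S.X) :
    gE.prj a b (low p ξ r s) = low p ξ r fun k => gS.prj (a - (k : ℕ)) (b - (k : ℕ)) (s k) := by
  rw [low_apply, low_apply, map_sum]
  refine Finset.sum_congr rfl fun k _ => ?_
  rw [gS.map_prj gE mp, ← gE.prj_mul (gE.pow hξ k), sub_add_cancel, sub_add_cancel]

/-- the types on a projective bundle -/
theorem LHB.mem_iff (h : LHB S E r p ξ) (gS : HG S TS) (gE : HG E TE)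
    (mp : ∀ a b, ∀ c ∈ TS a b, H.map p c ∈ TE a b) (hξ : ξ ∈ TE 1 1) {a b : ℤ} {x : H E.X} :
    x ∈ TE a b ↔ ∃ v : Fin (r + 1) → H S.X,
      (∀ k : Fin (r + 1), v k ∈ TS (a - (k : ℕ)) (b - (k : ℕ))) ∧
      x = ∑ k, H.map p (v k) * ξ ^ (k : ℕ) := by
  refine ⟨fun hx => ?_, fun ⟨v, hv, e⟩ => e ▸ low_mem gE mp hξ hv⟩
  obtain ⟨v, rfl⟩ := h.bij.2 x
  exact ⟨_, fun k => gS.prj_mem _ _ (v k), (gE.prj_self hx).symm.trans (prj_low gS gE mp hξ a b v)⟩

/-- The Hodge structures on the four spaces of a blow-up square are compatible. -/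
structure BlH (Z S B E : PS) (π : C(B.X, Z.X)) (j : C(E.X, B.X)) (p : C(E.X, S.X)) (ξ : H E.X)
    (TZ : ℤ → ℤ → Submodule ℂ (H Z.X)) (TS : ℤ → ℤ → Submodule ℂ (H S.X))
    (TB : ℤ → ℤ → Submodule ℂ (H B.X)) (TE : ℤ → ℤ → Submodule ℂ (H E.X)) : Prop where
  gZ : HG Z TZ
  gS : HG S TS
  gB : HG B TB
  gE : HG E TE
  mπ : ∀ a b, ∀ c ∈ TZ a b, H.map π c ∈ TB a b
  mj : ∀ a b, ∀ c ∈ TB a b, H.map j c ∈ TE a b
  mp : ∀ a b, ∀ c ∈ TS a b, H.map p c ∈ TE a b
  xi : ξ ∈ TE 1 1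

namespace BlT

variable (h : BlT Z S B E ι π j p r ξ) (t : BlH Z S B E π j p ξ TZ TS TB TE)
include h t

theorem push_mem {a b : ℤ} {u : H E.X} (hu : u ∈ TE a b) : push j u ∈ TB (a + 1) (b + 1) := by
  have := t.gB.push t.gE t.mj hu
  rwa [h.dimE, add_sub_cancel_left] at this

theorem exc_mem {a b : ℤ} {s : H S.X} (hs : s ∈ TS a b) (k : ℕ) :
    push j (H.map p s * ξ ^ k) ∈ TB (a + k + 1) (b + k + 1) :=
  h.push_mem t (t.gE.mul _ _ _ _ _ (t.mp _ _ _ hs) _ (t.gE.pow t.xi k))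

theorem exc0_mem {a b : ℤ} {s : H S.X} (hs : s ∈ TS a b) :
    push j (H.map p s) ∈ TB (a + 1) (b + 1) := h.push_mem t (t.mp _ _ _ hs)

theorem push_π_mem {a b : ℤ} {x : H B.X} (hx : x ∈ TB a b) : push π x ∈ TZ a b := by
  have := t.gZ.push t.gB t.mπ hx
  rwa [h.dimB, sub_self, add_zero, add_zero] at this

theorem map_mem_iff {a b : ℤ} {y : H Z.X} : H.map π y ∈ TB a b ↔ y ∈ TZ a b :=
  ⟨t.gZ.of_map t.gB t.mπ h.map_injective, t.mπ a b y⟩

theorem prj_eq (a b : ℤ) (y : H Z.X) (s : Fin r → H S.X) :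
    t.gB.prj a b (H.map π y + push j (∑ k, H.map p (s k) * ξ ^ (k : ℕ))) =
      H.map π (t.gZ.prj a b y) + push j (∑ k : Fin r,
        H.map p (t.gS.prj (a - (k : ℕ) - 1) (b - (k : ℕ) - 1) (s k)) * ξ ^ (k : ℕ)) := by
  have h1 := t.gB.push_prj t.gE t.mj (a - 1) (b - 1) (low p ξ r s)
  rw [h.dimE, add_sub_cancel_left, sub_add_cancel, sub_add_cancel,
    prj_low t.gS t.gE t.mp t.xi] at h1
  rw [map_add, t.gZ.map_prj t.gB t.mπ]
  refine congrArg _ (h1.symm.trans (congrArg _ (congrArg _ (funext fun k => ?_))))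
  rw [sub_right_comm a, sub_right_comm b]

/-- **the types on a blow-up** -/
theorem mem_iff {a b : ℤ} {x : H B.X} : x ∈ TB a b ↔ ∃ y ∈ TZ a b, ∃ s : Fin r → H S.X,
    (∀ k : Fin r, s k ∈ TS (a - (k : ℕ) - 1) (b - (k : ℕ) - 1)) ∧
      x = H.map π y + push j (∑ k, H.map p (s k) * ξ ^ (k : ℕ)) := by
  refine ⟨fun hx => ?_, ?_⟩
  · obtain ⟨y, s, rfl⟩ := h.exists_eq x
    exact ⟨_, t.gZ.prj_mem a b y, _, fun k => t.gS.prj_mem _ _ (s k),
      (t.gB.prj_self hx).symm.trans (h.prj_eq t a b y s)⟩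
  · rintro ⟨y, hy, s, hs, rfl⟩
    have h1 := h.push_mem t (low_mem (a := a - 1) (b := b - 1) (s := s) t.gE t.mp t.xi fun k => by
      rw [sub_right_comm a, sub_right_comm b]; exact hs k)
    rw [sub_add_cancel, sub_add_cancel] at h1
    exact add_mem (t.mπ _ _ _ hy) h1

theorem finrank_ty (a b : ℤ) : Module.finrank ℂ (TB a b) = Module.finrank ℂ (TZ a b) +
    ∑ k : Fin r, Module.finrank ℂ (TS (a - (k : ℕ) - 1) (b - (k : ℕ) - 1)) :=
  h.finrank_of_iff fun _ => h.mem_iff t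

/-- types with `a ≤ 0` or `b ≤ 0` are birational invariants -/
theorem eq_map {a b : ℤ} (hab : a ≤ 0 ∨ b ≤ 0) : TB a b = (TZ a b).map (pl π) := by
  refine le_antisymm (fun x hx => ?_) fun _ ⟨y, hy, e⟩ => e ▸ t.mπ a b y hy
  obtain ⟨y, hy, s, hs, rfl⟩ := (h.mem_iff t).1 hx
  refine ⟨y, hy, ?_⟩
  rw [Finset.sum_eq_zero fun k _ => by
    rw [t.gS.eq_zero_out (hs k) (by omega), map_zero, zero_mul], map_zero, add_zero]
  rfl

theorem eq_bot_iff {a b : ℤ} (hab : a ≤ 0 ∨ b ≤ 0) : TB a b = ⊥ ↔ TZ a b = ⊥ := by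
  rw [h.eq_map t hab]
  refine ⟨fun e => (Submodule.eq_bot_iff _).2 fun y hy => h.map_injective ?_,
    fun e => by rw [e, Submodule.map_bot]⟩
  rw [map_zero]
  exact (Submodule.eq_bot_iff _).1 e _ ⟨y, hy, rfl⟩

theorem eq_bot20 : TB 2 0 = ⊥ ↔ TZ 2 0 = ⊥ := h.eq_bot_iff t (.inr le_rfl)

theorem eq_bot02 : TB 0 2 = ⊥ ↔ TZ 0 2 = ⊥ := h.eq_bot_iff t (.inl le_rfl)

/-- types `(a + 1, b + 1)` with `a ≤ 0` or `b ≤ 0` -/
theorem eq_sup {a b : ℤ} (hab : a ≤ 0 ∨ b ≤ 0) : TB (a + 1) (b + 1) =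
    (TZ (a + 1) (b + 1)).map (pl π) ⊔ (TS a b).map (push j ∘ₗ pl p) := by
  refine le_antisymm (fun x hx => ?_) (sup_le (fun _ ⟨y, hy, e⟩ => e ▸ t.mπ _ _ y hy)
    fun _ ⟨s, hs, e⟩ => e ▸ h.exc0_mem t hs)
  obtain ⟨y, hy, s, hs, rfl⟩ := (h.mem_iff t).1 hx
  refine add_mem (Submodule.mem_sup_left ⟨y, hy, rfl⟩) (Submodule.mem_sup_right ?_)
  rw [map_sum]
  refine Submodule.sum_mem _ fun k _ => ?_
  rcases Nat.eq_zero_or_pos k with hk | hk
  · have h1 := hs k
    rw [hk] at h1 ⊢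
    rw [Nat.cast_zero, sub_zero, sub_zero, add_sub_cancel_right, add_sub_cancel_right] at h1
    rw [pow_zero, mul_one]
    exact ⟨s k, h1, rfl⟩
  · rw [t.gS.eq_zero_out (hs k) (by omega), map_zero, zero_mul, map_zero]
    exact zero_mem _

theorem eq_sup31 : TB 3 1 = (TZ 3 1).map (pl π) ⊔ (TS 2 0).map (push j ∘ₗ pl p) :=
  h.eq_sup t (a := 2) (b := 0) (.inr le_rfl)

theorem eq_sup13 : TB 1 3 = (TZ 1 3).map (pl π) ⊔ (TS 0 2).map (push j ∘ₗ pl p) :=
  h.eq_sup t (a := 0) (b := 2) (.inl le_rfl)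

theorem mem_iff_sup {a b : ℤ} (hab : a ≤ 0 ∨ b ≤ 0) {x : H B.X} : x ∈ TB (a + 1) (b + 1) ↔
    ∃ y ∈ TZ (a + 1) (b + 1), ∃ s ∈ TS a b, x = H.map π y + push j (H.map p s) := by
  rw [h.eq_sup t hab, Submodule.mem_sup]
  constructor
  · rintro ⟨_, ⟨y, hy, rfl⟩, _, ⟨s, hs, rfl⟩, rfl⟩
    exact ⟨y, hy, s, hs, rfl⟩
  · rintro ⟨y, hy, s, hs, rfl⟩
    exact ⟨_, ⟨y, hy, rfl⟩, _, ⟨s, hs, rfl⟩, rfl⟩

theorem mem_iff31 {x : H B.X} :
    x ∈ TB 3 1 ↔ ∃ y ∈ TZ 3 1, ∃ s ∈ TS 2 0, x = H.map π y + push j (H.map p s) :=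
  h.mem_iff_sup t (a := 2) (b := 0) (.inr le_rfl)

theorem mem_iff13 {x : H B.X} :
    x ∈ TB 1 3 ↔ ∃ y ∈ TZ 1 3, ∃ s ∈ TS 0 2, x = H.map π y + push j (H.map p s) :=
  h.mem_iff_sup t (a := 0) (b := 2) (.inl le_rfl)

theorem finrank_sup (hr : 0 < r) {a b : ℤ} (hab : a ≤ 0 ∨ b ≤ 0) :
    Module.finrank ℂ (TB (a + 1) (b + 1)) =
      Module.finrank ℂ (TZ (a + 1) (b + 1)) + Module.finrank ℂ (TS a b) := by
  rw [h.finrank_ty t, Finset.sum_eq_single (⟨0, hr⟩ : Fin r)]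
  · rw [Nat.cast_zero, sub_zero, sub_zero, add_sub_cancel_right, add_sub_cancel_right]
  · intro k _ hk
    have h1 : (k : ℕ) ≠ 0 := fun e => hk (Fin.ext e)
    rw [t.gS.out _ _ (by omega), finrank_bot]
  · exact fun e => absurd (Finset.mem_univ _) e

theorem finrank31 (hr : 0 < r) :
    Module.finrank ℂ (TB 3 1) = Module.finrank ℂ (TZ 3 1) + Module.finrank ℂ (TS 2 0) :=
  h.finrank_sup t hr (a := 2) (b := 0) (.inr le_rfl)

/-- the centre of a blow-up of a fourfold has no `2`-forms unless it is a surface -/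
theorem centre20 (hn : Z.n = 4) (hr : 2 ≤ r) : TS 2 0 = ⊥ :=
  t.gS.out _ _ (by have := h.dimS; omega)

theorem centre02 (hn : Z.n = 4) (hr : 2 ≤ r) : TS 0 2 = ⊥ :=
  t.gS.out _ _ (by have := h.dimS; omega)

theorem eq_one_of_ne_bot (hn : Z.n = 4) (hr : 0 < r) (h0 : TS 2 0 ≠ ⊥) : r = 1 :=
  by_contra fun e => h0 (h.centre20 t hn (by omega))

/-- nothing is added in type `(a + 1, b + 1)` if the centre has no classes of type `(a, b)` -/
theorem eq_map_of_bot {a b : ℤ} (hab : a ≤ 0 ∨ b ≤ 0) (h0 : TS a b = ⊥) :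
    TB (a + 1) (b + 1) = (TZ (a + 1) (b + 1)).map (pl π) := by
  rw [h.eq_sup t hab, h0, Submodule.map_bot, sup_bot_eq]

theorem eq_map31 (h0 : TS 2 0 = ⊥) : TB 3 1 = (TZ 3 1).map (pl π) :=
  h.eq_map_of_bot t (a := 2) (b := 0) (.inr le_rfl) h0

end BlT

end types

end Vale.Agent.P287Q.Hb
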