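import Vale.Agent.P287Q.Hb.KB0
import Vale.Agent.P287Q.Hb.PBg
import Vale.Agent.P287Q.Hb.Bl

/-!
# Projective bundles over an orbit space: Leray-Hirsch and fibre integrals
-/

set_option linter.unusedSectionVars false
set_option linter.style.haveILetI false

namespace Vale.Agent.P287Q.Hb

open Set Function Topology Filter Module P291Z P269 P269.Holo P269.Mono P269.Tq P269.Ch P269.Orb

variable {A W K : Type} [NormedRing A] [NormedAlgebra ℂ A] [NormedAddCommGroup W] [NormedSpace ℂ W]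
  [Fintype K] [FiniteDimensional ℂ A] [FiniteDimensional ℂ W] {act : A → W → W} {χ : K → A → ℂ}
  {ψ : A → ℂ} {φ : W → K → ℂ} {S : Set W} {n m : ℤ} [IsAct act univ] [IsAct (pbAct act χ) univ]
  {r : ℕ}

namespace Chr

section cmp

variable (χ) in
/-- an invariant subbundle of the sum of the line bundles -/
structure Sb [IsAct act S] (F : Sp act S → Submodule ℂ (K → ℂ)) (ρ : ℕ) : Prop where
  cl : IsClosed {x : Sp act S × (K → ℂ) | x.2 ∈ F x.1}
  rk : ∀ t, finrank ℂ (F t) = ρ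
  iv : ∀ (g : Aˣ) t w, w ∈ F t → (fun k => χ k g.val * w k) ∈ F (g • t)

variable (c : Chr χ) [FP act S] {Z : Set (W × (K → ℂ))} [FP (pbAct act χ) Z]
  {F : Sp act S → Submodule ℂ (K → ℂ)} {ρ : ℕ} (s : Sb χ F ρ)

/-- the subbundle as a vector bundle -/
noncomputable def vb : VB (sp act S) :=
  (chars (Y := sp act S) fun k => (c.hm k).ρ).sub F ρ s.cl s.rk s.iv

variable (o : Hol (pbAct act χ) act Z S Prod.fst Prod.fst)
  (h1 : ∀ x : Sp (pbAct act χ) Z, x.val.2 ≠ 0 ∧ x.val.2 ∈ F (o.toEqh.mor.f x))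

/-- the comparison with the projective bundle -/
noncomputable def pm : Mor (sp (pbAct act χ) Z) (c.vb s).PS :=
  ⟨kb_fst.ρ.toMonoidHom.prod kb_snd.ρ.toMonoidHom,
    fun x => VB.PT.mk (o.toEqh.mor.f x) x.val.2 (h1 x).2 (h1 x).1,
    kb_fst.ρ.continuous.prodMk kb_snd.ρ.continuous,
    VB.PT.continuous_mk o.toEqh.mor.cf
      (continuous_snd.comp (Sp.continuous_val (act := pbAct act χ)) :) _ _,
    fun g x => VB.PT.ext (o.toEqh.mor.eqv g x) (funext fun _ => mul_assoc _ _ _)⟩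

theorem q_eq : o.q = (c.vb s).pp.map.comp (c.pm s o h1).map := by
  rw [← Mor.map_comp, Hol.q, ← o.toEqh.mor_map]
  exact Mor.map_ext fun _ => rfl

theorem xi_eq : lcq (pbAct act χ) Z Prod.snd = H.map (c.pm s o h1).map (c.vb s).xi.1 := by
  have e : (c.pm s o h1).chr (c.vb s).o1 = (kb_snd (A := A)).ρ :=
    ContinuousMonoidHom.ext fun _ => rfl
  have := map_c1 (c.pm s o h1) (c.vb s).o1
  rw [e] at this
  exact (lce_val kb_snd).symm.trans (congrArg Subtype.val this.symm)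

variable (h2 : ∀ (t : Sp act S) w, w ≠ 0 → w ∈ F t → (t.val, w) ∈ Z)
include h2

theorem pm_bij : Bijective (c.pm s o h1).map := by
  refine ⟨(sp _ Z).surj.forall₂.2 fun x x' e => ?_, (VB.PS _).surj.forall.2 fun p => ?_⟩
  · rw [Mor.map_π, Mor.map_π] at e
    obtain ⟨g, k⟩ := ((VB.PS _).fib _ _).1 e
    exact ((sp _ Z).fib _ _).2 ⟨IsUnit.unit (a := (g.1.val, g.2.val))
      (Prod.isUnit_iff.2 ⟨g.1.isUnit, g.2.isUnit⟩), Holo.Sp.ext (act := pbAct act χ) (Prod.ext
        (congrArg (fun p : (c.vb s).PT => Sp.val (act := act) p.t) k)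
        (funext fun l => (mul_assoc _ _ _).trans (congrFun (congrArg VB.PT.w k) l)))⟩
  · exact ⟨_, (Mor.map_π (c.pm s o h1) (Sp.of (pbAct act χ) (Sp.val (act := act) p.t, p.w)
      (h2 _ _ p.ne p.mem))).trans (congrArg (VB.PS _).π (VB.PT.ext rfl rfl))⟩

variable [CompactSpace (Quo (pbAct act χ) Z)]

theorem homeo : IsHomeomorph (c.pm s o h1).map :=
  isHomeomorph_iff_continuous_bijective.2 ⟨(c.pm s o h1).map.continuous, c.pm_bij s o h1 h2⟩

omit s
include c h1

theorem lh (s : Sb χ F (r + 1)) : Bijective fun v : Fin (r + 1) → H (Quo act S) =>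
    ∑ k, H.map o.q (v k) * lcq (pbAct act χ) Z Prod.snd ^ (k : ℕ) := by
  have b : Bijective (H.lh (c.vb s).pp.map fun j : Fin (r + 1) => (c.vb s).xi.1 ^ (j : ℕ)) :=
    (c.vb s).lh_bijective
  refine (congrArg Bijective (funext fun v => ?_)).mp
    (((H.map_bijective_of_homeomorph ((c.homeo s o h1 h2).homeomorph _)).comp b).comp
      Finsupp.equivFunOnFinite.symm.bijective)
  rw [comp_apply, comp_apply, ← Finsupp.univ_sum_single (Finsupp.equivFunOnFinite.symm v), map_sum,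
    map_sum]
  refine Finset.sum_congr rfl fun l _ => ?_
  rw [H.lh_single, map_mul, map_pow, c.q_eq s o h1, c.xi_eq s o h1]
  exact congrArg₂ (· * ·) (H.map_map _ _ _) rfl

theorem push_top (s : Sb χ F (r + 1)) (hE : ∀ t, F t = ⊤) {d : ℕ} (hd : Dim act S d)
    (lin : ∀ a, IsUnit a → IsLinearMap ℂ (act a)) (hd' : Dim (pbAct act χ) Z (d + r)) :
    push o.q (cap (lcq (pbAct act χ) Z Prod.snd ^ r) (fnd (pbAct act χ) Z)) = fnd act S := by
  haveI := FiniteDimensional.complete ℂ A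
  have he := c.homeo s o h1 h2
  have := (Grr.ps (hd.ho lin) (c.vb s) hE
    (fun _ => analyticAt_pi_iff.2 fun l => (AnalyticAt.comp_of_eq ((c.an l _ (expU 0).isUnit).comp
      (f := NormedSpace.exp) (exp_an 0)) analyticAt_fst rfl).mul
        (analyticAt_pi_iff.1 analyticAt_snd l)) r rfl).res_fund_of_mor (F := sp _ Z)
    hd'.holOrb (c.pm s o h1) he.isOpenEmbedding (fun t => (holAt_spv_iff (x := t)
      (g := fun x => x)).2 ⟨_, analyticAt_id, .of_forall fun _ => rfl⟩) (fun t g hg => ?_) (l := 1)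
    fun t => Nat.card_eq_one_iff_unique.2 ⟨⟨fun a b => Subtype.ext
      ((FP.free t _ a.2.1).trans (FP.free t _ b.2.1).symm)⟩, ⟨⟨1, one_smul _ _, map_one _⟩⟩⟩
  · rw [Nat.cast_one, one_smul] at this
    exact (push_xi_homeo (Y := hd.ho lin) he (c.q_eq s o h1) (c.xi_eq s o h1)
      (this.trans hd'.fnd_eq.symm)).trans (hd.ho_fund _)
  · have e1 : g.1 = 1 :=
      FP.free (act := act) (S := S) (o.toEqh.mor.f t) g.1 (congrArg VB.PT.t hg)
    obtain ⟨l, hl⟩ := ne_iff.1 (h1 t).1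
    have e2 : (g.2 : ℂ) * ((c.hm l).ρ g.1 * (Sp.val (act := pbAct act χ) t).2 l) =
        (Sp.val (act := pbAct act χ) t).2 l := congrFun (congrArg VB.PT.w hg) l
    rw [e1, map_one, Units.val_one, one_mul] at e2
    exact ⟨1, one_smul _ _,
      (map_one _).trans (Prod.ext e1 (Units.ext ((mul_eq_right₀ hl).1 e2))).symm⟩

end cmp

/-- **Leray-Hirsch for a sum of line bundles** -/
theorem lhb (c : Chr χ) (h : QM act S n) (h' : QM (pbAct act χ) (pbS S) m)
    (hr : Fintype.card K = r + 1) (e : m = n + r) :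
    LHB h.ps h'.ps r (pb_hol' χ S).q (lcq _ _ Prod.snd) := by
  haveI := h.fp
  haveI := h'.fp
  haveI := h.cpt
  haveI := h'.cpt
  have h1 : ∀ x : Sp (pbAct act χ) (pbS S), x.val.2 ≠ 0 ∧ x.val.2 ∈ (⊤ : Submodule ℂ (K → ℂ)) :=
    fun x => ⟨x.val_mem.2, trivial⟩
  have h2 : ∀ (t : Sp act S) w, w ≠ 0 → w ∈ (⊤ : Submodule ℂ (K → ℂ)) → (t.val, w) ∈ pbS S :=
    fun t _ a _ => ⟨t.val_mem, a⟩
  have s : Sb χ (fun _ : Sp act S => ⊤) (r + 1) := ⟨isClosed_univ, fun _ => by
    rw [finrank_top, finrank_fintype_fun_eq_card, hr], fun _ _ _ _ => trivial⟩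
  refine ⟨e, lcq_deg kb_snd, c.lh _ h1 h2 s, fun a => ?_⟩
  by_cases hn : n < 0
  · have : IsEmpty (Quo act S) := ⟨mk_surj.forall.2 fun x => (h.neg hn).subset x.2⟩
    rw [Subsingleton.elim a 0, map_zero, zero_mul, map_zero, map_zero]
  exact (Loc.intg_cap _ _ _).symm.trans ((Loc.intg_push _ _ _).symm.trans
    (congrArg (Loc.intg · a) (c.push_top _ h1 h2 s (fun _ => rfl) h.dim h.lin
      ((show m.toNat = n.toNat + r by omega) ▸ h'.dim))))

/-- the relation, on any invariant part of the bundle -/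
theorem rel (c : Chr χ) [FP act S] {Z : Set (W × (K → ℂ))} [FP (pbAct act χ) Z]
    (o : Hol (pbAct act χ) act Z S Prod.fst Prod.fst) (h0 : ∀ p ∈ Z, p.2 ≠ 0) :
    ∏ k, (lce (pbAct act χ) Z kb_snd + Hev.map o.q (lce act S (c.hm k))) = 0 := by
  refine Eq.trans (Finset.prod_congr rfl fun k _ => Subtype.ext ?_)
    (Sec.prod_eq_zero (act := pbAct act χ) (S := Z) (c := fun k g => g.2 * χ k g.1) (s := Prod.snd)
      ⟨fun k => kb_snd.mul' (kb_fst.comp (c.hm k)), continuousOn_snd, fun _ _ _ _ _ => rfl⟩ h0)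
  rw [lce_val, lcq_mul kb_snd (kb_fst.comp (c.hm k)), ← o.toEqh.map_lcq (c.hm k),
    ← lce_val kb_snd, ← lce_val (c.hm k)]
  rfl

end Chr

namespace KB

variable (k : KB act S χ ψ φ)

omit k in
theorem map_inc (a : H (Quo act S)) :
    H.map (qinc _ kb_sub) (H.map (pb_hol' χ S).q a) = H.map (kb_hol χ S φ).q a :=
  (H.map_map _ _ _).trans
    (congrArg (H.map · a) (ContinuousMap.ext (mk_surj.forall.2 fun _ => rfl)))

include k

/-- integrals over the bundle of the kernel -/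
theorem J_inc {m' : ℤ} (h : QM act S n) (h₁ : QM (pbAct act χ) (pbS S) m')
    (h' : QM (pbAct act χ) (kbS S φ) m) (x : H (Quo (pbAct act χ) (pbS S))) :
    h'.ps.J (H.map (qinc _ kb_sub) x) =
      h₁.ps.J ((lcq _ _ Prod.snd + H.map (pb_hol' χ S).q (lcq act S ψ)) * x) := by
  haveI := h.fp
  haveI := h₁.fp
  rw [(pb_hol' χ S).toEqh.map_lcq k.hψ, ← lcq_mul kb_snd (kb_fst.comp k.hψ), ← k.push_one h₁ h',
    Coh.PS.J_push_mul, one_mul]

theorem lh (h : QM act S n) (h' : QM (pbAct act χ) (kbS S φ) m) (hr : Fintype.card K = r + 2) :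
    Bijective fun v : Fin (r + 1) → H (Quo act S) =>
      ∑ i, H.map (kb_hol χ S φ).q (v i) * lcq (pbAct act χ) (kbS S φ) Prod.snd ^ (i : ℕ) := by
  classical
  haveI := h.fp
  haveI := h'.fp
  haveI := h'.cpt
  refine k.toChr.lh (F := fun t => LinearMap.ker (dotProductBilin ℂ ℂ (φ t.val))) _
    (fun x => x.val_mem.2) (fun t _ a b => ⟨t.val_mem, a, b⟩)
    ⟨isClosed_eq (f := fun x : Sp act S × (K → ℂ) => φ x.1.val ⬝ᵥ x.2)
      (continuous_iff_continuousAt.2 fun x => (k.an' (p := (x.1.val, x.2))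
        x.1.val_mem).continuousAt.comp (f := fun x : Sp act S × (K → ℂ) => (x.1.val, x.2))
        (Sp.continuous_val.prodMap continuous_id).continuousAt) continuous_const,
      fun t => ?_, fun g t w a => ?_⟩
  · obtain ⟨i, hi⟩ := ne_iff.1 (k.ne _ (Sp.val_mem (act := act) t))
    have := Module.Dual.finrank_ker_add_one_of_ne_zero
      (f := dotProductBilin ℂ ℂ (φ (Sp.val (act := act) t))) fun e =>
        hi (by simpa using LinearMap.congr_fun e (Pi.single i 1))
    rw [finrank_fintype_fun_eq_card, hr] at this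
    exact Nat.succ_injective this
  · have b : φ (Sp.val (act := act) t) ⬝ᵥ w = 0 := a
    change ∑ i, φ (act g.val (Sp.val (act := act) t)) i * (χ i g.val * w i) = 0
    simp only [← mul_assoc, k.eqv _ g.isUnit _ (Sp.val_mem (act := act) t)]
    simp only [mul_assoc, ← Finset.mul_sum]
    exact mul_eq_zero_of_right _ b

/-- **Leray-Hirsch for the bundle of the kernel** -/
theorem lhb (h : QM act S n) (h' : QM (pbAct act χ) (kbS S φ) m) (hr : Fintype.card K = r + 2)
    (e : m = n + r) : LHB h.ps h'.ps r (kb_hol χ S φ).q (lcq _ _ Prod.snd) := by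
  haveI := h'.fp
  have h₁ := k.toChr.qm h (r := r + 1) hr
  haveI := h₁.fp
  have l := k.toChr.lhb h h₁ (r := r + 1) hr rfl
  refine ⟨e, lcq_deg kb_snd, k.lh h h' hr, fun a => ?_⟩
  have := k.J_inc h h₁ h' (H.map (pb_hol' χ S).q a * lcq _ _ Prod.snd ^ r)
  rw [add_mul, map_add, ← mul_assoc (H.map _ _), ← map_mul, l.int_lt r.lt_succ_self, add_zero,
    ← mul_assoc, ← (Coh.PBA.comm2 l.deg _).eq, mul_assoc, ← pow_succ', l.int, map_mul, map_pow,
    map_inc, show H.map (qinc _ kb_sub) _ = _ from (Eqh.incl kb_sub).map_lcq kb_snd] at this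
  exact this

end KB

/-- the push-forward of a product of two divisors -/
theorem KB.push_sq {χ : Fin 3 → A → ℂ} {φ : W → Fin 3 → ℂ} [IsAct (pbAct act χ) univ]
    (k : KB act S χ ψ φ) (h : QM act S n) (h' : QM (pbAct act χ) (kbS S φ) m) (_e : m = n + 1) :
    Coh.PS.push (X := h'.ps) (Y := h.ps) (kb_hol χ S φ).q
      ((lcq _ _ Prod.snd + H.map (kb_hol χ S φ).q (lcq act S (χ 0))) *
        (lcq _ _ Prod.snd + H.map (kb_hol χ S φ).q (lcq act S (χ 1)))) =
      lcq act S ψ - lcq act S (χ 2) := by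
  haveI := h.fp
  haveI := h'.fp
  have h₁ := k.toChr.qm h (r := 2) rfl
  haveI := h₁.fp
  have l := k.toChr.lhb h h₁ (r := 2) rfl rfl
  have h2 := k.toChr.rel (act := act) (pb_hol' χ S) fun _ a => a.2
  rw [Fin.prod_univ_three] at h2
  let u := lce (pbAct act χ) (pbS S) kb_snd
  let x := fun i => lce act S (k.hm i)
  let y := lce act S k.hψ
  let Q := Hev.map (pb_hol' (act := act) χ S).q
  have h3 : (u + Q y) * ((u + Q (x 0)) * (u + Q (x 1))) = Q (y - x 2) * u ^ 2 +
      Q ((y - x 2) * (x 0 + x 1)) * u ^ 1 + Q ((y - x 2) * (x 0 * x 1)) * u ^ 0 := by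
    simp only [map_mul, map_sub, map_add]
    linear_combination h2
  have h4 : (u.1 + H.map (pb_hol' χ S).q y.1) * ((u.1 + H.map (pb_hol' χ S).q (x 0).1) *
      (u.1 + H.map (pb_hol' χ S).q (x 1).1)) = H.map (pb_hol' χ S).q (y.1 - (x 2).1) * u.1 ^ 2 +
      H.map (pb_hol' χ S).q ((y - x 2) * (x 0 + x 1)).1 * u.1 ^ 1 +
      H.map (pb_hol' χ S).q ((y - x 2) * (x 0 * x 1)).1 * u.1 ^ 0 := congrArg Subtype.val h3
  simp only [u, x, y, lce_val] at h4
  refine h.ps.ext_left fun b => ?_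
  have := k.J_inc h h₁ h' ((lcq _ _ Prod.snd + H.map (pb_hol' χ S).q (lcq act S (χ 0))) *
    (lcq _ _ Prod.snd + H.map (pb_hol' χ S).q (lcq act S (χ 1))) * H.map (pb_hol' χ S).q b)
  rw [← mul_assoc, h4, add_mul _ _ (H.map _ b), add_mul _ _ (H.map _ b), l.mul_map, l.mul_map,
    l.mul_map, map_add h₁.ps.J, map_add h₁.ps.J, l.int, l.int_lt one_lt_two, l.int_lt two_pos,
    add_zero, add_zero, map_mul (H.map (qinc _ _)), map_mul (H.map (qinc _ _)),
    map_add (H.map (qinc _ _)), map_add (H.map (qinc _ _)), map_inc, map_inc, map_inc,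
    show H.map (qinc _ kb_sub) _ = _ from (Eqh.incl kb_sub).map_lcq kb_snd] at this
  rw [Coh.PS.J_push_mul]
  exact this

end Vale.Agent.P287Q.Hb
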