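import Vale.Agent.P287Q.Hb.D2

/-!
# Projective bundles over an orbit space (definitions)
-/

set_option linter.unusedSectionVars false

namespace Vale.Agent.P287Q.Hb

open Set P269 P269.Holo P269.Tq

variable {A W K : Type} [NormedRing A] [NormedAlgebra ℂ A] [NormedAddCommGroup W] [NormedSpace ℂ W]
  [Fintype K]

/-- The action on the projective bundle of the sum of the line bundles of the characters `χ k`. -/
def pbAct (act : A → W → W) (χ : K → A → ℂ) (g : A × ℂ) (p : W × (K → ℂ)) : W × (K → ℂ) :=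
  (act g.1 p.1, fun k => g.2 * χ k g.1 * p.2 k)

/-- The cone over the projective bundle. -/
def pbS (S : Set W) : Set (W × (K → ℂ)) := {p | p.1 ∈ S ∧ p.2 ≠ 0}

/-- The cone over the projective bundle of the kernel of `φ`. -/
def kbS (S : Set W) (φ : W → K → ℂ) : Set (W × (K → ℂ)) :=
  {p | p.1 ∈ S ∧ p.2 ≠ 0 ∧ φ p.1 ⬝ᵥ p.2 = 0}

/-- Analytic characters. -/
structure Chr (χ : K → A → ℂ) : Prop where
  hm : ∀ k, Hm (χ k)
  an : ∀ k a, IsUnit a → AnalyticAt ℂ (χ k) a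

/-- `φ` is a surjection from the sum of the line bundles of `χ k` to the line bundle of `ψ`. -/
structure KB (act : A → W → W) (S : Set W) (χ : K → A → ℂ) (ψ : A → ℂ) (φ : W → K → ℂ) : Prop
    extends Chr χ where
  hψ : Hm ψ
  aφ : ∀ x ∈ S, AnalyticAt ℂ φ x
  ne : ∀ x ∈ S, φ x ≠ 0
  eqv : ∀ a, IsUnit a → ∀ x ∈ S, ∀ k, φ (act a x) k * χ k a = ψ a * φ x k

variable [FiniteDimensional ℂ A] [FiniteDimensional ℂ W] {act : A → W → W} {χ : K → A → ℂ}

theorem Chr.isAct (h : Chr χ) [i : IsAct act univ] : IsAct (pbAct act χ) univ where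
  one p _ := Prod.ext (i.one _ trivial) (funext fun k => by simp [pbAct, (h.hm k).one])
  mul a b ha hb p _ := by
    have h1 := (Prod.isUnit_iff.1 ha).1
    have h2 := (Prod.isUnit_iff.1 hb).1
    refine Prod.ext (i.mul _ _ h1 h2 _ trivial) (funext fun k => ?_)
    simp only [pbAct, Prod.fst_mul, Prod.snd_mul, (h.hm k).mul _ _ h1 h2]
    ring
  mem _ _ _ _ := trivial
  an a ha p _ := by
    have h1 := (Prod.isUnit_iff.1 ha).1
    have f1 : AnalyticAt ℂ (fun q : (A × ℂ) × W × (K → ℂ) => q.1.1) (a, p) :=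
      analyticAt_fst.comp analyticAt_fst
    have f2 : AnalyticAt ℂ (fun q : (A × ℂ) × W × (K → ℂ) => q.1.2) (a, p) :=
      analyticAt_snd.comp analyticAt_fst
    have f3 : AnalyticAt ℂ (fun q : (A × ℂ) × W × (K → ℂ) => q.2.1) (a, p) :=
      analyticAt_fst.comp analyticAt_snd
    have f4 : AnalyticAt ℂ (fun q : (A × ℂ) × W × (K → ℂ) => q.2.2) (a, p) :=
      analyticAt_snd.comp analyticAt_snd
    exact (AnalyticAt.comp₂ (i.an _ h1 p.1 trivial) f1 f3).prod (analyticAt_pi_iff.2 fun k =>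
      (f2.mul (AnalyticAt.comp (h.an k _ h1) f1)).mul (analyticAt_pi_iff.1 f4 k))

theorem kb_fst {B : Type} [NormedRing B] [NormedAlgebra ℂ B] : Hm (Prod.fst : A × B → A) :=
  ⟨rfl, fun _ _ _ _ => rfl, fun _ _ => continuousAt_fst⟩

theorem kb_snd {B : Type} [NormedRing B] [NormedAlgebra ℂ B] : Hm (Prod.snd : A × B → B) :=
  ⟨rfl, fun _ _ _ _ => rfl, fun _ _ => continuousAt_snd⟩

/-- The projection of the bundle. -/
theorem kb_hol (χ : K → A → ℂ) (S : Set W) (φ : W → K → ℂ) :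
    Hol (pbAct act χ) act (kbS S φ) S Prod.fst Prod.fst :=
  ⟨⟨kb_fst, fun _ h => h.1, continuousOn_fst, fun _ _ _ _ => rfl⟩,
    fun _ _ => ⟨_, analyticAt_fst, .of_forall fun _ => rfl⟩⟩

theorem pb_hol' (χ : K → A → ℂ) (S : Set W) :
    Hol (pbAct act χ) act (pbS S) S Prod.fst Prod.fst :=
  ⟨⟨kb_fst, fun _ h => h.1, continuousOn_fst, fun _ _ _ _ => rfl⟩,
    fun _ _ => ⟨_, analyticAt_fst, .of_forall fun _ => rfl⟩⟩

end Vale.Agent.P287Q.Hb
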