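import Vale.Agent.P287Q.Hb.Defs
import Vale.Agent.P287Q.Pv.Prm
import Vale.Agent.P269.Hdg.CmpB

/-!
# Forms that vanish along the cone over a submanifold of projective space
-/

namespace Vale.Agent.P287Q.Hb

open scoped ComplexConjugate ContDiff
open Topology Filter Module P269.Hdg P269.Holo

variable {N n : ℕ} {T T' : Submodule ℂ (E N)} {o : Λ N} {C C' : Set (E N)} {x y : E N}

theorem exists_prj0 (T : Submodule ℂ (E N)) :
    ∃ P : E N →L[ℂ] E N, (∀ v, P v ∈ T) ∧ ∀ v ∈ T, P v = v := by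
  obtain ⟨Q, hQ⟩ := T.exists_isCompl
  exact ⟨LinearMap.toContinuousLinearMap (T.subtype ∘ₗ T.projectionOnto Q hQ),
    fun v => (T.projectionOnto Q hQ v).2,
    fun v hv => congrArg Subtype.val (T.projectionOnto_apply_left hQ ⟨v, hv⟩)⟩

theorem mp_nul {A : E N →L[ℝ] E N} (hA : ∀ v ∈ T, A v ∈ T') (ho : o ∈ nul T') :
    mp (tr A) o ∈ nul T := fun P hP => by
  rw [mp_mp, tr_comp]; exact ho _ fun v => hA _ (hP v)

theorem nul_anti (h : T ≤ T') (ho : o ∈ nul T') : o ∈ nul T := fun P hP => ho P fun v => h (hP v)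

theorem mp_sub_nul {A B : E N →L[ℝ] E N} (h : ∀ v ∈ T, A v = B v) (o : Λ N) :
    mp (tr A) o - mp (tr B) o ∈ nul T := fun P hP => by
  rw [map_sub, mp_mp, mp_mp, tr_comp, tr_comp, show A.comp P = B.comp P from
    ContinuousLinearMap.ext fun v => h _ (hP v), sub_self]

theorem mp_sub_self {A : E N →L[ℝ] E N} (h : ∀ v ∈ T, A v = v) (o : Λ N) :
    mp (tr A) o - o ∈ nul T := by
  have := mp_sub_nul (B := .id ℝ _) h o
  rwa [tr_id, mp_id] at this

theorem nul_iff {P : E N →L[ℝ] E N} (h1 : ∀ v, P v ∈ T) (h2 : ∀ v ∈ T, P v = v) :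
    o ∈ nul T ↔ mp (tr P) o = 0 :=
  ⟨fun h => h P h1, fun h => by simpa [h] using mp_sub_self h2 o⟩

theorem nul_mul_left (ho : o ∈ nul T) (a : Λ N) : a * o ∈ nul T := fun P hP => by
  rw [map_mul, ho P hP, mul_zero]

theorem nul_mul_right (ho : o ∈ nul T) (a : Λ N) : o * a ∈ nul T := fun P hP => by
  rw [map_mul, ho P hP, zero_mul]

theorem nul_pt (ho : o ∈ nul T) (p q : ℤ) : pt p q o ∈ nul T := by
  obtain ⟨P, h1, h2⟩ := exists_prj0 T
  rw [nul_iff (P := P.restrictScalars ℝ) h1 h2, ← pt_mp_tr, ho _ h1, map_zero]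

theorem one_notMem_nul : (1 : Λ N) ∉ nul T := fun h => by
  have := h 0 fun _ => zero_mem _
  rw [map_one, ← one_smul ℂ (1 : Λ N), ← zero_smul ℂ (1 : Λ N)] at this
  exact one_ne_zero (smul_one_injective this)

theorem Nul_kill (s : Bool) (c : ℕ) : ∀ (K : Submodule ℂ (E N)) (r : ℤ) (a : Λ N),
    c ≤ finrank ℂ K → a ∈ Eg s r → (∀ v ∈ K, ct (vec s v) a = 0) → (N : ℤ) + 1 < r + c → a = 0 := by
  induction c with
  | zero => exact fun K r a _ ha _ h => Eg_big (by omega) ha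
  | succ c ih =>
    intro K r a hK ha h0 h
    obtain ⟨v, hv, hv0⟩ := Submodule.exists_mem_ne_zero_of_ne_bot (p := K) (by
      rintro rfl; simp at hK)
    have h1 := (lf v : E N →ₗ[ℂ] ℂ).domRestrict K |>.finrank_range_add_finrank_ker
    have h2 := (LinearMap.range ((lf v : E N →ₗ[ℂ] ℂ).domRestrict K)).finrank_le
    rw [finrank_self] at h2
    have h3 := ih ((LinearMap.ker ((lf v : E N →ₗ[ℂ] ℂ).domRestrict K)).map K.subtype) (r + 1)
      (io (cv s (lf v)) * a) (by rw [Submodule.finrank_map_subtype_eq]; omega)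
      (by simpa [add_comm] using Eg_mul (io_cv_mem s s (lf v)) ha) (by
        rintro _ ⟨w, hw, rfl⟩
        have : lf v w.1 = 0 := hw
        simp [ct_io_mul, vec_cv, this, h0 _ w.2]) (by push_cast at h; omega)
    have h4 := ct_io_mul (vec s v) (cv s (lf v)) a
    simpa [h3, vec_cv, lf_self hv0, h0 v hv, eq_comm] using h4

/-- Basic forms of large type vanish on a subspace of dimension `n + 1`. -/
theorem nul_big {p q : ℤ} (ho : o ∈ Ty p q) (h0 : ∀ s, ct (vec s x) o = 0) (hx : x ∈ T)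
    (hx0 : x ≠ 0) (hT : finrank ℂ T = n + 1) (h : (n : ℤ) < p ∨ (n : ℤ) < q) : o ∈ nul T := by
  obtain ⟨P, h1, h2⟩ := exists_prj0 T
  obtain ⟨Q, hQ⟩ : ∃ Q : E N →L[ℂ] E N,
    Q = (ContinuousLinearMap.id ℂ (E N) + (-lf x).smulRight x).comp P := ⟨_, rfl⟩
  have e : mp (tr (Q.restrictScalars ℝ)) o = mp (tr (P.restrictScalars ℝ)) o := by
    conv_rhs => rw [← mp_radial (-lf x) x h0, mp_mp, tr_comp]
    rw [hQ]; rfl
  have h3 : LinearMap.range (Q : E N →ₗ[ℂ] E N) < T := by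
    refine lt_of_le_of_ne ?_ fun e' => ?_
    · rintro _ ⟨v, rfl⟩
      rw [hQ]
      exact add_mem (h1 v) (T.smul_mem _ hx)
    · obtain ⟨v, hv⟩ := e'.ge hx
      have := congrArg (lf x) hv
      simp [hQ, lf_self hx0] at this
  have h4 := Submodule.finrank_lt_finrank_of_lt h3
  have h5 := (Q : E N →ₗ[ℂ] E N).finrank_range_add_finrank_ker
  rw [finrank_fin_fun] at h5
  have h6 := mp_tr_mem Q ho
  have h7 : ∀ s, ∀ v ∈ LinearMap.ker (Q : E N →ₗ[ℂ] E N),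
      ct (vec s v) (mp (tr (Q.restrictScalars ℝ)) o) = 0 := fun s v hv => by
    rw [ct_mp, vec_comp_tr, show Q v = 0 from hv, vec_zero]; simp
  rw [nul_iff (P := P.restrictScalars ℝ) h1 h2, ← e]
  rcases h with h | h
  · exact Nul_kill true _ _ _ _ le_rfl h6.1 (h7 _) (by omega)
  · exact Nul_kill false _ _ _ _ le_rfl h6.2 (h7 _) (by omega)

theorem mem_Nl {u : SM N} : u ∈ Nl C ↔ ∀ y ∈ C, u.1 y ∈ nl C y := Iff.rfl

theorem nl_incl (h : C ⊆ C') (ho : o ∈ nl C' y) : o ∈ nl C y := nul_anti (tn_mono h) ho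

namespace SubC

variable (h : SubC C n)
include h

theorem smul_iff {t : ℂ} (ht : t ≠ 0) : t • y ∈ C ↔ y ∈ C :=
  ⟨fun k => by simpa [smul_smul, ht] using h.inv _ (inv_ne_zero ht) _ k, h.inv t ht y⟩

theorem zero_nl {u : SM N} (hu : ∀ x ≠ 0, u.1 x = 0) : u ∈ Nl C := fun y hy => by
  rw [hu y (h.ne y hy)]; exact zero_mem _

theorem tn_le {t : ℂ} (ht : t ≠ 0) (hy : y ∈ C) : tn C y ≤ tn C (t • y) := fun v hv => by
  have := fderiv_map_tn (A' := C) (h.mfd y hy) (Φ := fun z => t • z)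
    (by fun_prop) (.of_forall fun s hs => h.inv t ht s hs) hv
  have e : HasFDerivAt (fun z : E N => t • z) (t • ContinuousLinearMap.id ℂ (E N)) y :=
    (hasFDerivAt_id y).const_smul t
  rw [e.fderiv] at this
  exact (Submodule.smul_mem_iff _ ht).1 this

theorem tn_smul {t : ℂ} (ht : t ≠ 0) (hy : y ∈ C) : tn C (t • y) = tn C y :=
  le_antisymm (by simpa [smul_smul, ht] using h.tn_le (inv_ne_zero ht) (h.inv t ht y hy))
    (h.tn_le ht hy)

theorem self_mem (hy : y ∈ C) : y ∈ tn C y := by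
  have := fderiv_mem_tn (A := C) (u := fun t : ℂ => t • y) (x := 1)
    (analyticAt_id.smul analyticAt_const)
    ((eventually_ne_nhds one_ne_zero).mono fun t ht => h.inv t ht y hy) 1
  have e : HasFDerivAt (fun t : ℂ => t • y) ((ContinuousLinearMap.id ℂ ℂ).smulRight y) 1 :=
    (hasFDerivAt_id (1 : ℂ)).smul_const y
  rw [e.fderiv] at this
  simpa using this

theorem finrank_tn (hy : y ∈ C) : finrank ℂ (tn C y) = n + 1 := P287Q.finrank_tn (h.mfd y hy)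

theorem nearT_notMem (hx : x ≠ 0) (hc : x ∉ C) : NearT (prP x) fun y => y ∉ C :=
  NearT.of_ev hx (fun _ _ ht _ hy => by rwa [h.smul_iff ht] at hy)
    (eventually_of_mem (isClosed_closure.isOpen_compl.mem_nhds fun k => hc (h.cl x k hx))
      fun _ hy k => hy (subset_closure k))

theorem X_cases (b : TT N) : (NearT b fun y => y ∉ C) ∨ ∃ x ∈ C, b = prP x := by
  rcases TT_cases b with hb | ⟨x, hx, rfl⟩
  · exact Or.inl (NearT.of_notMem hb)
  · by_cases hc : x ∈ C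
    · exact Or.inr ⟨x, hc, rfl⟩
    · exact Or.inl (h.nearT_notMem hx hc)

theorem exists_retr (hx : x ∈ C) :
    ∃ r : E N → E N, AnalyticAt ℂ r x ∧ r x = x ∧ ∀ᶠ y in 𝓝 x, r y ∈ C ∧
      (∀ v, fderiv ℂ r y v ∈ tn C (r y)) ∧
      (y ∈ C → r y = y ∧ ∀ v ∈ tn C y, fderiv ℂ r y v = v) := by
  obtain ⟨ψ, hψ, rfl⟩ := (h.mfd x hx).prm
  obtain ⟨w, h1, h2, -, h4⟩ := hψ.exists_inv
  have ha : AnalyticAt ℂ (fun y => ψ (w y)) (ψ 0) := AnalyticAt.comp (by rw [h2]; exact hψ.an) h1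
  have hm : ∀ᶠ y in 𝓝 (ψ 0), ψ (w y) ∈ C :=
    (show Tendsto w (𝓝 (ψ 0)) (𝓝 0) by simpa [h2] using h1.continuousAt.tendsto).eventually
      hψ.mem
  refine ⟨_, ha, by rw [h2], ?_⟩
  filter_upwards [ha.eventually_analyticAt, hm.eventually_nhds, h4.eventually_nhds] with y a b c
  refine ⟨b.self_of_nhds, fderiv_mem_tn a b, fun hy => ⟨c.self_of_nhds hy, fun v hv => ?_⟩⟩
  have := hv _ (a.sub analyticAt_id) (c.mono fun s k hs => sub_eq_zero.2 (k hs))
  rw [fderiv_sub a.differentiableAt differentiableAt_id, fderiv_id] at this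
  exact sub_eq_zero.1 this

/-- The properties of pull-back along a local retraction onto the cone. -/
theorem exists_retr' (hx : x ∈ C) :
    ∃ r : E N → E N, r x = x ∧ Tendsto r (𝓝 x) (𝓝 x) ∧ ∀ᶠ y in 𝓝 x, AnalyticAt ℂ r y ∧ r y ∈ C ∧
      (∀ u : E N → Λ N, u (r y) ∈ nl C (r y) → pb r u y = 0) ∧
      (y ∈ C → ∀ u : E N → Λ N, u y - pb r u y ∈ nl C y) := by
  obtain ⟨r, hr, hrx, hev⟩ := h.exists_retr hx
  refine ⟨r, hrx, by simpa [hrx] using hr.continuousAt.tendsto, ?_⟩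
  filter_upwards [hev, hr.eventually_analyticAt] with y ⟨h1, h2, h3⟩ ha
  refine ⟨ha, h1, fun u hu => hu _ fun v => by rw [an_fderiv ha]; exact h2 v, fun hy u => ?_⟩
  rw [pb, (h3 hy).1, ← neg_mem_iff, neg_sub, an_fderiv ha]
  exact mp_sub_self (h3 hy).2 _

theorem fderiv_tn {B : Type} [NormedAddCommGroup B] [NormedSpace ℝ B] (hx : x ∈ C) {g : E N → B}
    (hg : DifferentiableAt ℝ g x) (h0 : ∀ᶠ y in 𝓝 x, y ∈ C → g y = 0) {v : E N}
    (hv : v ∈ tn C x) : fderiv ℝ g x v = 0 := by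
  obtain ⟨r, hr, hrx, hev⟩ := h.exists_retr hx
  have ht : Tendsto r (𝓝 x) (𝓝 x) := by simpa [hrx] using hr.continuousAt.tendsto
  have h2 := HasFDerivAt.comp (g := g) (f := r) x (by rw [hrx]; exact hg.hasFDerivAt)
    (hr.differentiableAt.hasFDerivAt.restrictScalars ℝ)
  have h3 : HasFDerivAt (g ∘ r) (0 : E N →L[ℝ] B) x :=
    (hasFDerivAt_const (0 : B) x).congr_of_eventuallyEq (by
      filter_upwards [hev, ht.eventually h0] with y hy hy' using hy' hy.1)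
  simpa [(hev.self_of_nhds.2.2 hx).2 v hv] using DFunLike.congr_fun (h2.unique h3) v

theorem stab (hx : x ∈ C) {u : E N → Λ N} (hu : ContDiffAt ℝ ∞ u x)
    (hn : ∀ᶠ y in 𝓝 x, y ∈ C → u y ∈ nl C y) : dd idE u x ∈ nl C x := by
  obtain ⟨r, hrx, hr, hev⟩ := h.exists_retr' hx
  have h1 : pb r u =ᶠ[𝓝 x] fun _ => 0 := by
    filter_upwards [hev, hr.eventually hn] with y a b using a.2.2.1 u (b a.2.1)
  have h2 := hev.self_of_nhds.2.2.2 hx (dd idE u)
  rwa [← dd_pb (an_sm hev.self_of_nhds.1) (by rw [hrx]; exact sm_diff hu), dd_congr h1, dd_const,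
    sub_zero] at h2

theorem Vn_of_ev (hx : x ≠ 0) {u : SM N} {a b : ℤ} (hm : Hm a b u.1)
    (hu : ∀ᶠ y in 𝓝 x, y ∈ C → u.1 y ∈ nl C y) : u ∈ Vn C (nl C) (prP x) := by
  refine NearT.of_ev hx (fun t y ht hy h1 hc => ?_) hu
  have : u.1 (t • y) ∈ nul (tn C (t • y)) := h1 (h.inv t ht y hc)
  rwa [h.tn_smul ht hc, hm t y ht hy, Submodule.smul_mem_iff _
    (mul_ne_zero (zpow_ne_zero _ ht) (zpow_ne_zero _ (by simpa)))] at this

theorem Vn_of_ev_Ak (hx : x ≠ 0) {k : ℤ} {u : SM N} (hu : u ∈ Ak k)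
    (hv : ∀ᶠ y in 𝓝 x, y ∈ C → u.1 y ∈ nl C y) : u ∈ Vn C (nl C) (prP x) := by
  rw [← sum_PT u]
  exact Submodule.sum_mem _ fun p _ => Submodule.sum_mem _ fun q _ =>
    h.Vn_of_ev hx (hu.1 p q).1.2 (hv.mono fun y hy hc => nul_pt (hy hc) p q)

theorem cpr_mem (hy : y ∈ C) (hl : lf x y ≠ 0) : cpr x y ∈ C := h.inv _ (inv_ne_zero hl) y hy

theorem pb_cpr_nl (hy : y ∈ C) (hl : lf x y ≠ 0) {v : E N → Λ N}
    (hv : v (cpr x y) ∈ nl C (cpr x y)) : pb (cpr x) v y ∈ nl C y := by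
  refine mp_nul (fun w hw => ?_) hv
  rw [an_fderiv (an_cpr hl)]
  exact fderiv_map_tn (h.mfd y hy) (an_cpr hl)
    (((lf x).continuous.continuousAt.eventually_ne hl).mono fun s k hs => h.cpr_mem hs k) hw

theorem Df_nl {k : ℕ} {f : (Fin (k + 1) → E N) → ℂ} (hx : x ∈ C)
    (hf : ∀ᶠ y in 𝓝 fun _ => x, ContDiffAt ℝ ∞ f y)
    (h0 : ∀ᶠ y in 𝓝 fun _ : Fin (k + 1) => x, (∀ i, y i ∈ C) → f y = 0) : Df f x ∈ nl C x := by
  obtain ⟨r, hrx, hr, hev⟩ := h.exists_retr' hx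
  have ht : Tendsto (fun z : Fin (k + 1) → E N => fun i => r (z i)) (𝓝 fun _ => x)
      (𝓝 fun _ => x) := tendsto_pi_nhds.2 fun i => hr.comp ((continuous_apply i).tendsto _)
  have h1 := Df_pb (f := f) (hev.mono fun z hz => an_sm hz.1) (by rwa [hrx])
  rw [Df_congr (g := fun _ => 0) ?_, Df_zero] at h1
  · have := hev.self_of_nhds.2.2.2 hx (Df f)
    rwa [← h1, sub_zero] at this
  · filter_upwards [ht.eventually h0, eventually_all.2 fun i : Fin (k + 1) =>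
      ((continuous_apply i).tendsto fun _ => x).eventually hev] with z h1 h2
    exact h1 fun i => (h2 i).2.1

theorem Om_big {p q : ℤ} {u : SM N} (hu : u ∈ Om p q) (hb : (n : ℤ) < p ∨ (n : ℤ) < q) :
    u ∈ Nl C := fun y hy =>
  nul_big (hu.1.1 y (h.ne y hy)).1 (fun s => by
    cases s
    · exact (hu.1.1 y (h.ne y hy)).2
    · exact hu.2 y (h.ne y hy)) (h.self_mem hy) (h.ne y hy) (h.finrank_tn hy) hb

end SubC

end Vale.Agent.P287Q.Hb
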