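import Vale.Agent.P269.Hdg.ExP0
import Vale.Agent.P269.Hdg.CmpB
import Vale.Agent.P269.Mono.Conj

/-!
# P287, Hodge block: complex conjugation and products of forms
-/

namespace Vale.Agent.P287Q.Hb

open scoped ComplexConjugate ContDiff Matrix
open Topology Filter
open Vale.Agent.P269.Hdg Vale.Agent.P269.Hdg.Ex
open Vale.Agent.P281Z.Hg (Fo hl ah lr jc cjv wg Bq swm f1a f1b k1b')
open Vale.Agent.P299.IX.Fock (epsV ev)
open Vale.Agent.P272.K (Cm Chart)
open Vale.Agent.P269.Mono (cjC)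
open Vale.Agent.P291Z (Coch)

/-! ## The Fock space -/

section Fock

open P281Z.Hg P299.IX P299.IX.Fock

variable {n d : ℕ}

theorem epsV_star (v : Fin n → ℂ) : (epsV v).map star = epsV (star v) := by
  rw [← Matrix.transpose_transpose (Matrix.map _ _), ← Matrix.transpose_map,
    ← Matrix.conjTranspose, epsV_conjTranspose, iotV_transpose]

theorem cjv_epsV (v : Fin (d + d) → ℂ) (u : Fo d) :
    cjv (epsV v *ᵥ u) = epsV (swm d *ᵥ star v) *ᵥ cjv u :=
  F1bH.cjv_mul (by rw [epsV_star]; exact F1aH.lr_epsV (swm d) (star v)) u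

theorem wg_wg (a b : Fk n) : wg (wg a *ᵥ b) = wg a * wg b := by
  induction a using F1aH.fk_ind with
  | h0 => rw [f1a.wg_ev, Matrix.one_mulVec, one_mul]
  | he l u h => rw [f1a.wg_eps, ← Matrix.mulVec_mulVec, f1a.wg_eps, h, mul_assoc]
  | ha u v h h' => rw [f1a.wg_add, Matrix.add_mulVec, f1a.wg_add, h, h', add_mul]
  | hs c u h => rw [f1a.wg_smul, Matrix.smul_mulVec, f1a.wg_smul, h, Matrix.smul_mul]

theorem dgl_of_dg {k : ℕ} {a : Fk n} (h : Fock.dg k *ᵥ a = a) (c : ℕ → ℂ) :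
    dgl c *ᵥ a = c k • a := by
  funext I
  have := congrFun h I
  rw [dg_mulVec] at this
  rw [dgl_mulVec, Pi.smul_apply, smul_eq_mul]
  split_ifs at this with e
  · rw [e]
  · rw [← this, mul_zero, mul_zero]

theorem Bq_rev (a v : Fk n) :
    Bq a v = Bq (ev ∅) (wg (dgl (fun k => (-1) ^ (k * (k - 1) / 2)) *ᵥ a) *ᵥ v) := by
  induction a using F1aH.fk_ind generalizing v with
  | h0 => simp [dgl_ev, f1a.wg_ev]
  | he l u h =>
    have e : (fun p : ℕ => (-1 : ℂ) ^ p * (-1) ^ ((p + 1) * (p + 1 - 1) / 2)) =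
        fun p => (-1) ^ (p * (p - 1) / 2) := funext fun p => by
      rw [Nat.triangle_succ, pow_add, mul_left_comm, ← mul_pow, neg_mul_neg, one_mul, one_pow,
        mul_one]
    rw [f1a.Bq_eps, h, Matrix.mulVec_mulVec u, dgl_eps, ← Matrix.mulVec_mulVec u, f1a.wg_eps,
      f1a.eps_wg, Matrix.mulVec_mulVec u, Fock.par, dgl_mul, e, Matrix.mulVec_mulVec]
  | ha u w h h' =>
    rw [Matrix.mulVec_add, f1a.wg_add, Matrix.add_mulVec, Bq, add_dotProduct, Bq,
      Matrix.mulVec_add, dotProduct_add]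
    exact congrArg₂ _ (h v) (h' v)
  | hs c u h =>
    rw [Matrix.mulVec_smul, f1a.wg_smul, Matrix.smul_mulVec, Bq, smul_dotProduct, Bq,
      Matrix.mulVec_smul, dotProduct_smul]
    exact congrArg _ (h v)

theorem Bq_wg {k : ℕ} {a : Fk n} (h : Fock.dg k *ᵥ a = a) (v : Fk n) :
    Bq a v = (-1) ^ (k * (k - 1) / 2) * Bq (ev ∅) (wg a *ᵥ v) := by
  rw [Bq_rev, dgl_of_dg h, f1a.wg_smul, Matrix.smul_mulVec, Bq, Matrix.mulVec_smul,
    dotProduct_smul, smul_eq_mul, Bq]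

theorem wg_comm {j k : ℕ} {a b : Fk n} (ha : Fock.dg j *ᵥ a = a) (hb : Fock.dg k *ᵥ b = b) :
    wg a * wg b = (-1 : ℂ) ^ (j * k) • (wg b * wg a) := by
  have key : ∀ a : Fk n, wg a * wg b = wg b * wg (dgl (fun p => ((-1) ^ k) ^ p) *ᵥ a) := fun a => by
    induction a using F1aH.fk_ind with
    | h0 => simp [dgl_ev, f1a.wg_ev]
    | he l u h =>
      have e : (dgl fun p => ((-1 : ℂ) ^ k) ^ (p + 1) : FM n) =
          (-1 : ℂ) ^ k • dgl fun p => ((-1) ^ k) ^ p := by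
        rw [dgl, dgl, ← Matrix.diagonal_smul]
        exact congrArg _ (funext fun I => pow_succ' _ _)
      rw [f1a.wg_eps, mul_assoc, h, ← mul_assoc, f1a.eps_wg, Fock.par, dgl_of_dg hb,
        Matrix.mulVec_mulVec, dgl_eps, e, ← Matrix.mulVec_mulVec, f1a.wg_eps, Matrix.smul_mulVec,
        f1a.wg_smul, f1a.wg_smul, Matrix.smul_mul, Matrix.smul_mul, Matrix.mul_smul,
        Matrix.mul_smul, mul_assoc]
    | ha u v h h' => rw [Matrix.mulVec_add, f1a.wg_add, f1a.wg_add, add_mul, mul_add, h, h']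
    | hs c u h => rw [Matrix.mulVec_smul, f1a.wg_smul, f1a.wg_smul, Matrix.smul_mul,
        Matrix.mul_smul, h]
  rw [key, dgl_of_dg ha, f1a.wg_smul, Matrix.mul_smul, ← pow_mul, mul_comm k]

theorem wg_comm_mv {j k : ℕ} {a b : Fk n} (ha : Fock.dg j *ᵥ a = a) (hb : Fock.dg k *ᵥ b = b) :
    wg a *ᵥ b = (-1 : ℂ) ^ (j * k) • (wg b *ᵥ a) := by
  have := congrArg (· *ᵥ ev ∅) (wg_comm ha hb)
  simpa only [Matrix.smul_mulVec, ← Matrix.mulVec_mulVec, f1a.wg_one] using this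

theorem cjv_wg (a b : Fo d) : cjv (wg a *ᵥ b) = wg (cjv a) *ᵥ cjv b := by
  induction a using F1aH.fk_ind with
  | h0 => rw [f1b.cjv_ev, f1a.wg_ev, Matrix.one_mulVec, Matrix.one_mulVec]
  | he l u h =>
    rw [← epsV_single, F1aH.wg_epsV, ← Matrix.mulVec_mulVec, cjv_epsV, cjv_epsV, h, F1aH.wg_epsV,
      Matrix.mulVec_mulVec]
  | ha u v h h' => rw [f1a.wg_add, Matrix.add_mulVec, f1b.cjv_add, f1b.cjv_add, h, h', f1a.wg_add,
      Matrix.add_mulVec]
  | hs c u h => rw [f1a.wg_smul, Matrix.smul_mulVec, f1b.cjv_smul, f1b.cjv_smul, h, f1a.wg_smul,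
      Matrix.smul_mulVec]

end Fock

/-! ## The exterior algebra -/

variable {N : ℕ}

/-- The conjugate of a covector. -/
noncomputable def cw (w : W N) : W N := (Complex.conjCLE : ℂ →L[ℝ] ℂ).comp w

@[simp] theorem cw_apply (w : W N) (v : E N) : cw w v = conj (w v) := rfl

theorem conj_sg (s : Bool) (z : ℂ) : conj (sg s z) = sg (!s) z := by cases s <;> simp

theorem vec_cw (s : Bool) (v : E N) (w : W N) : vec (!s) v (cw w) = conj (vec s v w) := by
  cases s <;> simp [vec_apply, sub_eq_add_neg, map_ofNat]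

theorem cw_cv (s : Bool) (l : E N →L[ℂ] ℂ) : cw (cv s l) = cv (!s) l := by
  ext v; simp [conj_sg]

theorem cw_dz (s : Bool) (j : Fin (N + 1)) : cw (dz s j) = dz (!s) j := cw_cv s _

theorem cw_cw (w : W N) : cw (cw w) = w := by ext v; simp

theorem cd_cw (w : W N) : cd (cw w) = swm (N + 1) *ᵥ star (cd w) := by
  have s : ∀ p q, swm (N + 1) p q = swm (N + 1) q p := fun p q =>
    congrFun (congrFun (f1b.swm_tr _) q) p
  refine ExT.cd_ext (fun j => ?_) fun j => ?_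
  · refine (vec_cw false _ w).trans ?_
    simp [Matrix.mulVec, dotProduct, s (hl j), f1b.swm_hl, ExT.cd_ah]
  · refine (vec_cw true _ w).trans ?_
    simp [Matrix.mulVec, dotProduct, s (ah j), f1b.swm_ah, ExT.cd_hl]

/-- Complex conjugation of forms at a point. -/
noncomputable def cjL : Λ N →ₛₗ[starRingEnd ℂ] Λ N where
  toFun a := fk.symm (cjv (fk a))
  map_add' a b := by rw [map_add, f1b.cjv_add, map_add]
  map_smul' c a := by rw [map_smul, f1b.cjv_smul, map_smul]; rfl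

theorem fk_cjL (a : Λ N) : fk (cjL a) = cjv (fk a) := fk.apply_symm_apply _

theorem cjL_smul (c : ℂ) (a : Λ N) : cjL (c • a) = conj c • cjL a := cjL.map_smulₛₗ c a

theorem cjL_one : cjL (1 : Λ N) = 1 := fk.injective (by rw [fk_cjL, fk_one, f1b.cjv_ev])

theorem cjL_io_mul (w : W N) (a : Λ N) : cjL (io w * a) = io (cw w) * cjL a :=
  fk.injective (by rw [fk_cjL, fk_io, fk_io, cjv_epsV, cd_cw, fk_cjL])

theorem cjL_io (w : W N) : cjL (io w) = io (cw w) := by
  simpa [cjL_one] using cjL_io_mul w 1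

theorem cjL_cjL (a : Λ N) : cjL (cjL a) = a :=
  fk.injective (by rw [fk_cjL, fk_cjL, f1b.cjv_cjv])

theorem fk_mul (a b : Λ N) : fk (a * b) = wg (fk a) *ᵥ fk b := by
  induction a using ind with
  | one => rw [one_mul, fk_one, f1a.wg_ev, Matrix.one_mulVec]
  | smul c a h => rw [smul_mul_assoc, map_smul, map_smul, h, f1a.wg_smul, Matrix.smul_mulVec]
  | add a a' h h' => rw [add_mul, map_add, map_add, h, h', f1a.wg_add, Matrix.add_mulVec]
  | mul w a h => rw [mul_assoc, fk_io, fk_io, h, P281Z.Hg.F1aH.wg_epsV, Matrix.mulVec_mulVec]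

theorem cjL_mul (a b : Λ N) : cjL (a * b) = cjL a * cjL b :=
  fk.injective (by rw [fk_cjL, fk_mul, fk_mul, cjv_wg, fk_cjL, fk_cjL])

theorem mul_comm_Dg {j k : ℕ} {a b : Λ N} (ha : a ∈ Dg j) (hb : b ∈ Dg k) :
    a * b = (-1 : ℂ) ^ (j * k) • (b * a) :=
  fk.injective (by rw [map_smul, fk_mul, fk_mul, wg_comm_mv (fk_Dg.1 ha) (fk_Dg.1 hb)])

theorem cjL_mp' {A B : W N →ₗ[ℂ] W N} (h : ∀ w, cw (A w) = B (cw w)) (a : Λ N) :
    cjL (mp A a) = mp B (cjL a) := by
  induction a using ind with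
  | one => rw [map_one, cjL_one, map_one]
  | smul c a h => rw [map_smul, cjL_smul, cjL_smul, h, map_smul]
  | add a a' h h' => rw [map_add, map_add, map_add, map_add, h, h']
  | mul w a ih => rw [map_mul, mp_io, cjL_io_mul, cjL_io_mul, ih, map_mul, mp_io, h]

theorem cjL_mp (P : E N →L[ℝ] E N) (a : Λ N) : cjL (mp (tr P) a) = mp (tr P) (cjL a) :=
  cjL_mp' (fun _ => rfl) a

theorem cjL_par (a : Λ N) : cjL (par a) = par (cjL a) :=
  cjL_mp' (fun w => by ext v; simp) a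

theorem cjL_ct (s : Bool) (v : E N) (a : Λ N) :
    cjL (ct (vec s v) a) = ct (vec (!s) v) (cjL a) := by
  induction a using ind with
  | one => rw [cjL_one, ct_one, ct_one, map_zero]
  | smul c a h => rw [map_smul, cjL_smul, cjL_smul, h, map_smul]
  | add a a' h h' => rw [map_add, map_add, map_add, map_add, h, h']
  | mul w a h => rw [ct_io_mul, map_sub, cjL_smul, cjL_io_mul, cjL_io_mul, ct_io_mul, h, vec_cw]

theorem cjL_num (s : Bool) (a : Λ N) : cjL (num s a) = num (!s) (cjL a) := by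
  rw [num_apply, num_apply, map_sum]
  exact Finset.sum_congr rfl fun j _ => by rw [cjL_io_mul, cw_dz, cjL_ct]

theorem cjL_Eg {s : Bool} {r : ℤ} {a : Λ N} (h : a ∈ Eg s r) : cjL a ∈ Eg (!s) r := by
  rw [mem_Eg, ← cjL_num, mem_Eg.1 h, cjL_smul, map_intCast]

theorem cjL_Ty {p q : ℤ} {a : Λ N} (h : a ∈ Ty p q) : cjL a ∈ Ty q p :=
  mem_Ty.2 ⟨cjL_Eg (s := false) h.2, cjL_Eg (s := true) h.1⟩

theorem cjL_Dg {k : ℤ} {a : Λ N} (h : a ∈ Dg k) : cjL a ∈ Dg k := by
  have := congrArg cjL (mem_Dg.1 h)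
  rw [map_add, cjL_num, cjL_num, cjL_smul, map_intCast, add_comm] at this
  exact this

theorem cjL_pt (p q : ℤ) (a : Λ N) : cjL (pt p q a) = pt q p (cjL a) := by
  have := ty_ext (pt p q) (cjL.comp ((pt q p).comp cjL)) (fun p' q' a ha => by
    simp only [LinearMap.comp_apply, pt_of_mem ha, pt_of_mem (cjL_Ty ha), and_comm]
    split_ifs
    · rw [cjL_cjL]
    · rw [map_zero]) a
  rw [this]
  exact cjL_cjL _

/-- Conjugation as a real continuous linear map. -/
noncomputable def cjR : Λ N →L[ℝ] Λ N := LinearMap.toContinuousLinearMap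
  { toFun := cjL
    map_add' := map_add cjL
    map_smul' := fun r a => (cjL_smul r a).trans (by rw [Complex.conj_ofReal]; rfl) }

@[simp] theorem cjR_apply (a : Λ N) : cjR a = cjL a := rfl

section calculus

variable {Y : Type} [NormedAddCommGroup Y] [NormedSpace ℝ Y] {u : Y → Λ N} {y : Y}
  {L : E N →L[ℝ] Y}

theorem sm_cjL (h : ContDiffAt ℝ ∞ u y) : ContDiffAt ℝ ∞ (fun z => cjL (u z)) y :=
  cjR.contDiff.contDiffAt.comp y h

theorem db_cjL (s : Bool) (h : DifferentiableAt ℝ u y) :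
    db (!s) L (fun z => cjL (u z)) y = cjL (db s L u y) := by
  rw [db, db, show fderiv ℝ (fun z => cjL (u z)) y = cjR.comp (fderiv ℝ u y) from
    (cjR.hasFDerivAt.comp y h.hasFDerivAt).fderiv, al_apply, al_apply, map_sum]
  refine Finset.sum_congr rfl fun j _ => ?_
  rw [cjL_io_mul, cw_dz, vv, vv, cjL_smul, map_sub, cjL_smul, conj_sg, map_inv₀, map_ofNat]
  rfl

theorem dd_cjL (h : DifferentiableAt ℝ u y) :
    dd L (fun z => cjL (u z)) y = cjL (dd L u y) := by
  rw [dd, dd, map_add, ← db_cjL _ h, ← db_cjL _ h, add_comm]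
  rfl

theorem DL_cjL {Ls : List (E N →L[ℝ] Y)} (h : ContDiffAt ℝ ∞ u y) :
    DL Ls (fun z => cjL (u z)) =ᶠ[𝓝 y] fun z => cjL (DL Ls u z) := by
  induction Ls with
  | nil => exact EventuallyEq.rfl
  | cons L Ls ih =>
    filter_upwards [dd_congr' (L := L) ih, sm_ev (sm_DL (Ls := Ls) h)] with z h1 h2
    rw [DL_cons, h1, dd_cjL h2]; rfl

end calculus

/-! ## Smooth forms -/

/-- Complex conjugation of smooth forms. -/
noncomputable def CL : SM N →ₛₗ[starRingEnd ℂ] SM N where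
  toFun u := ⟨fun x => cjL (u.1 x), fun _ hx => sm_cjL (u.sm hx)⟩
  map_add' u v := Subtype.ext (funext fun x => map_add cjL (u.1 x) (v.1 x))
  map_smul' c u := Subtype.ext (funext fun x => cjL_smul c (u.1 x))

@[simp] theorem CL_apply (u : SM N) (x : E N) : (CL u).1 x = cjL (u.1 x) := rfl

theorem CL_smul (c : ℂ) (u : SM N) : CL (c • u) = conj c • CL u := CL.map_smulₛₗ c u

theorem CL_CL (u : SM N) : CL (CL u) = u := Subtype.ext (funext fun _ => cjL_cjL _)

theorem CL_oneS : CL (oneS : SM N) = oneS := Subtype.ext (funext fun _ => cjL_one)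

theorem CL_ML (u v : SM N) : CL (ML u v) = ML (CL u) (CL v) :=
  Subtype.ext (funext fun _ => cjL_mul _ _)

theorem CL_PT (p q : ℤ) (u : SM N) : CL (PT p q u) = PT q p (CL u) :=
  Subtype.ext (funext fun _ => cjL_pt p q _)

theorem Hm_cjL {a b : ℤ} {u : E N → Λ N} (h : Hm a b u) : Hm b a fun x => cjL (u x) :=
  fun t x ht hx => by
    simp only [h t x ht hx, cjL_smul, map_mul, map_zpow₀, Complex.conj_conj, mul_comm]

theorem CL_Om {p q : ℤ} {u : SM N} (h : u ∈ Om p q) : CL u ∈ Om q p :=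
  ⟨⟨fun x hx => ⟨cjL_Ty (h.1.1 x hx).1, (cjL_ct true x _).symm.trans (by rw [h.2 x hx, map_zero])⟩,
    by simpa only [zero_sub] using! Hm_cjL h.1.2⟩, fun x hx =>
      (cjL_ct false x _).symm.trans (by rw [(h.1.1 x hx).2, map_zero])⟩

theorem CL_Ak {k : ℤ} {u : SM N} (h : u ∈ Ak k) : CL u ∈ Ak k :=
  ⟨fun p q => CL_PT q p u ▸ CL_Om (h.1 q p), fun x hx => cjL_Dg (h.2 x hx)⟩

theorem DB_CL' (s : Bool) (u : SM N) : DB (!s) (CL u) = CL (DB s u) :=
  Subtype.ext (funext fun x => by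
    by_cases hx : x = 0
    · exact (if_pos hx).trans ((congrArg cjL (if_pos hx)).trans (map_zero _)).symm
    · rw [CL_apply, DB_apply _ _ hx, DB_apply _ _ hx]
      exact db_cjL s (u.df hx))

theorem DD_CL' (u : SM N) : DD (CL u) = CL (DD u) := by
  rw [DD, LinearMap.add_apply, LinearMap.add_apply, map_add, ← DB_CL', ← DB_CL', add_comm]
  rfl

theorem DD_CL (u : SM N) (x : E N) : (DD (CL u)).1 x = cjL ((DD u).1 x) := by rw [DD_CL']; rfl

section ps

variable {n : ℕ} {M : Type} [TopologicalSpace M] (σ : Chart n M → Cm n → E N)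

theorem ps_CL (u : SM N) {e : Chart n M} {z : Cm n} (h : DifferentiableAt ℝ (σ e) z) :
    ps σ (CL u) e z = cjv (ps σ u e z) := by
  rw [ps_apply, ps_apply, CL_apply, fk_cjL, f1b.cjv_lr, k1b'.jc_real h]

theorem ps_ML (u v : SM N) (e : Chart n M) (z : Cm n) :
    ps σ (ML u v) e z = wg (ps σ u e z) *ᵥ ps σ v e z := by
  rw [ps_apply, ps_apply, ps_apply, ML_apply, fk_mul, Matrix.mulVec_mulVec, f1a.lr_wg,
    Matrix.mulVec_mulVec]

theorem ps_oneS (e : Chart n M) (z : Cm n) : ps σ (oneS : SM N) e z = ev ∅ :=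
  (congrArg (lr (jc (σ e) z) *ᵥ ·) fk_one).trans (f1a.lr_ev _)

end ps

/-! ## Smooth cochains -/

theorem _root_.Vale.Agent.P269.Hdg.IsSm.cj {a : Coch (E N)} (h : IsSm a) : IsSm (cjC a) :=
  ⟨fun m l y hy => Complex.conjCLE.contDiff.contDiffAt.comp y (h.sm m l y hy),
    fun l l' e => congrArg conj (h.inv l l' e)⟩

theorem Df_cj {k : ℕ} {f : (Fin (k + 1) → E N) → ℂ} {x : E N}
    (h : ContDiffAt ℝ ∞ f fun _ => x) : Df (fun y => conj (f y)) x = cjL (Df f x) := by
  have := (DL_cjL (Ls := sls N k) (sm_one (N := N) h)).self_of_nhds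
  simp only [cjL_smul, cjL_one] at this
  exact this

theorem Dm_cj {k : ℕ} {a : Coch (E N)} (h : IsSm a) {x : E N} (hx : x ≠ 0) :
    Dm k (cjC a) x = cjL (Dm k a x) := Df_cj (h.ofFn fun _ => hx)

theorem DM_cj (a : smA N) : DM ⟨cjC a.1, IsSm.cj a.2⟩ = CL (DM a) :=
  Subtype.ext (funext fun x => by
    by_cases hx : x = 0
    · exact (if_pos hx).trans ((congrArg cjL (if_pos hx)).trans (map_zero _)).symm
    · rw [CL_apply, DM_apply _ hx, DM_apply _ hx, map_sum]
      exact Finset.sum_congr rfl fun k _ => Dm_cj a.2 hx)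

end Vale.Agent.P287Q.Hb
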