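import Vale.Agent.P287Q.Hb.DR
import Vale.Agent.P269.Hdg.Cmp

/-!
# The de Rham theorem for a submanifold of projective space
-/

namespace Vale.Agent.P287Q.Hb

open scoped ComplexConjugate ContDiff
open Topology Filter P291Z P269.Hdg

variable {N n : ℕ} {C : Set (E N)} {X : Type} [TopologicalSpace X] {π : C → X}

/-- A section of the projection. -/
noncomputable def sec (hπ : IsProj π) (z : X) : C := (hπ.quot.surjective z).choose

theorem π_sec (hπ : IsProj π) (z : X) : π (sec hπ z) = z := (hπ.quot.surjective z).choose_spec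

theorem SubC.fib (h : SubC C n) (hπ : IsProj π) {x y : C} (e : π x = π y) :
    ∃ t : ℂ, t ≠ 0 ∧ y.1 = t • x.1 := by
  obtain ⟨t, ht⟩ := (hπ.fib x y).1 e
  exact ⟨t, fun h0 => h.ne _ y.2 (by rw [← ht, h0, zero_smul]), ht.symm⟩

theorem sec_π (h : SubC C n) (hπ : IsProj π) (y : C) :
    ∃ t : ℂ, t ≠ 0 ∧ (sec hπ (π y)).1 = t • y.1 := h.fib hπ (π_sec hπ _).symm

/-- The embedding in the space of projectors. -/
noncomputable def emb (hπ : IsProj π) (z : X) : TT N := prP (sec hπ z).1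

theorem emb_π (h : SubC C n) (hπ : IsProj π) (y : C) : emb hπ (π y) = prP y.1 := by
  obtain ⟨t, ht, e⟩ := sec_π h hπ y
  rw [emb, e, prP_smul ht]

theorem continuous_emb (h : SubC C n) (hπ : IsProj π) : Continuous (emb hπ) := by
  rw [hπ.quot.continuous_iff, show emb hπ ∘ π = fun y => prP y.1 from funext (emb_π h hπ)]
  exact continuous_iff_continuousAt.2 fun y =>
    (sm_prP (h.ne _ y.2)).continuousAt.comp continuous_subtype_val.continuousAt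

/-- The cochain on `X` defined by a cochain on the affine space. -/
noncomputable def rs (hπ : IsProj π) : Coch (E N) →ₐ[ℂ] Coch X := pull fun z => (sec hπ z).1

theorem rs_val (h : SubC C n) (hπ : IsProj π) {a : Coch (E N)} (ha : IsSm a) (l : List C) :
    (rs hπ a).1 (l.map π) = a.1 (l.map Subtype.val) := by
  rw [rs, pull_val, List.map_map]
  refine (ha.inv _ _ ?_).symm
  rw [List.forall₂_map_left_iff, List.forall₂_map_right_iff, List.forall₂_same]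
  exact fun y _ => ⟨(h.ne _ y.2), sec_π h hπ y⟩

theorem rs_VA (hπ : IsProj π) {a : Coch (E N)} {b : TT N} (h : a ∈ VA C prP b) :
    rs hπ a ∈ VA Set.univ (emb hπ) b := by
  obtain ⟨U, hU, h⟩ := h
  exact ⟨U, hU, fun l hl => h _ (List.forall_mem_map.2 fun z hz => ⟨(sec hπ z).2, (hl z hz).2⟩)⟩

theorem VA_of_rs (h : SubC C n) (hπ : IsProj π) {a : Coch (E N)} (ha : IsSm a) {b : TT N}
    (k : rs hπ a ∈ VA Set.univ (emb hπ) b) : a ∈ VA C prP b := by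
  obtain ⟨U, hU, k⟩ := k
  refine ⟨U, hU, fun l hl => ?_⟩
  lift l to List C using fun y hy => (hl y hy).1
  rw [← rs_val h hπ ha]
  exact k _ (List.forall_mem_map.2 fun y hy =>
    ⟨trivial, by rw [emb_π h]; exact (hl _ (List.mem_map_of_mem hy)).2⟩)

/-- The complex of all cochains on `X`. -/
noncomputable def asD (h : SubC C n) (hπ : IsProj π) : AD N where
  Y := X
  C := Set.univ
  p := emb hπ
  A := ⊤
  dA _ _ := trivial
  cut _ _ _ _ := trivial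
  conA _ _ _ _ := trivial
  one := trivial
  pK z _ := prP_mem_KK (h.ne _ (sec hπ z).2)

theorem VA_top (h : SubC C n) (hπ : IsProj π) {b : TT N} (hb : NearT b fun y => y ∉ C) (a : Coch X) :
    a ∈ VA Set.univ (emb hπ) b :=
  VA_of_cons hb fun z _ _ hQ => (hQ _ (h.ne _ (sec hπ z).2) rfl (sec hπ z).2).elim

theorem nearT_of_nhds (h : SubC C n) (hπ : IsProj π) (x : C) {U : Set X}
    (hU : U ∈ 𝓝 (π x)) : ∀ᶠ b in 𝓝 (prP x.1), ∀ z, emb hπ z = b → z ∈ U := by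
  have h1 : NearT (prP x.1) fun y => ∀ hy : y ∈ C, π ⟨y, hy⟩ ∈ U := by
    refine NearT.of_ev (h.ne _ x.2) (fun t y ht _ h1 hy => ?_) ?_
    · have := h1 ((h.smul_iff ht).2 hy)
      rwa [← (hπ.fib ⟨y, hy⟩ ⟨_, (h.smul_iff ht).2 hy⟩).2 ⟨t, rfl⟩] at this
    · have := hπ.quot.continuous.continuousAt.preimage_mem_nhds hU
      rw [nhds_subtype, mem_comap] at this
      obtain ⟨W, hW, h2⟩ := this
      exact eventually_of_mem hW fun y hy hc => h2 (show (⟨y, hc⟩ : C) ∈ _ from hy)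
  refine Eventually.mono h1 fun b hb z e => ?_
  exact π_sec hπ z ▸ hb _ (h.ne _ (sec hπ z).2) e (sec hπ z).2

theorem VA_iff (h : SubC C n) (hπ : IsProj π) {a : Coch X} :
    (∀ b, a ∈ VA Set.univ (emb hπ) b) ↔ supp a = ∅ := by
  rw [supp_eq_empty]
  refine ⟨fun ha z => ?_, fun ha b => ?_⟩
  · obtain ⟨U, hU, h1⟩ := ha (emb hπ z)
    exact notMem_supp.2 ⟨_, (continuous_emb h hπ).continuousAt.preimage_mem_nhds hU,
      fun l hl => h1 l fun y hy => ⟨trivial, hl y hy⟩⟩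
  · rcases h.X_cases b with hb | ⟨x, hx, rfl⟩
    · exact VA_top h hπ hb a
    · obtain ⟨U, hU, h1⟩ := notMem_supp.1 (ha (π ⟨x, hx⟩))
      exact ⟨_, nearT_of_nhds h hπ ⟨x, hx⟩ hU, fun l hl => h1 l fun z hz => (hl z hz).2 z rfl⟩

/-- The underlying cochain on `X`. -/
noncomputable def vX (h : SubC C n) (hπ : IsProj π) : (asD h hπ).sh.gl.M →ₗ[ℂ] Coch X := (asD h hπ).val

theorem as_nul (h : SubC C n) (hπ : IsProj π) {u : (asD h hπ).sh.gl.M} :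
    u ∈ (asD h hπ).sh.gl.nul ↔ supp (vX h hπ u) = ∅ :=
  (asD h hπ).sh.mem_gl_nul.trans (VA_iff h hπ)

/-- Restriction of smooth cochains to `X`. -/
noncomputable def homR (h : SubC C n) (hπ : IsProj π) : Sh.Hom (smD h).sh (asD h hπ).sh where
  f := ((rs hπ).toLinearMap ∘ₗ (smD h).val).codRestrict ⊤ fun _ => trivial
  fG _ _ hu := IsDeg.pull hu _
  fV _ _ hu := rs_VA hπ hu
  comm b _ u _ := (fun a : Coch (E N) => by
    rw [rs, δ_pull, sub_self]; exact zero_mem _ :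
      ∀ a, rs hπ (δ a) - δ (rs hπ a) ∈ VA Set.univ (emb hπ) b) ((smD h).val u)

theorem homR_qiso (h : SubC C n) (hπ : IsProj π) (q : ℤ) :
    (homR h hπ).gl.Inj q ∧ (homR h hπ).gl.Surj q := by
  refine (homR h hπ).qiso_of_stalk (smD h).fine (asD h hπ).fine (fun b => ?_) q
  rcases h.X_cases b with hb | ⟨x, hx, rfl⟩
  · exact Cx.Hom.qiso_of_top _ (smD_top h hb) (eq_top_iff.2 fun u _ => VA_top h hπ hb _)
  · have := (asD h hπ).pt (x := π ⟨x, hx⟩) trivial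
    rw [show (asD h hπ).p (π ⟨x, hx⟩) = prP x from emb_π h hπ _] at this
    refine Cx.Hom.qiso_of_pt _ ((smD h).pt hx) this ?_
    change rs hπ 1 - (1 : Coch X) ∈ VA Set.univ (emb hπ) _
    rw [map_one, sub_self]; exact zero_mem _

/-- The class of a cocycle. -/
noncomputable def clsX (h : SubC C n) (hπ : IsProj π) (k : ℤ) :
    (asD h hπ).sh.gl.H k →ₗ[ℂ] P291Z.H X :=
  Submodule.liftQ _
    { toFun := fun u => hcls (vX h hπ u.1)
      map_add' := fun u v => hcls_add ((as_nul h hπ).1 u.2.2) ((as_nul h hπ).1 v.2.2)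
      map_smul' := fun c u => hcls_smul c ((as_nul h hπ).1 u.2.2) } fun u hu => by
    obtain ⟨v, -, hv⟩ := Cx.mem_B.1 hu
    exact (hcls_eq_zero ((as_nul h hπ).1 u.2.2)).2 ⟨_, (as_nul h hπ).1 hv⟩

theorem clsX_cl (h : SubC C n) (hπ : IsProj π) {k : ℤ} (u) (hu : u ∈ (asD h hπ).sh.gl.Z k) :
    clsX h hπ k (Cx.cl u hu) = hcls (vX h hπ u) := rfl

theorem clsX_inj (h : SubC C n) (hπ : IsProj π) (k : ℤ) : Function.Injective (clsX h hπ k) := by
  rw [injective_iff_map_eq_zero]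
  intro x hx
  obtain ⟨u, hu, rfl⟩ := Cx.exists_cl x
  obtain ⟨c, hc⟩ := (hcls_eq_zero (a := vX h hπ u) ((as_nul h hπ).1 hu.2)).1 hx
  refine (Cx.cl_eq_zero hu).2 (Cx.mem_B.2 ⟨(asD h hπ).mk' (comp (k - 1) c) trivial, isDeg_comp _ _,
    (as_nul h hπ).2 ?_⟩)
  have := supp_comp k (vX h hπ u - δ c)
  rw [hc, map_sub, comp_δ', IsDeg.comp_eq (a := vX h hπ u) hu.1, Set.subset_empty_iff] at this
  exact this

/-- The comparison map from de Rham cohomology to Alexander-Spanier cohomology. -/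
noncomputable def cmp (h : SubC C n) (hπ : IsProj π) (k : ℤ) :
    (dR h).sh.gl.H k →ₗ[ℂ] P291Z.H X :=
  clsX h hπ k ∘ₗ (homR h hπ).gl.map k ∘ₗ
    ((homD h).gl.equiv (homD_qiso h k).1 (homD_qiso h k).2).symm.toLinearMap

variable (h : SubC C n) (hπ : IsProj π) {k l : ℤ} {u v : SM N}

theorem cmp_inj : Function.Injective (cmp h hπ k) :=
  (clsX_inj h hπ k).comp (((homR h hπ).gl.inj_iff.1 (homR_qiso h hπ k).1).comp
    (LinearEquiv.injective _))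

/-- Smooth cocycles along the cone. -/
def SmZ (C : Set (E N)) (k : ℤ) (a : smA N) : Prop :=
  IsDeg k a.1 ∧ ∀ b, δ a.1 ∈ VA C prP b

theorem SmZ.mem {a : smA N} (ha : SmZ C k a) : a ∈ (smD h).sh.gl.Z k :=
  ⟨ha.1, (smD h).sh.mem_gl_nul.2 ha.2⟩

theorem SmZ.DM_Z {a : smA N} (ha : SmZ C k a) : DM a ∈ (dR h).sh.gl.Z k :=
  (homD h).gl.map_Z (ha.mem h)

include h in
theorem SmZ.cyc {a : smA N} (ha : SmZ C k a) : supp (δ (rs hπ a.1)) = ∅ := by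
  rw [rs, δ_pull]
  exact (VA_iff h hπ).1 fun b => rs_VA hπ (ha.2 b)

theorem cmp_DM {a : smA N} (ha : SmZ C k a) :
    cmp h hπ k (Cx.cl (DM a) (ha.DM_Z h)) = hcls (rs hπ a.1) := by
  have : ((homD h).gl.equiv (homD_qiso h k).1 (homD_qiso h k).2).symm
      (Cx.cl (DM a) (ha.DM_Z h)) = Cx.cl _ (ha.mem h) := (LinearEquiv.symm_apply_eq _).2 rfl
  simp only [cmp, LinearMap.comp_apply, LinearEquiv.coe_coe]
  rw [this]
  rfl

theorem cmp_eq (hu : u ∈ (dR h).sh.gl.Z k) {a : smA N} (ha : SmZ C k a)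
    (e : u - DM a ∈ (dR h).sh.gl.B k) : cmp h hπ k (Cx.cl u hu) = hcls (rs hπ a.1) := by
  rw [← cmp_DM h hπ ha, (Cx.cl_eq_cl hu (ha.DM_Z h)).2 e]

theorem exists_SmZ (hu : u ∈ (dR h).sh.gl.Z k) :
    ∃ a : smA N, SmZ C k a ∧ u - DM a ∈ (dR h).sh.gl.B k := by
  obtain ⟨a, ha, e⟩ := (homD_qiso h k).2 u hu
  exact ⟨a, ⟨ha.1, (smD h).sh.mem_gl_nul.1 ha.2⟩, e⟩

theorem cmp_range {c : P291Z.H X} : c ∈ LinearMap.range (cmp h hπ k) ↔ P291Z.H.IsDeg k c := by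
  constructor
  · rintro ⟨x, rfl⟩
    obtain ⟨u, hu, rfl⟩ := Cx.exists_cl x
    obtain ⟨a, ha, e⟩ := exists_SmZ h hu
    rw [cmp_eq h hπ hu ha e]
    exact hcls_isDeg (ha.1.pull _)
  · intro hc
    obtain ⟨a, h1, h2, rfl⟩ := H.isDeg_iff.1 hc
    have hz : (asD h hπ).mk' a trivial ∈ (asD h hπ).sh.gl.Z k := ⟨h2, (as_nul h hπ).2 h1⟩
    obtain ⟨x, hx⟩ := (homR h hπ).gl.surj_iff.1 (homR_qiso h hπ k).2 (Cx.cl _ hz)
    refine ⟨(homD h).gl.equiv (homD_qiso h k).1 (homD_qiso h k).2 x, ?_⟩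
    simp only [cmp, LinearMap.comp_apply, LinearEquiv.coe_coe, LinearEquiv.symm_apply_apply]
    rw [hx]
    rfl

theorem dR_nul : u ∈ (dR h).sh.gl.nul ↔ ∀ y ∈ C, u.1 y ∈ nl C y :=
  (dR h).mem_nul.trans ⟨fun H y hy => H y (h.ne _ hy) hy, fun H y _ hy => H y hy⟩

theorem dR_Z : u ∈ (dR h).sh.gl.Z k ↔
    u ∈ Ak k ∧ ∀ y ∈ C, (DD u).1 y ∈ nl C y :=
  Cx.mem_Z.trans (and_congr Iff.rfl (dR_nul h))

theorem dR_B : u ∈ (dR h).sh.gl.B k ↔
    ∃ w ∈ Ak (k - 1), ∀ y ∈ C, u.1 y - (DD w).1 y ∈ nl C y :=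
  Cx.mem_B.trans (exists_congr fun _ => and_congr Iff.rfl (dR_nul h))

theorem oneS_Z : (oneS : SM N) ∈ (dR h).sh.gl.Z 0 :=
  (dR_Z h).2 ⟨oneS_Ak, fun y hy => by rw [DD_oneS (h.ne _ hy)]; exact zero_mem _⟩

theorem cmp_one (h1 : (oneS : SM N) ∈ (dR h).sh.gl.Z 0) : cmp h hπ 0 (Cx.cl oneS h1) = 1 := by
  rw [cmp_eq h hπ h1 (a := ⟨1, IsSm.one⟩)
    ⟨isDeg_one, fun b => by rw [δ_one_eq_zero]; exact zero_mem _⟩, map_one, hcls_one]
  refine Cx.nul_le_B ((dR_nul h).2 fun y hy => ?_)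
  rw [Submodule.coe_sub, Pi.sub_apply, DM_one (h.ne _ hy)]
  exact (sub_self (1 : Λ N)).symm ▸ zero_mem _

theorem ML_B_left (hu : u ∈ (dR h).sh.gl.B k) (hv : v ∈ (dR h).sh.gl.Z l) :
    ML u v ∈ (dR h).sh.gl.B (k + l) := by
  obtain ⟨w, hw, e⟩ := (dR_B h).1 hu
  obtain ⟨h1, h2⟩ := (dR_Z h).1 hv
  refine (dR_B h).2 ⟨ML w v, by rw [← sub_add_eq_add_sub]; exact ML_Ak hw h1, fun y hy => ?_⟩
  rw [DD_ML w v (h.ne _ hy), ML_apply, ← sub_sub, ← sub_mul]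
  exact sub_mem (nul_mul_right (e y hy) _) (nul_mul_left (h2 y hy) _)

theorem ML_B_right (hu : u ∈ (dR h).sh.gl.Z k) (hv : v ∈ (dR h).sh.gl.B l) :
    ML u v ∈ (dR h).sh.gl.B (k + l) := by
  obtain ⟨w, hw, e⟩ := (dR_B h).1 hv
  obtain ⟨h1, h2⟩ := (dR_Z h).1 hu
  refine (dR_B h).2 ⟨((-1 : ℂ) ^ k) • ML u w, Submodule.smul_mem _ _
    (by rw [add_sub_assoc]; exact ML_Ak h1 hw), fun y hy => ?_⟩
  rw [map_smul, Submodule.coe_smul, Pi.smul_apply, DD_ML u w (h.ne _ hy), ML_apply,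
    par_of_Dg (h1.2 y (h.ne _ hy)), smul_add, smul_mul_assoc, smul_smul, ← mul_zpow, add_comm, ← sub_sub,
    show (-1 : ℂ) * -1 = 1 by norm_num, one_zpow, one_smul, ← mul_sub]
  exact sub_mem (nul_mul_left (e y hy) _) (Submodule.smul_mem _ _ (nul_mul_right (h2 y hy) _))

theorem SmZ.mul {a b : smA N} (ha : SmZ C k a) (hb : SmZ C l b) :
    SmZ C (k + l) ⟨a.1 * b.1, IsSm.mul a.2 b.2⟩ :=
  ⟨ha.1.mul hb.1, fun b => by
    rw [δ_mul]; exact add_mem (VA_mul_right (ha.2 b) _) (VA_mul_left (hb.2 b) _)⟩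

include h in
theorem DM_mul {a b c : smA N} (e : c.1 = a.1 * b.1) (ha : IsDeg k a.1) (hb : SmZ C l b) {y : E N}
    (hy : y ∈ C) : (DM a).1 y * (DM b).1 y - (DM c).1 y ∈ nl C y := by
  by_cases hk : k < 0
  · rw [DM_of_neg ha hk, show c = 0 from Subtype.ext (by rw [e, ha.eq_zero hk]; simp)]
    simp
  by_cases hl : l < 0
  · rw [DM_of_neg hb.1 hl, show c = 0 from Subtype.ext (by rw [e, hb.1.eq_zero hl]; simp)]
    simp
  lift k to ℕ using by omega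
  lift l to ℕ using by omega
  obtain ⟨o, ho⟩ := Dm_mul a.2 b.2 ha hb.1 (h.ne _ hy)
  have h1 := ((dR_Z h).1 (hb.DM_Z h)).2 y hy
  rw [DD_apply _ (h.ne _ hy), dd_congr ((ne_zero_ev (h.ne _ hy)).mono fun z hz => DM_of_isDeg hb.1 hz)] at h1
  rw [DM_of_isDeg ha (h.ne _ hy), DM_of_isDeg hb.1 (h.ne _ hy),
    DM_of_isDeg (k := k + l) (e ▸ (ha.mul hb.1).cast (by simp)) (h.ne _ hy), e, ho, sub_add_cancel_left]
  exact neg_mem (nul_mul_left h1 _)

theorem cmp_mul (hu : u ∈ (dR h).sh.gl.Z k) (hv : v ∈ (dR h).sh.gl.Z l) :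
    cmp h hπ (k + l) (Cx.cl (ML u v) (ML_Z h hu hv)) =
      cmp h hπ k (Cx.cl u hu) * cmp h hπ l (Cx.cl v hv) := by
  obtain ⟨a, ha, e⟩ := exists_SmZ h hu
  obtain ⟨b, hb, e'⟩ := exists_SmZ h hv
  rw [cmp_eq h hπ hu ha e, cmp_eq h hπ hv hb e', cmp_eq h hπ _ (ha.mul hb), map_mul,
    hcls_mul (ha.cyc h hπ) (hb.cyc h hπ)]
  have h1 : ML (DM a) (DM b) - DM ⟨a.1 * b.1, IsSm.mul a.2 b.2⟩ ∈ (dR h).sh.gl.nul :=
    (dR_nul h).2 fun y hy => DM_mul h rfl ha.1 hb hy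
  have h2 : ML u v - DM ⟨a.1 * b.1, IsSm.mul a.2 b.2⟩ = ML (u - DM a) v + ML (DM a) (v - DM b) +
      (ML (DM a) (DM b) - DM ⟨a.1 * b.1, IsSm.mul a.2 b.2⟩) :=
    Subtype.ext (funext fun y => by
      simp only [Submodule.coe_sub, Submodule.coe_add, Pi.sub_apply, Pi.add_apply, ML_apply]
      noncomm_ring)
  rw [h2]
  exact add_mem (add_mem (ML_B_left h e hv) (ML_B_right h (ha.DM_Z h) e')) (Cx.nul_le_B h1)

/-! ## Hodge types -/

include h in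
/-- A cochain which is smooth near the diagonal is locally the restriction of a smooth cochain. -/
theorem exists_sm_loc {m : ℕ} {a : Coch X} (ha : IsDeg m a) (x : C)
    {f : (Fin (m + 1) → E N) → ℂ} (hf : ContDiff ℝ ∞ f)
    (e : ∀ᶠ y : Fin (m + 1) → C in 𝓝 fun _ => x,
      a.1 (List.ofFn fun i => π (y i)) = f fun i => (y i).1) :
    ∃ c : Coch (E N), IsSm c ∧ IsDeg m c ∧ a - rs hπ c ∈ VA Set.univ (emb hπ) (prP x.1) := by
  obtain ⟨W, hW, e⟩ := ev_pi_const e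
  rw [nhds_subtype, mem_comap] at hW
  obtain ⟨W', hW', hWW⟩ := hW
  have h1 : NearT (prP x.1) fun y => lf x.1 y ≠ 0 ∧ cpr x.1 y ∈ W' := by
    refine NearT.of_ev (h.ne _ x.2) (fun t y ht _ h => ?_)
      ((lf_ne_ev (h.ne _ x.2)).and ((cpr_tendsto (h.ne _ x.2)).eventually_mem hW'))
    rw [cpr_smul ht] at h
    exact ⟨by simpa [ht] using h.1, h.2⟩
  obtain ⟨φ, h2, h3, -⟩ := exists_global (h.ne _ x.2) (w := cpr x.1) (Q := fun _ => True)
    (h1.mono fun y _ h => ⟨an_sm (an_cpr h.1), trivial⟩)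
  refine ⟨ofG fun y => f fun i => φ (prP (y i)) • cpr x.1 (y i), isSm_ofG
    (fun y hy => hf.contDiffAt.comp y (contDiffAt_pi.2 fun i =>
      (h2 _ (hy i)).comp y (contDiffAt_apply ℝ (E N) i y)))
    fun y t _ ht => by simp only [prP_smul (ht _), cpr_smul (ht _)], isDeg_ofG _,
    _, h1.and h3, fun l hl => ?_⟩
  by_cases hm : l.length = m + 1
  · obtain ⟨z, rfl⟩ := exists_ofFn hm
    have h4 := fun i => (hl (z i) (List.mem_ofFn.2 ⟨i, rfl⟩)).2 _ (h.ne _ (sec hπ (z i)).2) rfl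
    have h5 := fun i => (h.smul_iff (inv_ne_zero (h4 i).1.1)).2 (sec hπ (z i)).2
    have h6 := e (fun i => ⟨_, h5 i⟩) fun i => hWW (h4 i).1.2
    have h7 : ∀ i, π ⟨_, h5 i⟩ = z i := fun i =>
      ((hπ.fib _ _).2 ⟨_, rfl⟩).symm.trans (π_sec hπ (z i))
    simp only [h7] at h6
    rw [Coch.sub_val, Pi.sub_apply, h6, rs, pull_val, List.map_ofFn, ofG_ofFn, sub_eq_zero]
    simp only [Function.comp_apply, (h4 _).2, one_smul]
    rfl
  · exact (ha.sub ((isDeg_ofG _).pull _)) l (by omega)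

include h in
/-- A cochain which is smooth near the diagonal is the restriction of a smooth cochain. -/
theorem exists_sm {m : ℕ} {a : Coch X} (ha : IsDeg m a)
    (hf : ∀ x : C, ∃ f : (Fin (m + 1) → E N) → ℂ, ContDiff ℝ ∞ f ∧
      ∀ᶠ y : Fin (m + 1) → C in 𝓝 fun _ => x,
        a.1 (List.ofFn fun i => π (y i)) = f fun i => (y i).1) :
    ∃ c : smA N, IsDeg m c.1 ∧ ∀ b, a - rs hπ c.1 ∈ VA Set.univ (emb hπ) b := by
  refine (smD h).fine.glue (VA Set.univ (emb hπ)) ((rs hπ).toLinearMap ∘ₗ (smD h).val) a m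
    (fun b u hu => rs_VA hπ hu) (fun b _ hu => VA_opn hu)
    (fun b u _ hu => VA_of_rs h hπ (AD.val_mem u) hu) (fun b => ?_)
    ⟨KK N, isCompact_KK, fun b hb => eq_top_iff.2 fun u _ => VA_top h hπ (NearT.of_notMem hb) u⟩
  rcases h.X_cases b with hb | ⟨x, hx, rfl⟩
  · exact ⟨0, zero_mem _, VA_top h hπ hb _⟩
  · obtain ⟨f, h1, h2⟩ := hf ⟨x, hx⟩
    obtain ⟨c, h3, h4, h5⟩ := exists_sm_loc h hπ ha _ h1 h2
    exact ⟨(smD h).mk' c h3, h4, h5⟩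

/-! ## Inclusions -/

theorem cmp_incl {C' : Set (E N)} {n' : ℕ}
    (h' : SubC C' n') {X' : Type} [TopologicalSpace X'] {π' : C' → X'} (hπ' : IsProj π')
    (hs : C ⊆ C') (i : C(X, X')) (hi : ∀ y : C, i (π y) = π' ⟨y.1, hs y.2⟩)
    (hu' : u ∈ (dR h').sh.gl.Z k) : ∃ hu : u ∈ (dR h).sh.gl.Z k,
      cmp h hπ k (Cx.cl u hu) = P291Z.H.map i (cmp h' hπ' k (Cx.cl u hu')) := by
  have hu : u ∈ (dR h).sh.gl.Z k := (dR_Z h).2 ⟨((dR_Z h').1 hu').1,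
    fun y hy => nl_incl hs (((dR_Z h').1 hu').2 y (hs hy))⟩
  obtain ⟨a, ha, e⟩ := exists_SmZ h' hu'
  obtain ⟨w, hw, e'⟩ := (dR_B h').1 e
  refine ⟨hu, ?_⟩
  rw [cmp_eq h' hπ' hu' ha e, cmp_eq h hπ hu ⟨ha.1, fun b => VA_mono hs (ha.2 b)⟩
    ((dR_B h).2 ⟨w, hw, fun y hy => nl_incl hs (e' y (hs hy))⟩),
    H.map_hcls i (ha.cyc h' hπ')]
  congr 1
  refine Coch.ext fun l => ?_
  have := rs_val h' hπ' a.2 (l.map fun z => ⟨(sec hπ z).1, hs (sec hπ z).2⟩)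
  simp only [List.map_map, Function.comp_def, ← hi, π_sec] at this
  exact this.symm

end Vale.Agent.P287Q.Hb
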