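import Vale.Agent.P287Q.Hb.Ann

/-!
# The de Rham complex of a submanifold of projective space; smooth cochains
-/

namespace Vale.Agent.P287Q.Hb

open scoped ComplexConjugate ContDiff
open Topology Filter P291Z P269.Hdg

variable {N n : ℕ} {C : Set (E N)} {k l : ℤ} {u v : SM N}

/-- The de Rham complex. -/
noncomputable def dR (h : SubC C n) : FD N where
  d := DD
  G := Ak
  C := C
  P := nl C
  dG _ _ hu := DD_Ak hu
  stab u _ h0 hx hn := by rw [DD_apply _ h0]; exact h.stab hx (u.sm h0) hn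
  dd _ u _ x hx _ := by rw [DD_DD u hx]; exact zero_mem _
  cut _ _ hu _ hg hm := MF_Ak hg hm hu
  bdd := ⟨0, fun _ hq _ hu _ hx => Ak_neg hq hu hx⟩

theorem ML_Z (h : SubC C n) (hu : u ∈ (dR h).sh.gl.Z k) (hv : v ∈ (dR h).sh.gl.Z l) :
    ML u v ∈ (dR h).sh.gl.Z (k + l) := by
  refine ⟨ML_Ak hu.1 hv.1, (dR h).mem_nul.2 fun y hy hc => ?_⟩
  change (DD (ML u v)).1 y ∈ nl C y
  rw [DD_ML u v hy]
  exact add_mem (nul_mul_right ((dR h).mem_nul.1 hu.2 y hy hc) _)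
    (nul_mul_left ((dR h).mem_nul.1 hv.2 y hy hc) _)

/-- The Poincare lemma along the cone. -/
theorem dR_loc (h : SubC C n) {x : E N} (hx : x ∈ C) {q : ℤ} {u : SM N} (hu : u ∈ Ak q)
    (hd : DD u ∈ Vn C (nl C) (prP x)) :
    ∃ w : E N → Λ N, ∀ᶠ y in 𝓝 x, (ContDiffAt ℝ ∞ w y ∧ w y ∈ Dg q ∧ dd idE w y = 0) ∧
      (y ∈ C → u.1 y - w y ∈ nl C y) := by
  obtain ⟨r, -, hr, hev⟩ := h.exists_retr' hx
  refine ⟨pb r u.1, ?_⟩
  filter_upwards [hev, hr.eventually (NearT.ev (h.ne _ hx) hd)] with y ⟨h1, h2, h3, h4⟩ h5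
  refine ⟨⟨sm_pb (an_sm h1) (u.sm (h.ne _ h2)), mp_mem_Dg _ (hu.2 _ (h.ne _ h2)), ?_⟩,
    fun hy => h4 hy u.1⟩
  rw [dd_pb (an_sm h1) (u.df (h.ne _ h2))]
  refine h3 _ ?_
  rw [← DD_apply _ (h.ne _ h2)]
  exact h5 h2

theorem dR_exact (h : SubC C n) {x : E N} (hx : x ∈ C) {q : ℤ} (hq : 1 ≤ q) {u : SM N}
    (hu : u ∈ Ak q) (hd : DD u ∈ Vn C (nl C) (prP x)) :
    ∃ v ∈ Ak (q - 1), u - DD v ∈ Vn C (nl C) (prP x) := by
  obtain ⟨w, hw⟩ := dR_loc h hx hu hd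
  obtain ⟨v, hv⟩ := poinc hq (hw.mono fun y hy => hy.1)
  obtain ⟨v', h1, h2⟩ := exists_ext_Ak (h.ne _ hx) (hv.mono fun y hy => ⟨hy.1, hy.2.1⟩)
  refine ⟨v', h1, h.Vn_of_ev_Ak (h.ne _ hx) (k := q)
    (sub_mem hu (by simpa using DD_Ak h1)) ?_⟩
  filter_upwards [h2.eventuallyEq_nhds, ne_zero_ev (h.ne _ hx), lf_ne_ev (h.ne _ hx),
    (cpr_tendsto (h.ne _ hx)).eventually hv, (cpr_tendsto (h.ne _ hx)).eventually hw]
    with y e1 e2 e3 e4 e5 hy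
  have e6 := h.pb_cpr_nl hy e3 (v := fun z => u.1 z - w z) (e5.2 (h.cpr_mem hy e3))
  rw [← ext_zero, ext_sub, ext_zero, ext_zero, pb_cpr_eq hu e3 e2] at e6
  have e7 : (DD v').1 y = pb (cpr x) w y := by
    rw [DD_apply _ e2, dd_congr e1, dd_pb (an_sm (an_cpr e3)) (sm_diff e4.1), pb, e4.2.2, pb]
  rwa [Submodule.coe_sub, Pi.sub_apply, e7]

theorem dR_const (h : SubC C n) {x : E N} (hx : x ∈ C) {u : SM N}
    (hu : u ∈ Ak 0) (hd : DD u ∈ Vn C (nl C) (prP x)) :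
    ∃ c : ℂ, u - c • oneS ∈ Vn C (nl C) (prP x) := by
  obtain ⟨w, hw⟩ := dR_loc h hx hu hd
  have h1 := const_of_dd (hw.mono fun y hy => ⟨sm_diff hy.1.1, Ty_of_Dg_zero hy.1.2.1, hy.1.2.2⟩)
  refine ⟨sca (w x), h.Vn_of_ev_Ak (h.ne _ hx) (k := 0)
    (sub_mem hu (Submodule.smul_mem _ _ oneS_Ak)) ?_⟩
  filter_upwards [hw, h1] with y e1 e2 hy
  have := e1.2 hy
  rwa [e2, eq_sca (Ty_of_Dg_zero hw.self_of_nhds.1.2.1)] at this

theorem dR_ne (h : SubC C n) {x : E N} (hx : x ∈ C) {v : SM N} (hv : v ∈ Ak (0 - 1)) :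
    oneS - DD v ∉ Vn C (nl C) (prP x) := fun h1 => by
  have h2 : (1 : Λ N) - (DD v).1 x ∈ nl C x := NearT.self (h.ne _ hx) h1 hx
  rw [DD_of_zero (fun y hy => Ak_neg (by norm_num) hv hy) (h.ne _ hx), sub_zero] at h2
  exact one_notMem_nul h2

theorem dR_pt (h : SubC C n) {x : E N} (hx : x ∈ C) :
    ((dR h).sh.st (prP x)).Pt (oneS : SM N) := by
  refine ⟨fun q hq => ?_, ⟨oneS_Ak, Vn_of_zero fun y hy => DD_oneS hy⟩, fun u hu => ?_,
    fun hB => ?_⟩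
  · by_cases hq' : q < 0
    · exact Cx.exact_of_le fun u hu => Vn_of_zero fun y hy => Ak_neg hq' hu hy
    · exact fun u hu hd => dR_exact h hx (by omega) (u := u) hu hd
  · obtain ⟨c, hc⟩ := dR_const h hx (u := u) (Cx.mem_Z.1 hu).1 (Cx.mem_Z.1 hu).2
    exact ⟨c, Cx.nul_le_B hc⟩
  · obtain ⟨v, hv, h1⟩ := Cx.mem_B.1 hB
    exact dR_ne h hx (v := v) hv h1

theorem dR_top (h : SubC C n) {b : TT N} (hb : NearT b fun y => y ∉ C) :
    ((dR h).sh.st b).nul = ⊤ :=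
  eq_top_iff.2 fun _ _ => NearT.mono hb fun _ _ h1 h2 => (h1 h2).elim

theorem Dm_ann (h : SubC C n) {a : Coch (E N)} (ha : IsSm a) {x : E N} (hx : x ∈ C)
    (hv : a ∈ VA C prP (prP x)) (k : ℕ) : Dm k a x ∈ nl C x := by
  obtain ⟨U, hU, hv⟩ := hv
  refine h.Df_nl hx (ha.ofFn_ev fun _ => h.ne _ hx) ?_
  filter_upwards [eventually_all.2 fun i : Fin (k + 1) => ((continuous_apply i).tendsto
    fun _ => x).eventually ((sm_prP (h.ne _ hx)).continuousAt.tendsto.eventually_mem hU)]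
    with y h1 h2
  refine hv _ fun z hz => ?_
  obtain ⟨i, rfl⟩ := List.mem_ofFn.1 hz
  exact ⟨h2 i, h1 i⟩

theorem DM_V (h : SubC C n) {a : smA N} {b : TT N} (hv : a.1 ∈ VA C prP b) :
    DM a ∈ Vn C (nl C) b :=
  (VA_opn hv).mono fun b' hb y hy e hc => by
    rw [DM_apply a hy]
    exact Submodule.sum_mem _ fun k _ => Dm_ann h a.2 hc (e ▸ hb) k

/-- The complex of smooth cochains along the cone. -/
noncomputable def smD (h : SubC C n) : AD N where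
  Y := E N
  C := C
  p := prP
  A := smA N
  dA _ := IsSm.delta
  cut _ hφ _ ha := IsSm.mf ha (sm_cut hφ) fun _ _ ht => by rw [prP_smul ht]
  conA _ hx _ ha := IsSm.con ha (h.ne _ hx)
  one := IsSm.one
  pK _ hy := prP_mem_KK (h.ne _ hy)

/-- The map from smooth cochains to forms. -/
noncomputable def homD (h : SubC C n) : Sh.Hom (smD h).sh (dR h).sh where
  f := DM
  fG _ _ hu := DM_Ak hu
  fV _ _ hu := DM_V h hu
  comm _ _ _ hu := Vn_of_zero fun _ hy => sub_eq_zero.2 (DM_δ rfl hu hy)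

theorem smD_top (h : SubC C n) {b : TT N} (hb : NearT b fun y => y ∉ C) :
    ((smD h).sh.st b).nul = ⊤ :=
  (smD h).V_top (Eventually.mono hb fun _ k y hy e => k y (h.ne _ hy) e hy)

theorem homD_qiso (h : SubC C n) (q : ℤ) : (homD h).gl.Inj q ∧ (homD h).gl.Surj q := by
  refine (homD h).qiso_of_stalk (smD h).fine (dR h).fine (fun b => ?_) q
  rcases h.X_cases b with hb | ⟨x, hx, rfl⟩
  · exact Cx.Hom.qiso_of_top _ (smD_top h hb) (dR_top h hb)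
  · exact Cx.Hom.qiso_of_pt _ ((smD h).pt hx) (dR_pt h hx)
      (Vn_of_zero fun y hy => sub_eq_zero.2 (DM_one hy))

end Vale.Agent.P287Q.Hb
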