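import Vale.Agent.P287Q.Hb.Mdl
import Vale.Agent.P269.Hdg.ExP0

/-!
# The form of Fubini and Study on the cone
-/

namespace Vale.Agent.P287Q.Hb

open scoped Manifold ContDiff Matrix ComplexConjugate
open Set Function Topology Filter P269 P269.Hdg P269.Hdg.Ex
open Complex (I)
open Vale.Agent.P272.K (Cm Chart At IsKahler cHess dzb)
open Vale.Agent.P299.H223 (nsq fsM)
open Vale.Agent.P281Z.Hg (Fo hl ah lr jc Lw)
open Vale.Agent.P299.IX.Fock (epsV ev)

variable {N : ℕ}

namespace FSH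

theorem sm_log {x : E N} (hx : x ≠ 0) : ContDiffAt ℝ ∞ (fun y : E N => Real.log (nsq y)) x :=
  P299.H223.smooth_log_nsq (F := fun y => y) contDiffAt_id hx

theorem sm_logC {x : E N} (hx : x ≠ 0) :
    ContDiffAt ℝ ∞ (fun y : E N => ((Real.log (nsq y) : ℝ) : ℂ)) x :=
  P272.K.ofReal_contDiffAt (sm_log hx)

theorem nsq_nu (y : E N) : ((nsq y : ℝ) : ℂ) = nu y := P299.H223.nsq_cast y

theorem conj_nu (y : E N) : conj (nu y) = nu y := by rw [← nsq_nu, Complex.conj_ofReal]

theorem fderiv_log {x : E N} (hx : x ≠ 0) :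
    fderiv ℝ (fun y : E N => ((Real.log (nsq y) : ℝ) : ℂ)) x = cv true (lf x) + cv false (lf x) := by
  have h1 : HasFDerivAt (nu : E N → ℂ)
      (∑ l, (x l • dz false l + conj (x l) • dz true l)) x :=
    HasFDerivAt.fun_sum fun l _ => ((dz true l).hasFDerivAt (x := x)).mul
      ((dz false l).hasFDerivAt (x := x))
  have h2 : nu x ∈ Complex.slitPlane := by
    rw [← nsq_nu]; exact Complex.ofReal_mem_slitPlane.2 (P299.H223.nsq_pos hx)
  have h3 := ((Complex.hasDerivAt_log h2).hasFDerivAt.restrictScalars ℝ).comp x h1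
  have h4 : (fun y : E N => ((Real.log (nsq y) : ℝ) : ℂ)) = Complex.log ∘ nu := by
    funext y
    rw [Function.comp_apply, ← nsq_nu, Complex.ofReal_log (P299.H223.nsq_nonneg y)]
  rw [h4, h3.fderiv]
  ext v
  simp only [lf, ContinuousLinearMap.comp_apply, ContinuousLinearMap.coe_restrictScalars',
    ContinuousLinearMap.toSpanSingleton_apply, _root_.sum_apply, _root_.add_apply,
    _root_.smul_apply, dz_apply, cv_apply, sg_true, sg_false, smul_eq_mul, map_sum, map_mul,
    map_inv₀, conj_nu, Complex.conj_conj, ContinuousLinearMap.proj_apply,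
    ← Finset.sum_add_distrib]
  exact Finset.sum_congr rfl fun l _ => by ring

end FSH

open FSH

/-- The function `log |x|²`. -/
noncomputable def lnu : SM N :=
  ⟨fun y => ((Real.log (nsq y) : ℝ) : ℂ) • 1, fun _ hx => sm_smul (sm_logC hx) contDiffAt_const⟩

theorem DB_lnu (s : Bool) {x : E N} (hx : x ≠ 0) :
    (DB s lnu).1 x = (P269.Hdg.eps s : SM N).1 x := by
  rw [DB_apply _ _ hx]
  refine (db_scalar s (sm_diff (sm_logC hx))).trans ?_
  rw [fderiv_log hx, map_add, pr_cv, pr_cv]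
  cases s <;> simp [P269.Hdg.eps]

/-- The form `i ∂ \bar ∂ log |x|²` of Fubini and Study. -/
noncomputable def kap : SM N := I • DB true (DB false lnu)

theorem kap_apply {x : E N} (hx : x ≠ 0) :
    (kap : SM N).1 x = I • db true idE (fun y => io (cv false (lf y))) x := by
  show I • (DB true (DB false lnu)).1 x = _
  rw [DB_apply _ _ hx, db_congr ((ne_zero_ev hx).mono fun _ hy => DB_lnu false hy)]
  rfl

theorem kap_Om : (kap : SM N) ∈ Om 1 1 := by
  refine Submodule.smul_mem _ _ ?_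
  have e : ∀ x ≠ 0, (DB false lnu : SM N).1 x = io (cv false (lf x)) := fun _ hx => DB_lnu false hx
  have t : ∀ x ≠ 0, (DB false lnu : SM N).1 x ∈ Ty 0 1 := fun x hx => by
    rw [e x hx]; exact io_cv_mem_Ty false _
  have m : Hm 0 (-1) (DB false lnu : SM N).1 := by
    refine Hm.congr (u := fun y => io (cv false (lf y))) (fun t x ht _ => ?_) e
    have : cv false (t⁻¹ • lf x) = (conj t)⁻¹ • cv false (lf x) := by ext; simp
    simp [lf_smul ht, this]
  refine ⟨⟨fun x hx => ⟨by simpa using DB_ty true t hx, ?_⟩, by simpa using DB_hm true m⟩,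
    fun x hx => ?_⟩
  · have h1 := db_ct_euler true false ((DB false lnu : SM N).df hx)
    rw [db_congr (v := fun _ => 1) ((ne_zero_ev hx).mono fun y hy => by
      simp [e y hy, ct_io, vec_cv, lf_self hy]), db_const] at h1
    rw [DB_apply _ _ hx]
    simpa using h1
  · rw [DB_apply _ _ hx, ct_db_self (fun y hy => by simp [e y hy, ct_io, vec_cv]) m hx (t x hx).1]
    simp

theorem DD_kap {x : E N} (hx : x ≠ 0) : (DD (kap : SM N)).1 x = 0 := by
  have h1 : (DB false (DB true (DB false (lnu : SM N)))).1 x = 0 := by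
    rw [DB_DB true false _ hx, DB_of_zero true (fun _ => DB_DB_self false lnu) hx, neg_zero]
  rw [kap, map_smul]
  show I • ((DB true (DB true (DB false lnu))).1 x + (DB false (DB true (DB false lnu))).1 x) = 0
  rw [DB_DB_self true _ hx, h1, add_zero, smul_zero]

/-- The form of Fubini and Study is the curvature of the connection form. -/
theorem kap_eq_DD {x : E N} (hx : x ≠ 0) :
    (kap : SM N).1 x = I • (DD (P269.Hdg.eps false)).1 x := by
  have h1 : (DD (P269.Hdg.eps false : SM N)).1 x = (DD (DB false lnu)).1 x := by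
    rw [DD_apply _ hx, DD_apply _ hx]
    exact dd_congr ((ne_zero_ev hx).mono fun _ hy => (DB_lnu false hy).symm)
  rw [h1]
  show _ = I • ((DB true (DB false lnu)).1 x + (DB false (DB false lnu)).1 x)
  rw [DB_DB_self false _ hx, add_zero]
  rfl

theorem kap_eq_DD' {x : E N} (hx : x ≠ 0) :
    (kap : SM N).1 x = -I • (DD (P269.Hdg.eps true)).1 x := by
  have h1 : (DD (P269.Hdg.eps true : SM N)).1 x = (DD (DB true lnu)).1 x := by
    rw [DD_apply _ hx, DD_apply _ hx]
    exact dd_congr ((ne_zero_ev hx).mono fun _ hy => (DB_lnu true hy).symm)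
  rw [h1]
  show _ = -I • ((DB true (DB true lnu)).1 x + (DB false (DB true lnu)).1 x)
  rw [DB_DB_self true _ hx, zero_add, DB_DB true false _ hx, neg_smul_neg]
  rfl

namespace FSH

theorem vec_fderiv (g : E N → ℂ) (x : E N) (j : Fin (N + 1)) :
    vec true (ee j) (fderiv ℝ g x) = P272.K.dz j g x ∧
      vec false (ee j) (fderiv ℝ g x) = dzb j g x :=
  ⟨by rw [← ExT.cd_hl, ExT.cd_fderiv, ← P281Z.Hg.Ka.dr_hl],
    by rw [← ExT.cd_ah, ExT.cd_fderiv, ← P281Z.Hg.Ka.dr_ah]⟩

/-- `i ∂ \bar ∂ f` in the Fock space. -/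
theorem fk_ddb {f : E N → ℝ} {x : E N} (hf : ContDiffAt ℝ ∞ f x) :
    fk (I • db true idE (db false idE fun y => (f y : ℂ) • (1 : Λ N)) x) =
      Lw (cHess f x) *ᵥ ev ∅ := by
  have hg := P272.K.ofReal_contDiffAt hf
  have h1 : (db false idE fun y => (f y : ℂ) • (1 : Λ N)) =ᶠ[𝓝 x]
      fun y => ∑ k, dzb k (fun z => (f z : ℂ)) y • io (dz false k) := by
    filter_upwards [sm_ev hg] with y hy
    rw [db_scalar false hy, pr_eq, map_sum]
    exact Finset.sum_congr rfl fun k _ => by rw [map_smul, (vec_fderiv _ _ _).2]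
  have h2 : ∀ k, DifferentiableAt ℝ (dzb k fun z => (f z : ℂ)) x := fun k =>
    P272.K.differentiableAt_dzb (hg.of_le (WithTop.coe_le_coe.2 le_top))
  rw [db_congr h1, db_sum _ fun k _ => (h2 k).fun_smul (differentiableAt_const _), Lw,
    Finset.sum_comm, Matrix.sum_mulVec, Finset.smul_sum, map_sum]
  refine Finset.sum_congr rfl fun k _ => ?_
  rw [db_smul (h2 k) (differentiableAt_const _), db_const, smul_zero, add_zero,
    ContinuousLinearMap.comp_id, pr_eq, map_sum, Finset.sum_mul, Finset.smul_sum, map_sum,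
    Matrix.sum_mulVec]
  refine Finset.sum_congr rfl fun j _ => ?_
  rw [map_smul io, smul_mul_assoc, smul_smul, map_smul, (vec_fderiv _ _ _).1, Matrix.smul_mulVec,
    ← mul_one (io (dz false k)), fk_io, fk_io, fk_one, ExT.eps_hl, ExT.eps_ah,
    Matrix.mulVec_mulVec]
  rfl

variable {a : ℕ} {ψ : Cm a → E N} {z : Cm a}

open P281Z.Hg P299.IX.Fock in
theorem lr_pair (h : DifferentiableAt ℂ ψ z) (j k : Fin (N + 1)) :
    lr (jc ψ z) *ᵥ ((P299.IX.eps (hl j) * P299.IX.eps (ah k)) *ᵥ ev ∅) =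
      ∑ i, ∑ l, (P272.K.dz i (fun y => ψ y j) z * conj (P272.K.dz l (fun y => ψ y k) z)) •
        ((P299.IX.eps (hl i) * P299.IX.eps (ah l)) *ᵥ ev ∅) := by
  have h0 := fun i j => Kb.dzb_hol (differentiableAt_pi.1 h j) i
  have h' := h.restrictScalars ℝ
  have c1 : epsV (fun p => jc ψ z p (hl j)) =
      ∑ i, P272.K.dz i (fun y => ψ y j) z • P299.IX.eps (hl i) := by
    rw [epsV, Ka.sum_idx]
    simp only [Kb.jc_hh, Kb.jc_ah, h0, zero_smul, Finset.sum_const_zero, add_zero]
  have c2 : epsV (fun p => jc ψ z p (ah k)) =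
      ∑ i, conj (P272.K.dz i (fun y => ψ y k) z) • P299.IX.eps (ah i) := by
    rw [epsV, Ka.sum_idx]
    simp only [Kb.jc_ha h', Kb.jc_aa h', h0, star_zero, zero_smul, Finset.sum_const_zero, zero_add]
    rfl
  rw [Matrix.mulVec_mulVec, ← Matrix.mul_assoc, F1aH.lr_eps, Matrix.mul_assoc, F1aH.lr_eps,
    ← Matrix.mul_assoc, ← Matrix.mulVec_mulVec, F1aH.lr_ev, c1, c2, Finset.sum_mul_sum]
  simp only [smul_mul_smul_comm, Matrix.sum_mulVec, Matrix.smul_mulVec]

theorem fsM_id {x : E N} (hx : x ≠ 0) (j k : Fin (N + 1)) : fsM (fun y => y) x j k =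
    (nu x)⁻¹ * (if j = k then 1 else 0) - (nu x ^ 2)⁻¹ * (conj (x j) * x k) := by
  have e : ∀ i j : Fin (N + 1), P272.K.dz j (fun y : E N => y i) x = if i = j then 1 else 0 :=
    fun i j => by
      rw [P272.K.dz_of_holo (differentiableAt_apply i x), (hasFDerivAt_apply i x).fderiv]
      simp [Pi.single_apply]
  rw [P299.H223.fsM_apply (F := fun y => y) contDiffAt_id hx, nsq_nu]
  simp [e, eq_comm]

/-- The pull-back of the form of Fubini and Study along a holomorphic map. -/
theorem lr_kap (h : AnalyticAt ℂ ψ z) (h0 : ψ z ≠ 0) :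
    lr (jc ψ z) *ᵥ fk ((kap : SM N).1 (ψ z)) = Lw (fsM ψ z) *ᵥ ev ∅ := by
  have h1 : (kap : SM N).1 (ψ z) = I • db true idE (db false idE (lnu : SM N).1) (ψ z) := by
    show I • (DB true (DB false lnu)).1 (ψ z) = _
    rw [DB_apply _ _ h0, db_congr (DB_ev false lnu h0)]
  rw [h1]
  refine (congrArg _ (fk_ddb (sm_log h0))).trans ?_
  simp only [Lw, Matrix.sum_mulVec, Matrix.smul_mulVec, Matrix.mulVec_sum, Matrix.mulVec_smul,
    lr_pair h.differentiableAt, Finset.smul_sum, smul_smul]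
  rw [Finset.sum_congr rfl fun j _ => Finset.sum_comm, Finset.sum_comm]
  refine Finset.sum_congr rfl fun i _ => ?_
  rw [Finset.sum_congr rfl fun j _ => Finset.sum_comm, Finset.sum_comm]
  refine Finset.sum_congr rfl fun l _ => ?_
  simp only [← Finset.sum_smul]
  congr 1
  rw [P299.H223.fsM_apply h.contDiffAt h0, nsq_nu, Finset.sum_mul_sum]
  simp only [Finset.mul_sum, ← Finset.sum_sub_distrib, mul_sub]
  refine Finset.sum_congr rfl fun j _ => ?_
  have e : ∀ k, cHess (fun y => Real.log (nsq y)) (ψ z) j k = _ := fsM_id h0 j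
  simp only [e, mul_sub, sub_mul, Finset.sum_sub_distrib, mul_ite, ite_mul, mul_zero, zero_mul,
    Finset.sum_ite_eq, Finset.mem_univ, if_true]
  refine congrArg₂ _ (by ring) (Finset.sum_congr rfl fun k _ => by ring)

end FSH

variable {n : ℕ} {C : Set (E N)} {M : Type} [TopologicalSpace M] [ChartedSpace (Cm n) M]
  [IsManifold 𝓘(ℂ, Cm n) ω M] {ε : M → TT N} {b : Chart n M → E N}
  {σ : Chart n M → Cm n → E N} {p : Chart n M → E N → Cm n}

theorem Mdl.exists_fs (h : SubC C n) (D : Mdl C ε b σ p) :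
    ∃ w : Chart n M → Cm n → Matrix (Fin n) (Fin n) ℂ, IsKahler w ∧
      ∀ e m, At e m → Lw (w e (e m)) *ᵥ ev ∅ = ps σ kap e (e m) :=
  (D.exists_fsM h).imp fun _ k => ⟨k.1, fun e m a => by
    rw [k.2 e m a, ps_apply, lr_kap (D.an e m a) (h.ne _ (D.mem e m a))]⟩

end Vale.Agent.P287Q.Hb
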