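import Vale.Agent.P281Z.Hg.F2a
import Vale.Agent.P281Z.Hg.Ab0a
import Vale.Agent.P281Z.Hg.Ab0b
import Vale.Agent.P281Z.Hg.Ab1

/-!
# The Hodge-Riemann relations for an abstract Kaehler package
-/

namespace Vale.Agent.P287Q.Hb.HRa

open P281Z.Hg Filter Topology Finset

section ring

variable {R : Type} [Ring R] [Algebra ℂ R]

theorem ex_succ (m : ℕ) (A : R) :
    ex (m + 1) A = 1 + (∑ k ∈ range m, (((k + 1).factorial : ℕ) : ℂ)⁻¹ • A ^ k) * A := by
  rw [ex, sum_range_succ', sum_mul, add_comm]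
  simp only [smul_mul_assoc, pow_succ, Nat.factorial_zero, Nat.cast_one, inv_one, pow_zero, one_smul]

theorem ex_succ' (m : ℕ) (A : R) :
    ex (m + 1) A = 1 + A * ∑ k ∈ range m, (((k + 1).factorial : ℕ) : ℂ)⁻¹ • A ^ k := by
  rw [ex, sum_range_succ', mul_sum, add_comm]
  simp only [mul_smul_comm, pow_succ', Nat.factorial_zero, Nat.cast_one, inv_one, pow_zero, one_smul]

end ring

variable {S : Type} [AddCommGroup S] [Module ℂ S] {D : ℕ} {X : Cx S D} {K : KP X}

theorem dg_app (hX : X.OK) (j k : ℕ) (a : S) :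
    X.dg j (X.dg k a) = if j = k then X.dg k a else 0 := by
  rw [← Module.End.mul_apply, hX.dg_mul]
  split_ifs <;> rfl

theorem C_app (hX : X.OK) (h : K.Alg) {m k : ℕ} (hm : m ≤ D + D) (hk : k ≤ D) (a : S) :
    K.C (X.dg m (K.pr k a)) = (Complex.I ^ m * (-1) ^ k) • X.dg m (K.pr k a) := by
  have e1 : ∀ m' k', X.dg m' * K.pr k' * (X.dg m * K.pr k) =
      if k' = k then if m' = m then X.dg m * K.pr k else 0 else 0 := fun m' k' => by
    rw [mul_assoc, ← mul_assoc (K.pr k'), h.pr_dg, mul_assoc, ← mul_assoc, hX.dg_mul, h.pr_mul]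
    split_ifs <;> simp
  have e : K.C * (X.dg m * K.pr k) = (Complex.I ^ m * (-1) ^ k) • (X.dg m * K.pr k) := by
    simp only [KP.C, sum_mul, smul_mul_assoc, e1, smul_ite, smul_zero, sum_ite_eq',
      mem_range_succ_iff.2 hm, mem_range_succ_iff.2 hk, if_true]
  exact LinearMap.congr_fun e a

theorem nrm_Lm (hX : X.OK) (h : K.Alg) (ha : K.KIa) {a : S} (e : X.dg D a = a) :
    K.nrm (K.Lm a) = K.nrm (K.L a) := by
  have h1 : X.Nd a = (D : ℂ) • a := by
    rw [Cx.Nd, LinearMap.sum_apply, sum_eq_single D, LinearMap.smul_apply, e]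
    · intro m _ hm
      rw [LinearMap.smul_apply, ← e, dg_app hX, if_neg hm, smul_zero]
    · intro hD
      exact absurd (mem_range.2 (by omega)) hD
  have h2 : K.Lm (K.L a) = K.L (K.Lm a) := by
    have := LinearMap.congr_fun h.sl2 a
    rw [LinearMap.sub_apply, LinearMap.sub_apply, h1, LinearMap.smul_apply, Module.End.one_apply,
      sub_self] at this
    exact sub_eq_zero.1 this
  rw [KP.nrm, KP.nrm, ← ha.adjL a, ha.adjL (K.L a), h2, h.herm a, Complex.star_def, Complex.conj_re]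

theorem ex_null (h : K.Alg) (ha : K.KIa) (hb : K.KIb) {T : Module.End ℂ S} (hT : K.Bdd T) (m : ℕ)
    {u v : ℕ → S} (h1 : K.Null fun s => T (u s)) (h2 : K.Null fun s => v s - u s) :
    K.Null fun s => ex (m + 1) T (v s) - u s := by
  have b1 : Ab0b.Bd K (ex (m + 1) T) :=
    Ab0b.b_sum h ha _ fun k => Ab0b.b_smul ha _ (Ab0b.b_pow hT k)
  have b2 : Ab0b.Bd K (∑ k ∈ range m, (((k + 1).factorial : ℕ) : ℂ)⁻¹ • T ^ k) :=
    Ab0b.b_sum h ha _ fun k => Ab0b.b_smul ha _ (Ab0b.b_pow hT k)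
  refine KP.Nf.congr (hb.nf_add (hb.nf_map b1 h2) (hb.nf_map b2 h1)) fun s => ?_
  rw [map_sub, ← Module.End.mul_apply, ← add_left_inj (u s), sub_add_cancel, add_assoc,
    add_comm _ (u s), show u s + _ = ex (m + 1) T (u s) by rw [ex_succ]; rfl, sub_add_cancel]

/-- **Hodge-Riemann in the middle degree.** -/
theorem hr (h : K.OK) (ha : K.KIa) (hb : K.KIb) (hh : K.KH) {p q : ℕ} (e : p + q = D) {z : S}
    (hz : X.d z = 0) (h1 : X.dg D z = z) (h2 : K.pr p z = z) (h3 : K.L z ∈ X.Nul) (h4 : z ∉ X.Nul) :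
    ∃ r : ℝ, 0 < r ∧ K.c * (Complex.I ^ D * (-1) ^ p) * X.Q (X.cj z) z = r := by
  obtain ⟨v, hv⟩ := hh.ex z hz
  obtain ⟨C, hC0, hC⟩ := hb.bQ
  obtain ⟨y, hy⟩ := hh.har (hh.hW (hh.hC hv.toHar))
  have hcz : X.d (X.cj z) = 0 := by rw [← h.cx.cjd, hz, map_zero]
  set u : ℕ → S := fun s => X.dg D (K.pr p (v s)) with hu
  have hud : ∀ s, X.dg D (u s) = u s := fun s => (dg_app h.cx D D _).trans (if_pos rfl)
  have n1 : K.Null fun s => K.L (u s) := by
    refine KP.Nf.congr (hb.nf_map (hb.bdg (D + 2)) (hb.nf_map (hb.bpr (p + 1))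
      ((hh.nul (hh.rL hv)).1 h3))) fun s => ?_
    rw [KP.app (h.alg.prL p), KP.app (h.alg.dgL D)]
  have n2 : K.Null fun s => (-K.Lm) (u s) := by
    refine hb.nf_le n1 fun s => ?_
    rw [LinearMap.neg_apply, hb.neg, nrm_Lm h.cx h.alg ha (hud s)]
  have n3 : K.Null fun s => K.W (u s) - u s :=
    ex_null h.alg ha hb h.alg.bL _ n1 (ex_null h.alg ha hb (Ab0b.b_neg ha h.alg.bLm) _ n2
      (ex_null h.alg ha hb h.alg.bL _ n1 (hb.nf_zero fun s => sub_self _)))
  have e1 : ∀ a, X.Q (X.cj z) (X.dg D (K.pr p a)) = X.Q (X.cj z) a := fun a => by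
    have k := h.alg.cjpr p q z
    rw [e, h1, h2, ← h.cx.cjdg, h1] at k
    rw [← h.cx.Qdg D D _ _ rfl, ← h.cx.cjdg, h1, ← h.alg.Qpr q p _ _ (by omega), ← k]
  have t1 : Tendsto (fun s => K.ip (v s) (v s)) atTop (𝓝 (K.c * X.Q (X.cj z) y)) :=
    (hh.Qlim (hh.rcj hv) hy).const_mul _
  have t2 : Tendsto (fun s => K.ip z (v s)) atTop (𝓝 (K.c * X.Q (X.cj z) y)) :=
    (hh.Qlim' hcz hy).const_mul _
  have t3 : Tendsto (fun s => K.ip z (v s)) atTop
      (𝓝 (K.c * (Complex.I ^ D * (-1) ^ p) * X.Q (X.cj z) z)) := by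
    have k1 := (hb.tz hC0 hC (u := fun _ => X.cj z) ⟨_, fun _ => le_rfl⟩ n3).add (hh.Qlim' hcz hv)
    rw [zero_add] at k1
    refine (k1.const_mul _).congr fun s => ?_
    have k2 : K.ip z (v s) = K.ip z (u s) := by rw [hu, ha.adjdg, h1, ha.adjpr, h2]
    rw [k2, KP.ip, C_app h.cx h.alg (by omega) (by omega), map_smul, map_smul, map_sub, ← e1 (v s),
      sub_add_cancel, smul_eq_mul, mul_assoc]
  rw [← tendsto_nhds_unique t2 t3]
  have t4 := (Complex.continuous_re.tendsto _).comp t1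
  have t5 : (K.c * X.Q (X.cj z) y).im = 0 :=
    tendsto_nhds_unique ((Complex.continuous_im.tendsto _).comp t1)
      (tendsto_const_nhds.congr fun s => (Complex.conj_eq_iff_im.1 (h.alg.herm _ _).symm).symm)
  refine ⟨(K.c * X.Q (X.cj z) y).re, lt_of_le_of_ne (ge_of_tendsto' t4 fun s => h.alg.pos _)
    fun k => h4 ((hh.nul hv).2 (hb.nf_sq ?_)), Complex.ext rfl (by rw [t5, Complex.ofReal_im])⟩
  rw [k]
  exact t4.congr fun s => (hb.sq _).symm

theorem dg_pow (h : K.Alg) {o : S} (h0 : X.dg 0 o = o) (k : ℕ) :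
    X.dg (k + k) ((K.L ^ k) o) = (K.L ^ k) o := by
  induction k with
  | zero => exact h0
  | succ k ih =>
    rw [pow_succ', Module.End.mul_apply, show k + 1 + (k + 1) = k + k + 2 by omega,
      KP.app (h.dgL _), ih]

theorem W_one (hX : X.OK) (h : K.Alg) (ha : K.KIa) {o : S} (h0 : X.dg 0 o = o) :
    K.W o = ((D.factorial : ℕ) : ℂ)⁻¹ • (K.L ^ D) o := by
  have h1 : K.Lm o = 0 := by rw [← h0]; exact KP.app0 ha.Lmdg0 o
  have h2 : (-K.L) (K.W o) = 0 := by
    have := LinearMap.congr_fun (f2a.wy_L (h.zsl hX)).2.1 o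
    rw [Module.End.mul_apply, h1, map_zero] at this
    exact this.symm
  have h3 : ex (D + D + 2) (-K.L) * ex (D + D + 2) K.L = 1 := by
    simpa only [neg_neg] using F2aH.ex_inv (A := -K.L) (N := D + D + 1)
      (by rw [neg_pow, ha.nL, mul_zero]) (Nat.le_succ _)
  have h4 : K.W o = ex (D + D + 2) (-K.Lm) (ex (D + D + 2) K.L o) := by
    have k : ex (D + D + 2) (-K.L) (K.W o) = K.W o := by
      rw [ex_succ, LinearMap.add_apply, Module.End.mul_apply, h2, map_zero, add_zero]; rfl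
    rw [← k, KP.W, wy, Module.End.mul_apply, Module.End.mul_apply, ← Module.End.mul_apply, h3]
    rfl
  have h5 : X.dg (D + D) (K.W o) = K.W o := by rw [KP.app (ha.Wdg (D + D) 0 rfl), h0]
  rw [← h5, h4, ex_succ', LinearMap.add_apply, map_add, Module.End.mul_apply, LinearMap.neg_apply,
    map_neg, KP.app (h.dgLm _), hX.dg_zero (D + D + 2) (by omega), LinearMap.zero_apply, map_zero,
    neg_zero, add_zero, Module.End.one_apply, ex, LinearMap.sum_apply, map_sum, sum_eq_single D,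
    LinearMap.smul_apply, map_smul, dg_pow h h0]
  · intro k _ hk
    rw [LinearMap.smul_apply, map_smul, ← dg_pow h h0, dg_app hX, if_neg (by omega), smul_zero]
  · intro hD
    exact absurd (mem_range.2 (by omega)) hD

/-- **The volume is positive.** -/
theorem vol (hX : X.OK) (h : K.Alg) (ha : K.KIa) {o : S} (h0 : X.dg 0 o = o) (hne : o ≠ 0) :
    ∃ r : ℝ, 0 < r ∧ K.c * X.Q (X.cj o) ((K.L ^ D) o) = r := by
  have h1 : K.pr 0 o = o := by
    have := LinearMap.congr_fun h.pr_sum o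
    rw [LinearMap.sum_apply, sum_range_succ', sum_eq_zero, zero_add] at this
    · exact this
    · intro k _
      rw [← h0]; exact KP.app0 (h.pr_lt _ _ (Nat.succ_pos k)) o
  have h2 := C_app hX h (Nat.zero_le _) (Nat.zero_le _) o
  rw [h1, h0, pow_zero, pow_zero, one_mul, one_smul] at h2
  have h3 : K.ip o o = ((D.factorial : ℕ) : ℂ)⁻¹ * (K.c * X.Q (X.cj o) ((K.L ^ D) o)) := by
    rw [KP.ip, h2, W_one hX h ha h0, map_smul, smul_eq_mul, mul_left_comm]
  have h4 : (K.ip o o).im = 0 := Complex.conj_eq_iff_im.1 (h.herm _ _).symm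
  have h5 : ((K.ip o o).re : ℂ) = K.ip o o := Complex.ext rfl (by rw [h4, Complex.ofReal_im])
  refine ⟨D.factorial * (K.ip o o).re, mul_pos (by exact_mod_cast D.factorial_pos)
    (lt_of_le_of_ne (h.pos o) fun k => hne (h.defn o (by rw [← h5, ← k, Complex.ofReal_zero]))), ?_⟩
  rw [Complex.ofReal_mul, h5, h3, Complex.ofReal_natCast,
    mul_inv_cancel_left₀ (by exact_mod_cast D.factorial_ne_zero)]

end Vale.Agent.P287Q.Hb.HRa
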