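import Vale.Agent.P287Q.Hb.KA
import Vale.Agent.P287Q.Hb.Defs

/-!
# Hodge-Riemann relations from a Kaehler package which computes the cohomology ring
-/

namespace Vale.Agent.P287Q.Hb

open P291Z P269 P269.Coh P269.Mono P281Z.Hg

variable {S : Type} [AddCommGroup S] [Module ℂ S] {D : ℕ} {X : Cx S D} {K : KP X} {Y : PS}

/-- `R k β c` says that the closed form `β` of degree `k` represents the class `c`. -/
structure KRep (K : KP X) (Y : PS) (R : ℕ → S → H Y.X → Prop) (o : S) (κ : H Y.X) : Prop where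
  cl : ∀ {k β c}, R k β c → X.Cl k β
  deg : ∀ {k β c}, R k β c → H.IsDeg k c
  sub : ∀ {k β c γ c'} (s : ℂ), R k β c → R k γ c' → R k (β - s • γ) (c - s • c')
  zero : ∀ {k β c}, R k β c → (c = 0 ↔ ∃ y, β = X.d y)
  L : ∀ {k β c}, R k β c → R (k + 2) (K.L β) (κ * c)
  cj : ∀ {k β c}, R k β c → R k (X.cj β) (cj c)
  one : R 0 o 1
  cjo : X.cj o = o
  ne : o ≠ 0
  mul : ∀ {k β c l γ c'}, R k β c → R l γ c' →
    ∃ θ, R (k + l) θ (c * c') ∧ X.Q β γ = (-1) ^ (k * (k - 1) / 2) * X.Q o θ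

theorem eq_zero_of_con (con : ∀ x : H Y.X, H.IsDeg 0 x → ∃ c : ℂ, x = c • 1) {x : H Y.X}
    (hx : H.IsDeg (2 * Y.n) x) (h0 : Y.J x = 0) : x = 0 :=
  PS.A1.eq_zero_of_J Y fun l b hb => by
    by_cases e : l = 0
    · obtain ⟨c, rfl⟩ := con b (e ▸ hb)
      rw [mul_smul_comm, mul_one, map_smul, h0, smul_zero]
    · exact Y.pd.deg _ (by omega) _ (hx.mul hb)

namespace KRep

variable {R : ℕ → S → H Y.X → Prop} {o : S} {κ : H Y.X} (r : KRep K Y R o κ)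
include r

theorem pow (m : ℕ) : R (m + m) ((K.L ^ m) o) (κ ^ m) := by
  induction m with
  | zero => simpa using r.one
  | succ m ih =>
    rw [pow_succ', pow_succ', show m + 1 + (m + 1) = m + m + 2 by omega]
    exact r.L ih

variable (hX : X.OK) (h : K.Alg) (ha : K.KIa) (hn : Y.n = D)
  (con : ∀ x : H Y.X, H.IsDeg 0 x → ∃ c : ℂ, x = c • 1)
include hX hn con

theorem Q_zero {β : S} {c : H Y.X} (hc : R (D + D) β c) (h0 : Y.J c = 0) : X.Q o β = 0 := by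
  obtain ⟨y, rfl⟩ := (r.zero hc).1 (eq_zero_of_con con (by
    rw [show 2 * Y.n = (D + D : ℕ) by omega]; exact r.deg hc) h0)
  rw [← neg_eq_zero, ← hX.Qd, (r.cl r.one).1, map_zero, LinearMap.zero_apply]

include h ha

theorem J_pow : Y.J (κ ^ D) ≠ 0 := fun e => by
  obtain ⟨t, h1, h2⟩ := ka_vol hX h ha (r.cl r.one).2 r.ne
  rw [r.cjo, r.Q_zero hX hn con (r.pow D) e, mul_zero] at h2
  exact h1.ne (by exact_mod_cast h2)

/-- **Hodge-Riemann, relative to the volume.** -/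
theorem hr (hb : K.KIb)
    (hd : ∀ a, ∃ k b, (X.d + K.ds) k = 0 ∧ a = k + (X.d + K.ds) ((X.d + K.ds) b)) {p q : ℕ}
    (e : p + q = D) {β : S} {x : H Y.X} (hx : R D β x) (hp : K.pr p β = β) (h0 : x ≠ 0)
    (h1 : κ * x = 0) : ∃ t : ℝ, 0 < t ∧ (-1) ^ ((p + q) * (p + q - 1) / 2) * Complex.I ^ p *
      (-Complex.I) ^ q * Y.J (x * Mono.cj x) = t * Y.J (κ ^ D) := by
  subst e
  obtain ⟨t, t0, ht⟩ := ka_hr h ha hb hX hd (r.cl hx) hp ((r.zero (r.L hx)).1 h1)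
    (mt (r.zero hx).2 h0)
  obtain ⟨s, s0, hs⟩ := ka_vol hX h ha (r.cl r.one).2 r.ne
  obtain ⟨θ, h2, h3⟩ := r.mul (r.cj hx) hx
  have h4 := r.J_pow hX h ha hn con
  have h5 := r.Q_zero hX hn con
    (r.sub (Y.J (Mono.cj x * x) / Y.J (κ ^ (p + q))) h2 (r.pow (p + q)))
    (by rw [map_sub, map_smul, smul_eq_mul, div_mul_cancel₀ _ h4, sub_self])
  have h6 : Y.J (Mono.cj x * x) = (-1) ^ (p + q) * Y.J (x * Mono.cj x) := by
    rw [PS.A1.J_symm, parH_of_deg (r.deg hx), smul_mul_assoc, map_smul, smul_eq_mul,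
      Int.cast_negOnePow_natCast]
  rw [map_sub, map_smul, sub_eq_zero, smul_eq_mul] at h5
  rw [r.cjo] at hs
  rw [h3, h5, h6, pow_add Complex.I, pow_add (-1 : ℂ) p q] at ht
  refine ⟨t / s, div_pos t0 s0, ?_⟩
  have h7 : (s : ℂ) ≠ 0 := by exact_mod_cast s0.ne'
  have h8 : ((-1 : ℂ) ^ p) * (-1) ^ p = 1 := by rw [← mul_pow]; simp
  rw [Complex.ofReal_div, div_mul_eq_mul_div, eq_div_iff h7, ← ht, ← hs, neg_pow Complex.I q]
  field_simp
  rw [sq, h8, mul_one]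

end KRep

end Vale.Agent.P287Q.Hb
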