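import Vale.Agent.P287Q.Hb.Cj
import Vale.Agent.P281Z.Hg.G2
import Vale.Agent.P281Z.Hg.F2b
import Vale.Agent.P281Z.Hg.F2a

/-!
# Forms on the cone and on the manifold: products, conjugation, the pairing
-/

namespace Vale.Agent.P287Q.Hb

open scoped Manifold ContDiff Matrix
open P269.Hdg P269.Hdg.Ex P281Z.Hg P299.IX
open P272.K (Cm Chart At)

variable {N n : ℕ} {M : Type} [TopologicalSpace M] [ChartedSpace (Cm n) M] [T2Space M]
  [CompactSpace M] [IsManifold 𝓘(ℂ, Cm n) ω M] {σ : Chart n M → Cm n → E N} {u v κ : SM N}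
  {β γ θ o : SG n M} {X : P281Z.Hg.Cx (SG n M) n}

omit [T2Space M] [CompactSpace M] [IsManifold 𝓘(ℂ, Cm n) ω M] in
theorem Ps_L {w} {K : KP X} (hK : RealK w K)
    (hw : ∀ e m, At e m → Lw (w e (e m)) *ᵥ Fock.ev ∅ = ps σ κ e (e m)) (h : Ps σ u β) :
    Ps σ (ML κ u) (K.L β) := fun e m hm => by
  rw [hK.L β e m hm, ps_ML, ← hw e m hm, ← (f2b f1a f1b f2a).L_wg, h e m hm]

theorem Ps_cj (hX : RealX X) (hσ : ∀ e m, At e m → DifferentiableAt ℝ (σ e) (e m))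
    (h : Ps σ u β) : Ps σ (CL u) (X.cj β) := fun e m hm => by
  rw [hX.cj β e m hm, ps_CL σ u (hσ e m hm), h e m hm]

theorem Ps_Q (hX : RealX X) {k : ℕ} (hk : X.dg k β = β) (h1 : Ps σ u β) (h2 : Ps σ v γ)
    (h3 : Ps σ (ML u v) θ) (h4 : Ps σ oneS o) :
    X.Q β γ = (-1) ^ (k * (k - 1) / 2) * X.Q o θ := by
  rw [← smul_eq_mul, ← map_smul, hX.Q, hX.Q]
  refine G2H.itg_congr fun e m hm => ?_
  have h5 := hX.dg k β e m hm
  rw [hk] at h5
  rw [Bq_wg h5.symm, vl_smul, h3 e m hm, h4 e m hm, ps_ML, ps_oneS, ← h1 e m hm, ← h2 e m hm, Bq,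
    Bq, Matrix.mulVec_smul, dotProduct_smul, smul_eq_mul]

end Vale.Agent.P287Q.Hb
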