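import Vale.Agent.P287Q.Hb.K1
import Vale.Agent.P299.H863.Gard

/-!
# Smooth Hodge theory (copy with local instances), mixed Hodge block: the inequality of Garding for symbols of Clifford type
-/

open scoped ContDiff Topology ENNReal NNReal MatrixOrder Matrix
open Set Filter Metric MeasureTheory
open Vale.Agent.P363.R.Sob Vale.Agent.P299.H863

set_option linter.unusedSectionVars false

noncomputable section

namespace Vale.Agent.P287Q.KM

namespace Clg

variable {V W : Type} [NormedAddCommGroup V] [NormedSpace ℝ V] [NormedAddCommGroup W]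
  [NormedSpace ℝ W]

theorem coer0 [FiniteDimensional ℝ V] {q : V → ℝ} (hc : Continuous q)
    (hh : ∀ (t : ℝ) v, q (t • v) = t ^ 2 * q v) (hp : ∀ v, v ≠ 0 → 0 < q v) :
    ∃ l : ℝ, 0 < l ∧ ∀ v, l * ‖v‖ ^ 2 ≤ q v := by
  have := FiniteDimensional.proper ℝ V
  obtain ⟨l, l0, hl⟩ : ∃ l : ℝ, 0 < l ∧ ∀ v ∈ sphere (0 : V) 1, l ≤ q v := by
    rcases (sphere (0 : V) 1).eq_empty_or_nonempty with h | h
    · exact ⟨1, one_pos, by simp [h]⟩
    · obtain ⟨v, hv, hm⟩ := (isCompact_sphere (0 : V) 1).exists_isMinOn h hc.continuousOn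
      refine ⟨q v, hp v ?_, fun w hw => hm hw⟩
      rintro rfl
      simp at hv
  refine ⟨l, l0, fun v => ?_⟩
  by_cases hv : v = 0
  · have h0 : q 0 = 0 := by simpa using hh 0 0
    simp [hv, h0]
  have h0 : 0 < ‖v‖ := norm_pos_iff.2 hv
  have h1 := hl (‖v‖⁻¹ • v) (by simp [norm_smul, h0.ne'])
  rw [hh, inv_pow, ← div_eq_inv_mul, le_div_iff₀ (by positivity)] at h1
  exact h1

variable {B : V →L[ℝ] V →L[ℝ] ℝ} {B' : W →L[ℝ] W →L[ℝ] ℝ}

theorem pol (hB : PF B) (hB' : PF B') {T : V →L[ℝ] W} {c : ℝ}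
    (h : ∀ v, B' (T v) (T v) = c * B v v) (v w : V) : B' (T v) (T w) = c * B v w := by
  have h1 := h (v + w)
  simp only [map_add, _root_.add_apply, h] at h1
  rw [hB.1 w v, hB'.1 (T w) (T v)] at h1
  linarith

theorem pos {ι : Type} [Fintype ι] (hB : PF B) (hB' : PF B') {A : ι → V →L[ℝ] W}
    (h : ∀ ξ : ι → ℝ, ξ ≠ 0 → ∃ c : ℝ, 0 < c ∧ ∀ v,
      B' ((∑ i, ξ i • A i) v) ((∑ i, ξ i • A i) v) = c * B v v) {p : ι → V} (hp : p ≠ 0) :
    0 < ∑ i, ∑ j, (B' (A i (p i)) (A j (p j)) + B' (A i (p j)) (A j (p i))) := by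
  classical
  obtain ⟨i0, hi0⟩ := Function.ne_iff.1 hp
  set v0 := p i0
  have b0 : 0 < B v0 v0 := hB.2 _ hi0
  have h0 : ∀ ξ : ι → ℝ, ∃ c : ℝ, ∀ v w,
      B' ((∑ i, ξ i • A i) v) ((∑ i, ξ i • A i) w) = c * B v w := fun ξ => by
    by_cases k : ξ = 0
    · exact ⟨0, by simp [k]⟩
    · obtain ⟨c, -, hc⟩ := h ξ k
      exact ⟨c, pol hB hB' hc⟩
  have h1 : ∀ ξ : ι → ℝ, ∀ v w, B' ((∑ i, ξ i • A i) v) ((∑ i, ξ i • A i) w) * B v0 v0 =
      B' ((∑ i, ξ i • A i) v0) ((∑ i, ξ i • A i) v0) * B v w := fun ξ v w => by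
    obtain ⟨c, hc⟩ := h0 ξ
    rw [hc, hc]; ring
  have s1 : ∀ i, ∑ k, (Pi.single i 1 : ι → ℝ) k • A k = A i := fun i => by
    simp [Pi.single_apply]
  let g : Matrix ι ι ℝ := Matrix.of fun i j => B' (A i v0) (A j v0) / B v0 v0
  have key : ∀ i j v w, B' (A i v) (A j w) + B' (A j v) (A i w) = 2 * g i j * B v w := by
    intro i j v w
    have a1 := h1 (Pi.single i 1) v w
    have a2 := h1 (Pi.single j 1) v w
    have a3 := h1 (Pi.single i 1 + Pi.single j 1) v w
    simp only [Pi.add_apply, add_smul, Finset.sum_add_distrib, s1, map_add,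
      _root_.add_apply] at a1 a2 a3
    rw [hB'.1 (A j v0) (A i v0)] at a3
    simp only [g, Matrix.of_apply]
    field_simp
    linarith
  have gp : g.PosDef := by
    refine .of_dotProduct_mulVec_pos ?_ fun x hx => ?_
    · ext i j
      simp only [g, Matrix.conjTranspose_apply, Matrix.of_apply, star_trivial]
      rw [hB'.1]
    · obtain ⟨c, c0, hc⟩ := h x hx
      have e : star x ⬝ᵥ g *ᵥ x =
          B' ((∑ i, x i • A i) v0) ((∑ i, x i • A i) v0) / B v0 v0 := by
        simp only [g, star_trivial, dotProduct, Matrix.mulVec, Matrix.of_apply,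
          _root_.sum_apply, _root_.smul_apply, map_sum, map_smul,
          smul_eq_mul, Finset.sum_div, Finset.mul_sum]
        rw [Finset.sum_comm]
        exact Finset.sum_congr rfl fun i _ => Finset.sum_congr rfl fun j _ => by ring
      rw [e, hc, mul_div_cancel_right₀ _ b0.ne']
      exact c0
  obtain ⟨S, hS, e⟩ := CStarAlgebra.isStrictlyPositive_iff_eq_star_mul_self.mp
    gp.isStrictlyPositive
  let q : ι → V := fun k => ∑ i, S k i • p i
  have e1 : ∑ i, ∑ j, (B' (A i (p i)) (A j (p j)) + B' (A i (p j)) (A j (p i))) =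
      2 * ∑ k, B (q k) (q k) := by
    have e2 : ∀ i j, B' (A i (p i)) (A j (p j)) + B' (A i (p j)) (A j (p i)) =
        ∑ k, 2 * (S k i * (S k j * B (p i) (p j))) := fun i j => by
      rw [hB'.1 (A i (p j)), key, e, Matrix.mul_apply, Finset.mul_sum, Finset.sum_mul]
      exact Finset.sum_congr rfl fun k _ => by
        simp only [Matrix.star_apply, star_trivial]; ring
    simp only [e2, q, map_sum, map_smul, _root_.sum_apply,
      _root_.smul_apply, smul_eq_mul, Finset.mul_sum]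
    rw [Finset.sum_comm]
    refine (Finset.sum_congr rfl fun j _ => Finset.sum_comm).trans (Finset.sum_comm.trans ?_)
    exact Finset.sum_congr rfl fun k _ => Finset.sum_congr rfl fun i _ =>
      Finset.sum_congr rfl fun j _ => by ring
  have nn : ∀ v, 0 ≤ B v v := fun v => by
    by_cases k : v = 0
    · simp [k]
    · exact (hB.2 v k).le
  rw [e1]
  refine mul_pos two_pos (Finset.sum_pos' (fun k _ => nn _) ?_)
  by_contra hq
  have hq' : ∀ k, q k = 0 := fun k => by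
    by_contra k0
    exact hq ⟨k, Finset.mem_univ k, hB.2 _ k0⟩
  refine hi0 ?_
  have e3 : ∑ k, S⁻¹ i0 k • q k = p i0 := by
    simp only [q, Finset.smul_sum, smul_smul]
    rw [Finset.sum_comm]
    simp only [← Finset.sum_smul, ← Matrix.mul_apply,
      Matrix.nonsing_inv_mul S ((Matrix.isUnit_iff_isUnit_det S).1 hS)]
    simp [Matrix.one_apply]
  refine e3.symm.trans ?_
  simp [hq']

variable {E : Type} [NormedAddCommGroup E] [NormedSpace ℝ E] [FiniteDimensional ℝ E]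
  [MeasurableSpace E] [BorelSpace E] {μ : Measure E} [μ.IsAddHaarMeasure]

theorem intb {φ ψ : E → V} (h : Continuous φ) (hc : HasCompactSupport φ) (h' : Continuous ψ)
    (B : V →L[ℝ] V →L[ℝ] ℝ) : Integrable (fun x => B (φ x) (ψ x)) μ :=
  ((B.continuous.comp h).clm_apply h').integrable_of_hasCompactSupport
    (HasCompactSupport.intro hc fun x hx => by simp [image_eq_zero_of_notMem_tsupport hx])

omit [FiniteDimensional ℝ E] [MeasurableSpace E] [BorelSpace E] in
theorem pd {φ : E → V} (h : ContDiff ℝ ∞ φ) (u : E) : ContDiff ℝ ∞ fun x => fderiv ℝ φ x u :=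
  (h.fderiv_right (m := ∞) (by simp)).clm_apply contDiff_const

theorem swap {φ : E → V} (h : ContDiff ℝ ∞ φ) (hc : HasCompactSupport φ)
    (B : V →L[ℝ] V →L[ℝ] ℝ) (u v : E) :
    ∫ x, B (fderiv ℝ φ x u) (fderiv ℝ φ x v) ∂μ = ∫ x, B (fderiv ℝ φ x v) (fderiv ℝ φ x u) ∂μ := by
  have c1 : ∀ u, HasCompactSupport fun x => fderiv ℝ φ x u := fun u => hc.fderiv_apply (𝕜 := ℝ) u
  have ibp : ∀ u v, ∫ x, B (fderiv ℝ φ x u) (fderiv ℝ φ x v) ∂μ =
      -∫ x, B (fderiv ℝ (fderiv ℝ φ) x v u) (φ x) ∂μ := fun u v => by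
    rw [integral_bilinear_fderiv_right_eq_neg_left_of_integrable
      (intb (pd (pd h u) v).continuous ((c1 u).fderiv_apply (𝕜 := ℝ) v) h.continuous B)
      (intb (pd h u).continuous (c1 u) (pd h v).continuous B)
      (intb (pd h u).continuous (c1 u) h.continuous B)
      (fun x _ => (pd h u).differentiable (by simp) x) fun x _ => h.differentiable (by simp) x]
    congr 2
    funext x
    rw [fderiv_clm_apply ((h.fderiv_right (m := ∞) (by simp)).differentiable (by simp) x)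
      (differentiableAt_const u)]
    simp
  rw [ibp, ibp]
  congr 2
  funext x
  rw [(h.contDiffAt.isSymmSndFDerivAt
    (by rw [minSmoothness_of_isRCLikeNormedField]; decide)).eq]

/-- constant coefficients -/
theorem const [FiniteDimensional ℝ V] {a : (E →L[ℝ] V) →L[ℝ] W} (h : Clf (sym a)) :
    ∃ C : ℝ, 0 ≤ C ∧ ∀ φ : E → V, ContDiff ℝ ∞ φ → HasCompactSupport φ →
      n2 μ (fderiv ℝ φ) ≤ C * n2 μ fun x => a (fderiv ℝ φ x) := by
  classical
  obtain ⟨B, B', hB, hB', h⟩ := h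
  let e := Module.finBasis ℝ E
  let θ : _ → E →L[ℝ] ℝ := fun i => LinearMap.toContinuousLinearMap (e.coord i)
  let A : _ → V →L[ℝ] W := fun i => a.comp (ContinuousLinearMap.smulRightL ℝ E V (θ i))
  have hT : ∀ T : E →L[ℝ] V, a T = ∑ i, A i (T (e i)) := fun T => by
    simp only [A, ContinuousLinearMap.comp_apply, ← map_sum]
    congr 1
    ext v
    conv_lhs => rw [← e.sum_repr v, map_sum]
    simp [θ]
  have h1 : ∀ ξ : Fin (Module.finrank ℝ E) → ℝ, ξ ≠ 0 → ∃ c : ℝ, 0 < c ∧ ∀ v,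
      B' ((∑ i, ξ i • A i) v) ((∑ i, ξ i • A i) v) = c * B v v := fun ξ k => by
    have e1 : ∀ i, (∑ j, ξ j • θ j) (e i) = ξ i := fun i => by simp [θ, Finsupp.single_apply]
    obtain ⟨c, c0, hc⟩ := h (∑ j, ξ j • θ j) fun k0 => k (funext fun i => by rw [← e1, k0]; rfl)
    refine ⟨c, c0, fun v => ?_⟩
    have e2 : sym a (∑ j, ξ j • θ j) v = (∑ i, ξ i • A i) v := by
      rw [sym, hT]
      simp only [ContinuousLinearMap.smulRight_apply, e1, map_smul, _root_.sum_apply,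
        _root_.smul_apply]
    rw [← e2, hc]
  obtain ⟨l, l0, hl⟩ := coer0 (V := E →L[ℝ] V) (q := fun T => ∑ i, ∑ j,
    (B' (A i (T (e i))) (A j (T (e j))) + B' (A i (T (e j))) (A j (T (e i))))) (by fun_prop)
    (fun t T => by
      simp only [_root_.smul_apply, map_smul, smul_eq_mul, Finset.mul_sum]
      exact Finset.sum_congr rfl fun i _ => Finset.sum_congr rfl fun j _ => by ring)
    fun T k => pos hB hB' h1 (p := fun i => T (e i)) fun k0 =>
      k (ContinuousLinearMap.coe_injective (e.ext fun i => congrFun k0 i))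
  refine ⟨Real.sqrt (2 * ‖B'‖ / l), Real.sqrt_nonneg _, fun φ h1 h2 => ?_⟩
  set p : _ → E → V := fun i x => fderiv ℝ φ x (e i)
  have pc : ∀ i, Continuous (p i) := fun i => (pd h1 _).continuous
  have ps : ∀ i, HasCompactSupport (p i) := fun i => h2.fderiv_apply (𝕜 := ℝ) _
  have dc : Continuous (fderiv ℝ φ) := h1.continuous_fderiv (by simp)
  have m1 : MemLp (fderiv ℝ φ) 2 μ := dc.memLp_of_hasCompactSupport (h2.fderiv ℝ)
  have m2 : MemLp (fun x => a (fderiv ℝ φ x)) 2 μ := a.comp_memLp' m1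
  let D : _ → _ → V →L[ℝ] V →L[ℝ] ℝ := fun i j => B'.bilinearComp (A i) (A j)
  have i3 : ∀ σ : _ → _ → _ × _, ∫ x, ∑ i, ∑ j, D i j (p (σ i j).1 x)
      (p (σ i j).2 x) ∂μ = ∑ i, ∑ j, ∫ x, D i j (p (σ i j).1 x) (p (σ i j).2 x) ∂μ := fun σ => by
    rw [integral_finsetSum _ fun i _ =>
      integrable_finsetSum _ fun j _ => intb (pc _) (ps _) (pc _) _]
    exact Finset.sum_congr rfl fun i _ =>
      integral_finsetSum _ fun j _ => intb (pc _) (ps _) (pc _) _
  have i4 : ∀ σ : _ → _ → _ × _, Integrable (fun x => ∑ i, ∑ j,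
      D i j (p (σ i j).1 x) (p (σ i j).2 x)) μ := fun σ =>
    integrable_finsetSum _ fun i _ => integrable_finsetSum _ fun j _ => intb (pc _) (ps _) (pc _) _
  have i5 := i4 fun i j => (i, j)
  have i6 := i4 fun i j => (j, i)
  have e1 : ∫ x, ∑ i, ∑ j, D i j (p j x) (p i x) ∂μ = ∫ x, ∑ i, ∑ j, D i j (p i x) (p j x) ∂μ := by
    rw [i3 fun i j => (i, j), i3 fun i j => (j, i)]
    exact Finset.sum_congr rfl fun i _ => Finset.sum_congr rfl fun j _ => swap h1 h2 _ _ _
  have j1 : Integrable (fun x => ‖fderiv ℝ φ x‖ ^ 2) μ := m1.norm.integrable_sq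
  have j2 : Integrable (fun x => ‖a (fderiv ℝ φ x)‖ ^ 2) μ := m2.norm.integrable_sq
  have e2 : l * ∫ x, ‖fderiv ℝ φ x‖ ^ 2 ∂μ ≤ 2 * ∫ x, ∑ i, ∑ j, D i j (p i x) (p j x) ∂μ := by
    rw [two_mul, ← integral_const_mul]
    nth_rw 2 [← e1]
    rw [← integral_add i5 i6]
    refine integral_mono (j1.const_mul _) (i5.add i6) fun x => (hl _).trans_eq ?_
    simp only [Finset.sum_add_distrib]
    rfl
  have e3 : ∫ x, ∑ i, ∑ j, D i j (p i x) (p j x) ∂μ ≤ ‖B'‖ * ∫ x, ‖a (fderiv ℝ φ x)‖ ^ 2 ∂μ := by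
    rw [← integral_const_mul]
    refine integral_mono i5 (j2.const_mul _) fun x => ?_
    have a1 : ∑ i, ∑ j, D i j (p i x) (p j x) = B' (a (fderiv ℝ φ x)) (a (fderiv ℝ φ x)) := by
      rw [hT, map_sum B', _root_.sum_apply]
      simp only [map_sum]
      rfl
    change _ ≤ ‖B'‖ * ‖a (fderiv ℝ φ x)‖ ^ 2
    rw [a1, sq, ← mul_assoc]
    exact (Real.le_norm_self _).trans (B'.le_opNorm₂ _ _)
  refine le_of_sq_le_sq ?_ (mul_nonneg (Real.sqrt_nonneg _) (n2_nonneg _))
  rw [mul_pow, Real.sq_sqrt (by positivity), n2_sq m1, n2_sq m2, div_mul_eq_mul_div,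
    le_div_iff₀ l0]
  linarith

/-- variable coefficients, near a point -/
theorem near [FiniteDimensional ℝ V] {a : E → (E →L[ℝ] V) →L[ℝ] W} {U : Set E} (hU : IsOpen U)
    (ha : ContinuousOn a U) {x₀ : E} (hx : x₀ ∈ U) (h : Clf (sym (a x₀))) :
    ∃ r : ℝ, 0 < r ∧ ball x₀ r ⊆ U ∧ ∃ C : ℝ, 0 ≤ C ∧ ∀ φ : E → V, ContDiff ℝ ∞ φ →
      HasCompactSupport φ → tsupport φ ⊆ ball x₀ r →
      MemLp (fun x => a x (fderiv ℝ φ x)) 2 μ ∧
      n2 μ (fderiv ℝ φ) ≤ C * n2 μ fun x => a x (fderiv ℝ φ x) := by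
  obtain ⟨C, C0, hC⟩ := const (μ := μ) h
  set ε : ℝ := 1 / (2 * (C + 1))
  have ε0 : 0 < ε := by positivity
  obtain ⟨r, r0, hr⟩ : ∃ r > 0, ∀ x ∈ ball x₀ r, x ∈ U ∧ ‖a x₀ - a x‖ ≤ ε :=
    Metric.eventually_nhds_iff_ball.1 ((hU.eventually_mem hx).and
      (Eventually.mono ((ha.continuousAt (hU.mem_nhds hx)).preimage_mem_nhds
        (closedBall_mem_nhds (a x₀) ε0)) fun x hx =>
          (mem_closedBall_iff_norm' (b := a x) (a := a x₀)).1 hx))
  refine ⟨r, r0, fun x k => (hr x k).1, 2 * C, by positivity, fun φ h1 h2 h3 => ?_⟩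
  have dc : Continuous (fderiv ℝ φ) := h1.continuous_fderiv (by simp)
  have m1 : MemLp (fderiv ℝ φ) 2 μ := dc.memLp_of_hasCompactSupport (h2.fderiv ℝ)
  have p0 : ∀ x ∉ tsupport φ, fderiv ℝ φ x = 0 := fun x hx =>
    image_eq_zero_of_notMem_tsupport fun k => hx (tsupport_fderiv_subset ℝ k)
  have qc : Continuous fun x => a x (fderiv ℝ φ x) := by
    refine continuous_iff_continuousAt.2 fun x => ?_
    by_cases k : x ∈ tsupport φ
    · exact (ha.continuousAt (hU.mem_nhds (hr x (h3 k)).1)).clm_apply dc.continuousAt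
    · refine (continuousAt_const (y := (0 : W))).congr ?_
      filter_upwards [(isClosed_tsupport φ).isOpen_compl.mem_nhds k] with y hy
      rw [p0 y hy, map_zero]
  have m2 : MemLp (fun x => a x (fderiv ℝ φ x)) 2 μ := qc.memLp_of_hasCompactSupport
    (HasCompactSupport.intro h2 fun x hx => by simp [p0 x hx])
  have m3 : MemLp (fun x => a x₀ (fderiv ℝ φ x)) 2 μ := (a x₀).comp_memLp' m1
  have b1 : n2 μ (fun x => a x₀ (fderiv ℝ φ x) - a x (fderiv ℝ φ x)) ≤ ε * n2 μ (fderiv ℝ φ) := by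
    refine n2_mono_of_le ε0.le m1 fun x => ?_
    by_cases k : x ∈ tsupport φ
    · exact (a x₀ - a x).le_of_opNorm_le (hr x (h3 k)).2 _
    · simp [p0 x k]
  have b2 := n2_add_le m2 (m3.sub m2)
  simp only [Pi.sub_apply, add_sub_cancel] at b2
  have b3 := hC φ h1 h2
  have b4 : C * ε ≤ 1 / 2 := by
    rw [mul_one_div, div_le_div_iff₀ (by positivity) two_pos]; linarith
  have b5 := n2_nonneg (μ := μ) (fderiv ℝ φ)
  refine ⟨m2, ?_⟩
  have b6 := mul_le_mul_of_nonneg_left (b2.trans (add_le_add le_rfl b1)) C0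
  nlinarith

end Clg

open Clg

theorem clg : CLG := by
  intro E _ _ _ _ _ μ _ ι _ e V W _ _ _ _ _ _ M hM h x₀
  let a : E → (E →L[ℝ] V) →L[ℝ] W := fun x =>
    ∑ j, (M j x).comp (ContinuousLinearMap.apply ℝ V (e j))
  have ha : ∀ x T, a x T = ∑ j, M j x (T (e j)) := fun x T => by simp [a]
  obtain ⟨r, r0, -, C, C0, hC⟩ := near (μ := μ) (a := a) isOpen_univ (by fun_prop) (mem_univ x₀)
    (by
      have : sym (a x₀) = fun ξ v => ∑ i, ξ (e i) • M i x₀ v := by
        funext ξ v; simp [sym, ha]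
      rw [this]; exact h x₀)
  refine ⟨r, r0, ((∑ i, ‖e i‖) * C).toNNReal, fun φ h1 h2 h3 i => ?_⟩
  obtain ⟨m2, b⟩ := hC φ h1 h2 h3
  simp only [ha] at m2 b
  have m1 : MemLp (fderiv ℝ φ) 2 μ :=
    (h1.continuous_fderiv (by simp)).memLp_of_hasCompactSupport (h2.fderiv ℝ)
  have m0 : MemLp (fun x => fderiv ℝ φ x (e i)) 2 μ :=
    (pd h1 _).continuous.memLp_of_hasCompactSupport (h2.fderiv_apply (𝕜 := ℝ) _)
  have s0 : 0 ≤ ∑ i, ‖e i‖ := by positivity
  have b1 : n2 μ (fun x => fderiv ℝ φ x (e i)) ≤ (∑ i, ‖e i‖) * n2 μ (fderiv ℝ φ) :=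
    n2_mono_of_le s0 m1 fun x => ((fderiv ℝ φ x).le_opNorm _).trans (by
      rw [mul_comm]
      exact mul_le_mul_of_nonneg_right (Finset.single_le_sum (f := fun i => ‖e i‖)
        (fun _ _ => norm_nonneg _) (Finset.mem_univ i)) (norm_nonneg _))
  refine le_trans ?_ (mul_le_mul_right le_self_add _)
  rw [← ENNReal.toReal_le_toReal m0.2.ne (ENNReal.mul_ne_top ENNReal.coe_ne_top m2.2.ne),
    ENNReal.toReal_mul, ENNReal.coe_toReal, Real.coe_toNNReal _ (by positivity), mul_assoc]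
  exact b1.trans (mul_le_mul_of_nonneg_left b s0)

theorem lgar : LGAR := by
  intro E _ _ _ _ _ μ _ ι _ e V W _ _ _ _ _ _ U K a b hU hK hKU ha hb h
  classical
  have := FiniteDimensional.proper ℝ E
  choose! r r0 hr C C0 hC using fun x (hx : x ∈ U) =>
    near (μ := μ) hU ha.continuousOn hx (h x hx)
  obtain ⟨t, ht, hc⟩ := hK.elim_nhds_subcover (fun x => ball x (r x / 2))
    fun x hx => ball_mem_nhds x (half_pos (r0 x (hKU hx)))
  choose! η hη h1 h2 using fun x (hx : x ∈ U) => exists_testV (isCompact_closedBall x (r x / 2))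
    isOpen_ball (closedBall_subset_ball (half_lt_self (r0 x hx)))
  obtain ⟨Ca, a0, hCa⟩ := exists_bound_on hK (ha.continuousOn.mono hKU)
  obtain ⟨Cb, b0, hCb⟩ := exists_bound_on hK (hb.continuousOn.mono hKU)
  choose! Ce e0 hCe using fun x (hx : x ∈ U) => exists_bound_on hK
    ((hη x hx).smooth.continuous_fderiv (by simp)).continuousOn
  refine ⟨∑ x ∈ t, C x * (1 + Cb + Ca * Ce x), Finset.sum_nonneg fun x hx => ?_, fun φ s1 s2 => ?_⟩
  · have := C0 x (hKU (ht x hx)); have := e0 x (hKU (ht x hx)); positivity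
  have tφ : TestV U φ := ⟨s1, hK.of_isClosed_subset (isClosed_tsupport _) s2, s2.trans hKU⟩
  have mf : MemLp (fo a b φ) 2 μ := (fo_test hU ha hb tφ).memLp
  have p0 : ∀ x ∉ K, φ x = 0 ∧ fderiv ℝ φ x = 0 := fun x hx =>
    ⟨tφ.zero_off fun k => hx (s2 k),
      image_eq_zero_of_notMem_tsupport fun k => hx (s2 (tsupport_fderiv_subset ℝ k))⟩
  have tη : ∀ x ∈ U, TestV (ball x (r x)) fun y => η x y • φ y := fun x hx =>
    (hη x hx).smul isOpen_ball s1.contDiffOn
  have mη : ∀ x, MemLp (fun y => if x ∈ U then ‖fderiv ℝ (fun y => η x y • φ y) y‖ else 0) 2 μ :=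
    fun x => by
      by_cases k : x ∈ U
      · simp only [if_pos k]
        exact (((tη x k).smooth.continuous_fderiv (by simp)).memLp_of_hasCompactSupport
          ((tη x k).cpt.fderiv ℝ)).norm
      · simp only [if_neg k]; exact MemLp.zero'
  have b1 : n2 μ (fderiv ℝ φ) ≤ 1 * n2 μ fun y => ∑ x ∈ t,
      if x ∈ U then ‖fderiv ℝ (fun y => η x y • φ y) y‖ else 0 := by
    refine n2_mono_of_le zero_le_one (memLp_finsetSum _ fun x _ => mη x) fun y => ?_
    have nn : ∀ x ∈ t, 0 ≤ if x ∈ U then ‖fderiv ℝ (fun y => η x y • φ y) y‖ else 0 :=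
      fun x _ => by split_ifs <;> positivity
    rw [one_mul, Real.norm_of_nonneg (Finset.sum_nonneg nn)]
    by_cases k : y ∈ K
    · obtain ⟨x, hx, hy⟩ := mem_iUnion₂.1 (hc k)
      refine le_trans (le_of_eq ?_) (Finset.single_le_sum nn hx)
      rw [if_pos (hKU (ht x hx)), EventuallyEq.fderiv_eq (f₁ := fun y => η x y • φ y) (f := φ)]
      filter_upwards [isOpen_ball.mem_nhds hy] with z hz
      rw [h1 x (hKU (ht x hx)) z (ball_subset_closedBall hz), one_smul]
    · rw [(p0 y k).2, norm_zero]; exact Finset.sum_nonneg nn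
  rw [one_mul] at b1
  rw [Finset.sum_mul]
  refine b1.trans ((n2_sum_le t mη).trans (Finset.sum_le_sum fun x hx => ?_))
  have k := hKU (ht x hx)
  simp only [if_pos k]
  obtain ⟨-, b2⟩ := hC x k _ (tη x k).smooth (tη x k).cpt (tη x k).supp
  have b3 : n2 μ (fun y => a y (fderiv ℝ (fun y => η x y • φ y) y)) ≤
      (1 + Cb + Ca * Ce x) * n2 μ fun y => ‖fo a b φ y‖ + ‖φ y‖ := by
    have := e0 x k
    refine n2_mono_of_le (by positivity) (mf.norm.add tφ.memLp.norm) fun y => ?_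
    rw [Real.norm_of_nonneg (by positivity), fderiv_fun_smul
      ((hη x k).smooth.differentiable (by simp) y) (s1.differentiable (by simp) y)]
    by_cases ky : y ∈ K
    · have e1 : a y (η x y • fderiv ℝ φ y + (fderiv ℝ (η x) y).smulRight (φ y)) =
          η x y • (fo a b φ y - b y (φ y)) + a y ((fderiv ℝ (η x) y).smulRight (φ y)) := by
        simp [fo]
      have c1 : ‖η x y • (fo a b φ y - b y (φ y))‖ ≤ ‖fo a b φ y‖ + Cb * ‖φ y‖ := by
        rw [norm_smul, Real.norm_of_nonneg (h2 x k y).1]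
        exact (mul_le_of_le_one_left (norm_nonneg _) (h2 x k y).2).trans ((norm_sub_le _ _).trans
          (add_le_add le_rfl ((b y).le_of_opNorm_le (hCb y ky) _)))
      have c2 : ‖a y ((fderiv ℝ (η x) y).smulRight (φ y))‖ ≤ Ca * (Ce x * ‖φ y‖) := by
        refine ((a y).le_of_opNorm_le (hCa y ky) _).trans (mul_le_mul_of_nonneg_left ?_ a0)
        rw [ContinuousLinearMap.norm_smulRight_apply]
        exact mul_le_mul_of_nonneg_right (hCe x k y ky) (norm_nonneg _)
      rw [e1]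
      refine (norm_add_le _ _).trans ((add_le_add c1 c2).trans ?_)
      have n1 := norm_nonneg (fo a b φ y)
      have n3 := norm_nonneg (φ y)
      have n4 := mul_nonneg a0 this
      nlinarith [mul_nonneg b0 n1, mul_nonneg n4 n1]
    · have e2 : (fderiv ℝ (η x) y).smulRight (0 : V) = 0 := by ext; simp
      rw [(p0 y ky).1, (p0 y ky).2, e2, smul_zero, add_zero, map_zero, norm_zero]
      positivity
  have b4 := n2_add_le mf.norm tφ.memLp.norm
  have e1 : ∀ {Y : Type} [NormedAddCommGroup Y] (g : E → Y), n2 μ (fun y => ‖g y‖) = n2 μ g :=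
    fun g => by rw [n2, n2, eLpNorm_norm]
  rw [e1, e1] at b4
  rw [e1, mul_assoc]
  have := e0 x k
  exact b2.trans (mul_le_mul_of_nonneg_left (b3.trans
    (mul_le_mul_of_nonneg_left b4 (by positivity))) (C0 x k))

end Vale.Agent.P287Q.KM
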