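import Vale.Agent.P287Q.Hb.K3
import Vale.Agent.P287Q.Hb.K4
import Vale.Agent.P287Q.Hb.K7

/-!
# The smooth Hodge decomposition on a compact Kaehler manifold
-/

open scoped Manifold ContDiff

namespace Vale.Agent.P287Q.Hb

open P272.K P281Z.Hg

theorem kah_glb : KM.GLB := KHG.glb KER.greg KM.symb

/-- Everything about any Kaehler package of a compact Kaehler manifold. -/
theorem kahler_of {n : ℕ} {M : Type} [TopologicalSpace M] [ChartedSpace (Cm n) M] [T2Space M]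
    [CompactSpace M] [IsManifold 𝓘(ℂ, Cm n) ω M] {w : Rw n M (Matrix (Fin n) (Fin n) ℂ)}
    (hw : IsKahler w) {X : Cx (SF n M) n} {K : KP X} (hX : RealX X) (hK : RealK w K) :
    K.OK ∧ K.KIa ∧ K.KIb ∧ KM.HD K ∧ KM.DD K.A K.Ab :=
  KHG.hodge_of kah_glb n M hX hw hK

/-- **Smooth Hodge decomposition.** -/
theorem kahler_all {n : ℕ} {M : Type} [TopologicalSpace M] [ChartedSpace (Cm n) M] [T2Space M]
    [CompactSpace M] [IsManifold 𝓘(ℂ, Cm n) ω M] {w : Rw n M (Matrix (Fin n) (Fin n) ℂ)}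
    (hw : IsKahler w) : ∃ (X : Cx (SF n M) n) (K : KP X), RealX X ∧ X.OK ∧ RealK w K ∧ K.Alg ∧
      K.KIa ∧ K.KIb ∧ ∀ a, ∃ k b, (X.d + K.ds) k = 0 ∧ a = k + (X.d + K.ds) ((X.d + K.ds) b) := by
  obtain ⟨X, hX⟩ := KHG.exists_X n M
  obtain ⟨K, hK⟩ := KHG.exists_K hX hw
  obtain ⟨h1, h2, h3, h4, -⟩ := kahler_of hw hX hK
  refine ⟨X, K, hX, KHG.ok_X hX, hK, h1.alg, h2, h3, fun a => ?_⟩
  obtain ⟨k, hk, b, e⟩ := h4.2 a
  exact ⟨k, b, hk, e⟩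

end Vale.Agent.P287Q.Hb
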