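import Vale.Agent.P287Q.Hb.Cmp
import Vale.Agent.P269.Hdg.ExH

/-!
# Hodge types and closed forms of pure type
-/

namespace Vale.Agent.P287Q.Hb

open scoped ComplexConjugate ContDiff
open Topology Filter P291Z P269.Hdg P269.Hdg.Ex

variable {N n : ℕ} {C : Set (E N)} {X : Type} [TopologicalSpace X] {π : C → X}

theorem Df_type {T : Submodule ℂ (E N)} {p q : ℕ} {f : (Fin (p + q + 1) → E N) → ℂ} {x : E N}
    (hf : ContDiffAt ℝ ∞ f fun _ => x)
    (ht : ∀ (t : ℂ) (v : Fin (p + q) → E N), (∀ i, v i ∈ T) →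
      form f x (t • v) = t ^ p * conj t ^ q * form f x v) :
    Df f x - pt p q (Df f x) ∈ nul T := by
  obtain ⟨P, h1, h2⟩ := exists_prj0 T
  have h3 : mp (tr (P.restrictScalars ℝ)) (Df f x) ∈ Ty p q := mem_Ty_of_scal fun t _ => by
    refine smul_right_injective _ (r := ((p + q).factorial : ℂ))
      (by exact_mod_cast (p + q).factorial_ne_zero) ?_
    simp only
    rw [smul_comm, mp_mp, tr_comp, mp_Df_form hf, mp_Df_form hf, Finset.smul_sum]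
    refine Finset.sum_congr rfl fun σ _ => ?_
    rw [smul_smul, zpow_natCast, zpow_natCast, ← ht t
      (fun i => P.restrictScalars ℝ (eR (σ i))) fun i => h1 _]
    refine congrArg (· • _) (congrArg _ (funext fun i => ?_))
    simp
  rw [nul_iff (P := P.restrictScalars ℝ) h1 h2, map_sub, ← pt_mp_tr, pt_self h3, sub_self]

theorem form_type {T : Submodule ℂ (E N)} {p q : ℕ} {f : (Fin (p + q + 1) → E N) → ℂ} {x : E N}
    (hf : ContDiffAt ℝ ∞ f fun _ => x) {o : Λ N} (ho : o ∈ Ty p q) (e : Df f x - o ∈ nul T) (t : ℂ)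
    (v : Fin (p + q) → E N) (hv : ∀ i, v i ∈ T) :
    form f x (t • v) = t ^ p * conj t ^ q * form f x v := by
  obtain ⟨P, h1, h2⟩ := exists_prj0 T
  have h3 := e (P.restrictScalars ℝ) h1
  rw [map_sub, sub_eq_zero] at h3
  have h4 := evl_mp_Df hf ((P.restrictScalars ℝ).comp (scal t)) v
  rw [← tr_comp, ← mp_mp, h3, mp_scal (mp_tr_mem P ho), ← h3, map_smul, evl_mp_Df hf,
    zpow_natCast, zpow_natCast] at h4
  simp only [ContinuousLinearMap.comp_apply, ContinuousLinearMap.coe_restrictScalars',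
    scal_apply, map_smul, h2 _ (hv _)] at h4
  exact h4.symm

variable (h : SubC C n) (hπ : IsProj π)

theorem cmp_hodge {p q : ℕ} {c : P291Z.H X} (hc : c ∈ HN C π p q) :
    ∃ u, ∃ hu : u ∈ (dR h).sh.gl.Z ((p + q : ℕ) : ℤ), u ∈ Om p q ∧
      cmp h hπ _ (Cx.cl u hu) = c := by
  obtain ⟨a, ha, rfl, hf⟩ := hc
  obtain ⟨c, h1, h2⟩ := exists_sm h hπ ha fun x => (hf x).imp fun f hf => ⟨hf.1, hf.2.1⟩
  have hz : SmZ C (p + q : ℕ) c := ⟨h1, fun b => VA_of_rs h hπ (IsSm.delta c.2) <| by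
    have := sub_mem ((VA_iff h hπ).2 a.2 b) (VA_δ (h2 b))
    rwa [map_sub, sub_sub_cancel, rs, δ_pull] at this⟩
  have h3 : DM c - PT p q (DM c) ∈ (dR h).sh.gl.nul := (dR_nul h).2 fun x hx => by
    obtain ⟨f, e1, e2, e3⟩ := hf ⟨x, hx⟩
    have e4 := Df_type e1.contDiffAt e3
    have e5 : Dm (p + q) c.1 x - Df f x ∈ nl C x := by
      rw [Dm, ← Df_sub (IsSm.ofFn c.2 fun _ => (h.ne _ hx)) e1.contDiffAt]
      refine h.Df_nl hx ((IsSm.ofFn_ev c.2 fun _ => (h.ne _ hx)).mono fun y hy => hy.sub e1.contDiffAt) ?_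
      obtain ⟨W, hW, e2⟩ := ev_pi_const e2
      rw [nhds_subtype, mem_comap] at hW
      obtain ⟨W', hW', hWW⟩ := hW
      obtain ⟨U, hU, e6⟩ := h2 (prP x)
      filter_upwards [eventually_all.2 fun i : Fin (p + q + 1) => ((continuous_apply i).tendsto
        fun _ => x).eventually (((sm_prP (h.ne _ hx)).continuousAt.tendsto.eventually_mem hU).and hW')]
        with y e7 hy
      have e8 := e6 ((List.ofFn fun i => (⟨y i, hy i⟩ : C)).map π) fun z hz => by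
        rw [List.map_ofFn] at hz
        obtain ⟨i, rfl⟩ := List.mem_ofFn.1 hz
        exact ⟨trivial, by rw [Function.comp_apply, emb_π h]; exact (e7 i).1⟩
      rw [Coch.sub_val, Pi.sub_apply, rs_val h hπ c.2, List.map_ofFn, List.map_ofFn,
        sub_eq_zero] at e8
      exact sub_eq_zero.2 (e8.symm.trans (e2 _ fun i => hWW (e7 i).2))
    have := add_mem (sub_mem e5 (nul_pt e5 p q)) e4
    rw [Submodule.coe_sub, Pi.sub_apply, PT_apply, DM_of_isDeg h1 (h.ne _ hx)]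
    rw [map_sub] at this
    exact mem_of_eq this (by abel)
  have h4 := hz.DM_Z h
  have h5 : PT p q (DM c) ∈ (dR h).sh.gl.Z ((p + q : ℕ) : ℤ) := by
    refine (dR_Z h).2 ⟨PT_Ak h4.1 p q, fun y hy => ?_⟩
    have := sub_mem (((dR_Z h).1 h4).2 y hy)
      ((dR_nul h (u := DD (DM c - PT p q (DM c)))).1 ((dR h).sh.gl.dnul _ h3) y hy)
    rwa [map_sub, Submodule.coe_sub, Pi.sub_apply, sub_sub_cancel] at this
  refine ⟨_, h5, h4.1.1 p q, ?_⟩
  rw [cmp_eq h hπ h5 hz (Cx.nul_le_B (neg_sub (DM c) (PT p q (DM c)) ▸ neg_mem h3)), ← hcls_val]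
  exact (hcls_eq_of_null (hz.cyc h hπ) (supp_eq_empty.1 ((VA_iff h hπ).1 h2))).symm

theorem cmp_mem_HN {p q : ℕ} {u : SM N} (hu : u ∈ (dR h).sh.gl.Z ((p : ℤ) + q)) (h1 : u ∈ Om p q) :
    cmp h hπ _ (Cx.cl u hu) ∈ HN C π p q := by
  obtain ⟨a, ha, e⟩ := exists_SmZ h hu
  obtain ⟨w, hw, e1⟩ := (dR_B h).1 e
  obtain ⟨b, hb, eb⟩ := DM_surj hw
  obtain ⟨c, hc⟩ : ∃ c : smA N, c.1 = P291Z.δ b.1 := ⟨⟨_, IsSm.delta b.2⟩, rfl⟩
  have h2 : P291Z.IsDeg ((p + q : ℕ) : ℤ) (a + c).1 := by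
    rw [Submodule.coe_add, hc]
    exact (ha.1.add (hb.δ.cast (by ring))).cast (by simp)
  have h3 : SmZ C ((p : ℤ) + q) (a + c) := ⟨h2.cast (by simp), fun x => by
    rw [Submodule.coe_add, hc, map_add, P291Z.δ_δ, add_zero]; exact ha.2 x⟩
  have e2 : ∀ y ∈ C, u.1 y - (DM (a + c)).1 y ∈ nl C y := fun y hy => by
    have e3 := DD_of_zero (u := DM b - w) (fun x hx => sub_eq_zero.2 (eb x hx)) (h.ne _ hy)
    rw [map_sub, Submodule.coe_sub, Pi.sub_apply, sub_eq_zero] at e3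
    rw [map_add, Submodule.coe_add, Pi.add_apply, DM_δ hc hb (h.ne _ hy), e3, ← sub_sub]
    exact e1 y hy
  rw [cmp_eq h hπ hu h3 (Cx.nul_le_B ((dR_nul h).2 e2))]
  refine ⟨⟨rs hπ (a + c).1, h3.cyc h hπ⟩, h2.pull _, (P291Z.hcls_of_mem _).symm, fun x => ?_⟩
  obtain ⟨f, hf, ef⟩ := ExH.exists_contDiff
    (IsSm.ofFn_ev (a + c).2 (y := fun _ : Fin (p + q + 1) => x.1) fun _ => (h.ne _ x.2))
  refine ⟨f, hf, ?_, form_type hf.contDiffAt (h1.1.1 x.1 (h.ne _ x.2)).1 ?_⟩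
  · have hc : Continuous fun (y : Fin (p + q + 1) → C) i => (y i).1 := by fun_prop
    filter_upwards [(hc.tendsto fun _ => x).eventually ef] with y hy
    have := rs_val h hπ (a + c).2 (List.ofFn y)
    rw [List.map_ofFn, List.map_ofFn] at this
    exact this.trans hy.symm
  · have := neg_mem (e2 x.1 x.2)
    rw [neg_sub, DM_of_isDeg h2 (h.ne _ x.2)] at this
    rwa [Df_congr ef]

theorem cmp_nul {k : ℤ} {u : SM N} (hu : u ∈ (dR h).sh.gl.Z k) (h0 : u ∈ Nl C) :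
    cmp h hπ k (Cx.cl u hu) = 0 := by
  rw [(Cx.cl_eq_zero hu).2 (Cx.nul_le_B ((dR_nul h).2 h0)), map_zero]

theorem cmp_cast {k l : ℤ} (e : k = l) {u : SM N} (hu : u ∈ (dR h).sh.gl.Z k) :
    ∃ hu' : u ∈ (dR h).sh.gl.Z l, cmp h hπ l (Cx.cl u hu') = cmp h hπ k (Cx.cl u hu) := by
  subst e; exact ⟨hu, rfl⟩

/-- The classes of type `(p, q)` are the classes of the closed forms of type `(p, q)`. -/
theorem mem_HT_iff {p q : ℤ} {c : H X} : c ∈ HT C π p q ↔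
    ∃ u, ∃ hu : u ∈ (dR h).sh.gl.Z (p + q), u ∈ Om p q ∧ cmp h hπ _ (Cx.cl u hu) = c := by
  by_cases k : 0 ≤ p ∧ 0 ≤ q
  · lift p to ℕ using k.1
    lift q to ℕ using k.2
    rw [HT_nat]
    exact ⟨cmp_hodge h hπ, fun ⟨_, hu, h1, e⟩ => e ▸ cmp_mem_HN h hπ hu h1⟩
  · rw [HT, if_neg k, Submodule.mem_bot]
    refine ⟨fun e => ⟨0, zero_mem _, zero_mem _, ?_⟩, fun ⟨u, hu, h1, e⟩ => ?_⟩
    · rw [e]; exact cmp_nul h hπ _ (zero_mem _)
    · rw [← e]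
      exact cmp_nul h hπ hu (h.zero_nl fun x hx => Fm_neg (by omega) h1.1 hx)

include h hπ

theorem HT_deg {p q : ℤ} {c : H X} (hc : c ∈ HT C π p q) : H.IsDeg (p + q) c := by
  obtain ⟨u, hu, -, rfl⟩ := (mem_HT_iff h hπ).1 hc
  exact (cmp_range h hπ).1 ⟨_, rfl⟩

theorem HT_one : 1 ∈ HT C π 0 0 :=
  (mem_HT_iff h hπ).2 ⟨oneS, oneS_Z h, oneS_Om, cmp_one h hπ _⟩

theorem HT_mul {p q p' q' : ℤ} {a b : H X} (ha : a ∈ HT C π p q) (hb : b ∈ HT C π p' q') :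
    a * b ∈ HT C π (p + p') (q + q') := by
  obtain ⟨u, hu, h1, rfl⟩ := (mem_HT_iff h hπ).1 ha
  obtain ⟨v, hv, h2, rfl⟩ := (mem_HT_iff h hπ).1 hb
  obtain ⟨k, e⟩ := cmp_cast h hπ (add_add_add_comm p q p' q') (ML_Z h hu hv)
  exact (mem_HT_iff h hπ).2 ⟨_, k, ML_Om h1 h2, e.trans (cmp_mul h hπ hu hv)⟩

theorem HT_out {p q : ℤ} (k : p < 0 ∨ q < 0 ∨ (n : ℤ) < p ∨ (n : ℤ) < q) : HT C π p q = ⊥ := by
  refine eq_bot_iff.2 fun c hc => ?_
  obtain ⟨u, hu, h1, rfl⟩ := (mem_HT_iff h hπ).1 hc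
  refine cmp_nul h hπ hu ?_
  rcases or_assoc.2 k with k | k
  · exact h.zero_nl fun x hx => Fm_neg k h1.1 hx
  · exact h.Om_big h1 k

end Vale.Agent.P287Q.Hb
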