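import Vale.Agent.P287Q.Hb.Ps
import Vale.Agent.P287Q.Hb.Typ
import Vale.Agent.P287Q.Hb.FS
import Vale.Agent.P287Q.Hb.Kah
import Vale.Agent.P287Q.Hb.HRm
import Vale.Agent.P287Q.Hb.HRc

/-!
# The Hodge-Riemann relations for a submanifold of projective space
-/

namespace Vale.Agent.P287Q.Hb

open scoped Manifold ContDiff
open P291Z P269 P269.Coh P269.Mono P269.Hdg P269.Hdg.Ex
open P281Z.Hg (RealX RealK KP)
open P272.K (Cm Chart At)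

variable {N n : ℕ} {C : Set (E N)}

theorem nul_cjL {T : Submodule ℂ (E N)} {o : Λ N} (ho : o ∈ nul T) : cjL o ∈ nul T :=
  fun P hP => by rw [← cjL_mp, ho P hP, map_zero]

theorem CL_kap : CL (kap : SM N) = kap := by
  have e : CL (lnu : SM N) = lnu := Subtype.ext (funext fun x => by
    rw [CL_apply]; exact (cjL_smul _ _).trans (by rw [cjL_one, Complex.conj_ofReal]; rfl))
  rw [kap, CL_smul, ← DB_CL', ← DB_CL', e, Complex.conj_I]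
  refine Subtype.ext (funext fun x => ?_)
  change -Complex.I • (DB false (DB true lnu)).1 x = Complex.I • (DB true (DB false lnu)).1 x
  by_cases hx : x = 0
  · exact (congrArg _ (if_pos hx)).trans
      ((smul_zero _).trans ((congrArg _ (if_pos hx)).trans (smul_zero _)).symm)
  · rw [DB_DB true false _ hx, neg_smul_neg]

section cmp

variable (h : SubC C n) {Z : Type} [TopologicalSpace Z] {π : C → Z} (hπ : IsProj π)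

theorem CL_Z {k : ℤ} {u : SM N} (hu : u ∈ (dR h).sh.gl.Z k) : CL u ∈ (dR h).sh.gl.Z k :=
  (dR_Z h).2 ⟨CL_Ak hu.1, fun y hy => DD_CL u y ▸ nul_cjL (((dR_Z h).1 hu).2 y hy)⟩

theorem cmp_CL {k : ℤ} {u : SM N} (hu : u ∈ (dR h).sh.gl.Z k) :
    cmp h hπ k (Hdg.Cx.cl (CL u) (CL_Z h hu)) = cj (cmp h hπ k (Hdg.Cx.cl u hu)) := by
  obtain ⟨a, ha, e⟩ := exists_SmZ h hu
  obtain ⟨w, hw, e'⟩ := (dR_B h).1 e
  rw [cmp_eq h hπ hu ha e, cj_hcls (ha.cyc h hπ)]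
  refine cmp_eq h hπ _ (a := ⟨cjC a.1, a.2.cj⟩) ⟨isDeg_cjC ha.1, fun b => ?_⟩
    ((dR_B h).2 ⟨CL w, CL_Ak hw, fun y hy => ?_⟩)
  · obtain ⟨U, hU, k⟩ := ha.2 b
    exact ⟨U, hU, fun l hl => by rw [← cjC_δ]; exact (congrArg _ (k l hl)).trans (map_zero _)⟩
  · rw [DM_cj, ← map_sub, DD_CL, CL_apply, ← map_sub]
    exact nul_cjL (e' y hy)

theorem kap_Z : (kap : SM N) ∈ (dR h).sh.gl.Z (1 + 1) :=
  (dR_Z h).2 ⟨Om_le_Ak kap_Om, fun y hy => DD_kap (h.ne y hy) ▸ zero_mem _⟩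

/-- The class of the form of Fubini and Study. -/
noncomputable def kcl : H Z := cmp h hπ (1 + 1) (Hdg.Cx.cl kap (kap_Z h))

theorem cj_kcl : cj (kcl h hπ) = kcl h hπ := by
  rw [kcl, ← cmp_CL]; simp only [CL_kap]

theorem kcl_mem : kcl h hπ ∈ HT C π 1 1 := (mem_HT_iff h hπ).2 ⟨_, _, kap_Om, rfl⟩

theorem kcl_deg : H.IsDeg 2 (kcl h hπ) := (cmp_range h hπ).1 ⟨_, rfl⟩

end cmp

variable {M : Type} [TopologicalSpace M] [ChartedSpace (Cm n) M] [T2Space M] [CompactSpace M]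
  [IsManifold 𝓘(ℂ, Cm n) ω M] {ε : M → TT N} {b : Chart n M → E N}
  {σ : Chart n M → Cm n → E N} {p : Chart n M → E N → Cm n} {X : P281Z.Hg.Cx (SG n M) n}

theorem Mdl.B_iff (D : Mdl C ε b σ p) (h : SubC C n) (hX : RealX X) (hok : X.OK) {k : ℕ}
    {u : SM N} {β : SG n M} (hu : u ∈ Ak k) (hβ : Ps σ u β) :
    u ∈ (dR h).sh.gl.B k ↔ ∃ y, β = X.d y := by
  refine (dR_B h).trans ⟨fun ⟨w, hw, e⟩ => ?_, fun ⟨y, e⟩ => ?_⟩
  · obtain ⟨y, hy⟩ := D.exists_Ps hw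
    exact ⟨y, sub_eq_zero.1 (D.Ps_nul h (u := u - DD w) e (hβ.sub (D.Ps_d hX hy)))⟩
  have h5 := D.Ps_dg hX hu hβ
  cases k with
  | zero =>
    have h6 : β = 0 := by rw [← h5, e]; exact LinearMap.congr_fun hok.dg0_d y
    exact ⟨0, zero_mem _, by simpa using mem_Nl.1 (D.Ps_inj h hu (h6 ▸ hβ))⟩
  | succ k =>
    obtain ⟨a, ha, h6⟩ := D.Ps_surj h hX (k := k) (β := X.dg k y)
      (LinearMap.congr_fun ((hok.dg_mul k k).trans (if_pos rfl)) y)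
    have h7 : β - X.d (X.dg k y) = 0 := by
      rw [← h5, e]; exact sub_eq_zero.2 (LinearMap.congr_fun (hok.dg_d k) y)
    have h8 := hβ.sub (D.Ps_d hX h6)
    rw [h7] at h8
    have h9 : u - DD a ∈ Ak ((k : ℤ) + 1) := sub_mem (by exact_mod_cast hu) (DD_Ak ha)
    exact ⟨a, by simpa using ha, mem_Nl.1 (D.Ps_inj h h9 h8)⟩

theorem Mdl.krep (D : Mdl C ε b σ p) (h : SubC C n) {Y : PS} {π : C → Y.X} (hπ : IsProj π)
    (hC : C.Nonempty) (hX : RealX X) (hok : X.OK) {w} {K : KP X} (hK : RealK w K)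
    (hw : ∀ e m, At e m → (P281Z.Hg.Lw (w e (e m))).mulVec (P299.IX.Fock.ev ∅) =
      ps σ kap e (e m)) {o : SG n M} (ho : Ps σ oneS o) :
    KRep K Y (fun k β c => ∃ u, ∃ hu : u ∈ (dR h).sh.gl.Z k, Ps σ u β ∧
      cmp h hπ k (Hdg.Cx.cl u hu) = c) o (kcl h hπ) := by
  have hσ : ∀ e m, At e m → DifferentiableAt ℝ (σ e) (e m) := fun e m a =>
    (D.an e m a).differentiableAt.restrictScalars ℝ
  refine ⟨?_, ?_, ?_, ?_, ?_, ?_, ⟨_, oneS_Z h, ho, cmp_one h hπ _⟩,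
    Ps_unique (CL_oneS ▸ Ps_cj hX hσ ho) ho, fun e => ?_, ?_⟩
  · rintro k β _ ⟨u, hu, h1, -⟩
    exact ⟨D.Ps_nul h ((dR_Z h).1 hu).2 (D.Ps_d hX h1), D.Ps_dg hX hu.1 h1⟩
  · rintro k β _ ⟨u, hu, -, rfl⟩
    exact (cmp_range h hπ).1 ⟨_, rfl⟩
  · rintro k β _ γ _ s ⟨u, hu, h1, rfl⟩ ⟨v, hv, h2, rfl⟩
    exact ⟨u - s • v, sub_mem hu (Submodule.smul_mem _ s hv), h1.sub (Ps_smul s h2), by
      rw [← map_smul, ← map_sub]; rfl⟩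
  · rintro k β _ ⟨u, hu, h1, rfl⟩
    rw [map_eq_zero_iff _ (cmp_inj h hπ), Hdg.Cx.cl_eq_zero, D.B_iff h hX hok hu.1 h1]
  · rintro k β _ ⟨u, hu, h1, rfl⟩
    obtain ⟨h2, e⟩ := cmp_cast h hπ (l := (k + 2 : ℕ)) (by omega) (ML_Z h (kap_Z h) hu)
    exact ⟨_, h2, Ps_L hK hw h1, e.trans (cmp_mul h hπ _ hu)⟩
  · rintro k β _ ⟨u, hu, h1, rfl⟩
    exact ⟨_, _, Ps_cj hX hσ h1, cmp_CL h hπ hu⟩
  · exact one_notMem_nul (D.Ps_inj h oneS_Ak (e ▸ ho) _ hC.some_mem)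
  · rintro k β _ l γ _ ⟨u, hu, h1, rfl⟩ ⟨v, hv, h2, rfl⟩
    obtain ⟨θ, h3⟩ := D.exists_Ps (ML_Ak ((dR_Z h).1 hu).1 ((dR_Z h).1 hv).1)
    obtain ⟨h4, e⟩ := cmp_cast h hπ (l := (k + l : ℕ)) (by omega) (ML_Z h hu hv)
    exact ⟨θ, ⟨_, h4, h3, e.trans (cmp_mul h hπ hu hv)⟩,
      Ps_Q hX (D.Ps_dg hX hu.1 h1) h1 h2 h3 ho⟩

/-- **The Hodge-Riemann relations**, relative to the volume. -/
theorem SubC.hr (h : SubC C n) {Y : PS} {π : C → Y.X} (hπ : IsProj π) (hn : Y.n = n)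
    (con : ∀ x : H Y.X, H.IsDeg 0 x → ∃ c : ℂ, x = c • 1) (hC : C.Nonempty) :
    Y.J (kcl h hπ ^ n) ≠ 0 ∧ ∀ p q : ℕ, p + q = n → ∀ x ∈ HT C π p q, x ≠ 0 → kcl h hπ * x = 0 →
      ∃ t : ℝ, 0 < t ∧ (-1) ^ ((p + q) * (p + q - 1) / 2) * Complex.I ^ p * (-Complex.I) ^ q *
        Y.J (x * cj x) = t * Y.J (kcl h hπ ^ n) := by
  obtain ⟨M, _, _, _, _, ε, b, σ, p', D⟩ := exists_mdl h
  obtain ⟨w, hw, e⟩ := D.exists_fs h
  obtain ⟨X, K, hX, hok, hK, h1, h2, h3, h4⟩ := kahler_all hw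
  obtain ⟨o, ho⟩ := D.exists_Ps oneS_Ak
  have r := D.krep h hπ hC hX hok hK e ho
  refine ⟨r.J_pow hok h1 h2 hn con, fun p q k x hx => ?_⟩
  obtain ⟨u, hu, h5, rfl⟩ := (mem_HT_iff h hπ).1 hx
  obtain ⟨β, hβ⟩ := D.exists_Ps hu.1
  obtain ⟨h6, h7⟩ := cmp_cast h hπ (l := n) (by omega) hu
  refine r.hr hok h1 h2 hn con h3 h4 k ⟨u, h6, hβ, h7⟩ (sub_eq_zero.1 (D.Ps_nul h
    (h.zero_nl fun y hy => sub_eq_zero.2 (pt_self (h5.1.1 y hy).1))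
    ((D.Ps_PT hK hu.1 hβ).sub hβ)))

end Vale.Agent.P287Q.Hb
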