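import Vale.Agent.P269.Hdg.G5c
import Vale.Agent.P281Z.Hg.One
import Vale.Agent.P299.H863.LocR
import Vale.Agent.P299.H863.LocC

/-!
# Smooth Hodge theory (copy with local instances), mixed Hodge block, part M1: smooth Hodge theory, definitions and rows
-/

open scoped Manifold ContDiff Topology ENNReal NNReal
open Set Filter Metric MeasureTheory
open Vale.Agent.P363.R.Sob Vale.Agent.P299.H863 Vale.Agent.P272.K Vale.Agent.P281Z.Hg

noncomputable section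

namespace Vale.Agent.P287Q.KM

section loc

variable {E : Type} [NormedAddCommGroup E] [NormedSpace ℝ E] [MeasurableSpace E] (μ : Measure E)
  {ι : Type} [Fintype ι] (e : ι → E) {V W : Type} [NormedAddCommGroup V] [NormedSpace ℝ V]
  [NormedAddCommGroup W] [NormedSpace ℝ W]

/-- locally square integrable -/
def LL (f : E → V) : Prop := ∀ K : Set E, IsCompact K → MemLp f 2 (μ.restrict K)

/-- weak derivatives up to order `k` are locally square integrable -/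
def Sob : ℕ → (E → V) → Prop
  | 0, f => LL μ f
  | k + 1, f => LL μ f ∧ ∀ i, ∃ g : E → V, IsWD μ (e i) f g ∧ Sob k g

/-- the inequality of Garding for `∑ j, M j ∂_j` near every point -/
def Gar (M : ι → E → V →L[ℝ] W) : Prop :=
  ∀ x₀ : E, ∃ r : ℝ, 0 < r ∧ ∃ C : ℝ≥0, ∀ φ : E → V, ContDiff ℝ ∞ φ → HasCompactSupport φ →
    tsupport φ ⊆ ball x₀ r → ∀ i, eLpNorm (fun x => fderiv ℝ φ x (e i)) 2 μ ≤
      C * (eLpNorm (fun x => ∑ j, M j x (fderiv ℝ φ x (e j))) 2 μ + eLpNorm φ 2 μ)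

/-- `f` is a weak solution of `∑ i, ∂_i (M i f) = G` -/
def Wk (M : ι → E → V →L[ℝ] W) (f : E → V) (G : E → W) : Prop :=
  ∀ ψ : E → ℝ, Test ψ → ∫ y, ∑ i, fderiv ℝ ψ y (e i) • M i y (f y) ∂μ = -∫ y, ψ y • G y ∂μ

/-- a positive symmetric form -/
def PF (B : V →L[ℝ] V →L[ℝ] ℝ) : Prop := (∀ u v, B u v = B v u) ∧ ∀ v, v ≠ 0 → 0 < B v v

/-- symbols of Clifford type: conformal for some positive forms -/
def Clf (σ : (E →L[ℝ] ℝ) → V → W) : Prop :=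
  ∃ (B : V →L[ℝ] V →L[ℝ] ℝ) (B' : W →L[ℝ] W →L[ℝ] ℝ), PF B ∧ PF B' ∧
    ∀ ξ, ξ ≠ 0 → ∃ c : ℝ, 0 < c ∧ ∀ v, B' (σ ξ v) (σ ξ v) = c * B v v

/-- the symbol of the first order operator `fo a b` -/
def sym (a : (E →L[ℝ] V) →L[ℝ] W) (ξ : E →L[ℝ] ℝ) (v : V) : W := a (ξ.smulRight v)

end loc

/-- the standing assumptions of the local rows -/
def ForLoc (p : ∀ (E : Type) [NormedAddCommGroup E] [NormedSpace ℝ E] [FiniteDimensional ℝ E]
    [MeasurableSpace E] [BorelSpace E] (μ : Measure E) [μ.IsAddHaarMeasure] (ι : Type) [Fintype ι]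
    (_ : Module.Basis ι ℝ E) (V W : Type) [NormedAddCommGroup V] [NormedSpace ℝ V]
    [FiniteDimensional ℝ V] [NormedAddCommGroup W] [NormedSpace ℝ W] [FiniteDimensional ℝ W],
    Prop) : Prop :=
  ∀ (E : Type) [NormedAddCommGroup E] [NormedSpace ℝ E] [FiniteDimensional ℝ E]
    [MeasurableSpace E] [BorelSpace E] (μ : Measure E) [μ.IsAddHaarMeasure] (ι : Type) [Fintype ι]
    (e : Module.Basis ι ℝ E) (V W : Type) [NormedAddCommGroup V] [NormedSpace ℝ V]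
    [FiniteDimensional ℝ V] [NormedAddCommGroup W] [NormedSpace ℝ W] [FiniteDimensional ℝ W],
    p E μ ι e V W

/-- row CLG -/
def CLG : Prop := ForLoc fun E _ _ _ _ _ μ _ ι _ e V W _ _ _ _ _ _ =>
  ∀ M : ι → E → V →L[ℝ] W, (∀ i, Continuous (M i)) →
    (∀ y, Clf fun (ξ : E →L[ℝ] ℝ) v => ∑ i, ξ (e i) • M i y v) → Gar μ e M

/-- row LRK -/
def LRK : Prop := ForLoc fun E _ _ _ _ _ μ _ ι _ e V W _ _ _ _ _ _ =>
  ∀ M : ι → E → V →L[ℝ] W, (∀ i, ContDiff ℝ ∞ (M i)) → Gar μ e M →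
    ∀ (k : ℕ) (f : E → V) (G : E → W), LL μ f → Sob μ e k G → Wk μ e M f G → Sob μ e (k + 1) f

/-- row SMO -/
def SMO : Prop := ForLoc fun E _ _ _ _ _ μ _ _ _ e V _ _ _ _ _ _ _ =>
  ∀ f : E → V, (∀ k, Sob μ e k f) → ∃ g : E → V, ContDiff ℝ ∞ g ∧ f =ᵐ[μ] g

/-- row LREG: local regularity of limits -/
def LREG : Prop := ForLoc fun E _ _ _ _ _ μ _ _ _ _ V W _ _ _ _ _ _ =>
  ∀ (U : Set E) (a : E → (E →L[ℝ] V) →L[ℝ] W) (b : E → V →L[ℝ] W) (u : ℕ → E → V) (F : E → V)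
    (f : E → W), IsOpen U → ContDiffOn ℝ ∞ a U → ContDiffOn ℝ ∞ b U → (∀ x ∈ U, Clf (sym (a x))) →
    (∀ k, ContDiffOn ℝ ∞ (u k) U) → MemLp F 2 μ → ContDiffOn ℝ ∞ f U →
    (∀ ψ : E → ℝ, TestV U ψ →
      Tendsto (fun k => n2 μ fun z => ψ z • (u k z - F z)) atTop (𝓝 0) ∧
      Tendsto (fun k => n2 μ fun z => ψ z • (fo a b (u k) z - f z)) atTop (𝓝 0)) →
    ∃ g : E → V, ContDiffOn ℝ ∞ g U ∧ ∀ᵐ z ∂μ, z ∈ U → F z = g z

/-- row LGAR: the inequality of Garding on compact sets -/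
def LGAR : Prop := ForLoc fun E _ _ _ _ _ μ _ _ _ _ V W _ _ _ _ _ _ =>
  ∀ (U K : Set E) (a : E → (E →L[ℝ] V) →L[ℝ] W) (b : E → V →L[ℝ] W), IsOpen U → IsCompact K →
    K ⊆ U → ContDiffOn ℝ ∞ a U → ContDiffOn ℝ ∞ b U → (∀ x ∈ U, Clf (sym (a x))) →
    ∃ C : ℝ, 0 ≤ C ∧ ∀ φ : E → V, ContDiff ℝ ∞ φ → tsupport φ ⊆ K →
      n2 μ (fderiv ℝ φ) ≤ C * (n2 μ (fo a b φ) + n2 μ φ)

/-- row GREG: regularity and compactness on a compact manifold -/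
def GREG : Prop := ∀ (E ι V S : Type) [NormedAddCommGroup E] [NormedSpace ℝ E]
  [FiniteDimensional ℝ E] [MeasurableSpace E] [BorelSpace E] [Fintype ι] (μ : Measure E)
  [μ.IsAddHaarMeasure] (c : Cov E ι) [NormedAddCommGroup V] [InnerProductSpace ℂ V]
  [FiniteDimensional ℂ V] [NormedAddCommGroup S] [InnerProductSpace ℂ S] (L : LocSp μ c V S)
  (D : S →ₗ[ℂ] S) (A : LocOp L L D), (∀ i, ∀ x ∈ c.Ω i, Clf (sym (A.a i x))) →
  (∀ (w : ℕ → S) (f : S), CauchySeq w → Tendsto (fun k => D (w k)) atTop (𝓝 f) →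
    ∃ s, Tendsto w atTop (𝓝 s)) ∧
  ∀ C : ℝ, TotallyBounded {s : S | ‖s‖ ≤ C ∧ ‖D s‖ ≤ C}

/-- row SYM: the symbol of `d + d*` -/
def SYM : Prop := ∀ (d : ℕ) (M : Type) [TopologicalSpace M] [ChartedSpace (Cm d) M] [T2Space M]
  [CompactSpace M] [IsManifold 𝓘(ℂ, Cm d) ω M] (X : Cx (SF d M) d)
  (w : Rw d M (Matrix (Fin d) (Fin d) ℂ)) (K : KP X), RealX X → IsKahler w → RealK w K →
  ∀ e ∈ atlas (Cm d) M, ∃ (a : Cm d → (Cm d →L[ℝ] Ws.Vd d) →L[ℝ] Ws.Vd d)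
    (b : Cm d → Ws.Vd d →L[ℝ] Ws.Vd d), ContDiffOn ℝ ∞ a e.target ∧ ContDiffOn ℝ ∞ b e.target ∧
    (∀ u, ∀ z ∈ e.target, Ws.rE ((X.d + K.ds) u) e z = fo a b (Ws.rE u e) z) ∧
    ∀ z ∈ e.target, Clf (sym (a z))

section abs

variable {S : Type} [AddCommGroup S] [Module ℂ S] {D : ℕ} {X : Cx S D} (K : KP X)

/-- regularity -/
def RG : Prop := ∀ (u : ℕ → S) (f : S), K.Cau u → (K.Null fun s => (X.d + K.ds) (u s) - f) →
  ∃ v, K.Null fun s => u s - v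

/-- compactness -/
def RL : Prop := ∀ (u : ℕ → S) (C : ℝ),
  (∀ s, K.nrm (u s) ≤ C ∧ K.nrm ((X.d + K.ds) (u s)) ≤ C) →
  ∃ φ : ℕ → ℕ, StrictMono φ ∧ K.Cau fun s => u (φ s)

/-- harmonic forms -/
def Hm : Submodule ℂ S := LinearMap.ker (X.d + K.ds)

/-- the Hodge decomposition of smooth forms -/
def HD : Prop := FiniteDimensional ℂ (Hm K) ∧
  ∀ a, ∃ h ∈ Hm K, ∃ b, a = h + (X.d + K.ds) ((X.d + K.ds) b)

end abs

/-- the lemma of the two differentials -/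
structure DD {S : Type} [AddCommGroup S] [Module ℂ S] (A B : Module.End ℂ S) : Prop where
  AA : A * A = 0
  BB : B * B = 0
  AB : A * B = -(B * A)
  l1 : ∀ b, A (B b) = 0 → ∃ c, B b = A (B c)
  l2 : ∀ b, B (A b) = 0 → ∃ c, A b = A (B c)

/-- row HDA: the Hodge decomposition from regularity and compactness -/
def HDA : Prop := ∀ (S : Type) [AddCommGroup S] [Module ℂ S] (D : ℕ) (X : Cx S D) (K : KP X),
  K.OK → K.KIa → K.KIb → RG K → RL K → HD K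

/-- row DDA: the lemma of the two differentials, finiteness, duality -/
def DDA : Prop := ∀ (S : Type) [AddCommGroup S] [Module ℂ S] (D : ℕ) (X : Cx S D) (K : KP X),
  K.OK → K.KIa → K.KIb → HD K → DD K.A K.Ab ∧
    (∀ h ∈ Hm K, K.A h = 0 ∧ K.Ab h = 0 ∧ K.As h = 0 ∧ K.Abs h = 0) ∧
    (∀ a, K.A a = 0 → ∃ h ∈ Hm K, ∃ b, a = h + K.A b) ∧
    (∀ a, K.Ab a = 0 → ∃ h ∈ Hm K, ∃ b, a = h + K.Ab b) ∧
    (∀ a, X.d a = 0 → ∃ h ∈ Hm K, ∃ b, a = h + X.d b) ∧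
    (∀ h ∈ Hm K, ∀ b, (h = K.A b ∨ h = K.Ab b ∨ h = X.d b) → h = 0) ∧
    ∀ z ∈ X.Nul, ∃ b, z = X.d b

/-- row GLB: every compact Kaehler manifold has all of it -/
def GLB : Prop := ∀ (d : ℕ) (M : Type) [TopologicalSpace M] [ChartedSpace (Cm d) M] [T2Space M]
  [CompactSpace M] [IsManifold 𝓘(ℂ, Cm d) ω M] (X : Cx (SF d M) d)
  (w : Rw d M (Matrix (Fin d) (Fin d) ℂ)) (K : KP X), RealX X → IsKahler w → RealK w K →
  K.OK ∧ K.KIa ∧ K.KIb ∧ RG K ∧ RL K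

end Vale.Agent.P287Q.KM
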