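import Vale.Agent.P275HG.Abs
import Vale.Agent.P287Q.Hb.K5

/-!
# Smooth Hodge theory (copy with local instances), mixed Hodge block, row HDA
-/

set_option linter.all false

open scoped Topology
open Filter

noncomputable section

namespace Vale.Agent.P287Q.KHG

open Vale.Agent.P281Z.Hg Vale.Agent.P281Z.Hg.Ws Vale.Agent.P287Q.KM Vale.Agent.P275HG
  Vale.Agent.P269.G5c Vale.Agent.P269.G5c.Ws

attribute [local instance] P269.G5c.Ws.swA P269.G5c.Ws.swM P269.G5c.Ws.swN P269.G5c.Ws.swI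

variable {S : Type} [AddCommGroup S] [Module ℂ S] {D : ℕ} {X : Cx S D} {K : KP X}

theorem cau_iff (h : K.Alg ∧ K.KIa) (u : ℕ → Sw h) : K.Cau u ↔ CauchySeq u := by
  rw [Metric.cauchySeq_iff]
  exact forall₂_congr fun ε _ => exists_congr fun N => forall₂_congr fun r _ =>
    forall₂_congr fun s _ => by rw [dist_eq_norm]; rfl

theorem null_iff (h : K.Alg ∧ K.KIa) (u : ℕ → Sw h) (v : Sw h) :
    (K.Null fun s => (u s - v : Sw h)) ↔ Tendsto u atTop (𝓝 v) :=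
  (tendsto_iff_norm_sub_tendsto_zero (f := u) (b := v)).symm

theorem ell (h : K.Alg ∧ K.KIa) (ws : K.WS) (rg : RG K) (rl : RL K) : Ell (Dw h) where
  adj := Dw_adj h
  rg w f h1 h2 := by
    obtain ⟨v, hv⟩ := rg w f ((cau_iff h w).2 h1) ((null_iff h (fun k => Dw h (w k)) f).2 h2)
    exact ⟨v, (null_iff h w v).1 hv⟩
  rl u C h1 := by
    obtain ⟨φ, h2, h3⟩ := rl u C h1
    exact ⟨φ, h2, (cau_iff h fun s => u (φ s)).1 h3⟩
  ws u h1 h2 := ws u ((cau_iff h u).2 h1) h2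

theorem hd_of (h : K.Alg ∧ K.KIa) (ws : K.WS) (rg : RG K) (rl : RL K) : HD K :=
  ⟨(ell h ws rg rl).fin, (ell h ws rg rl).dec⟩

/-- row HDA -/
theorem hda : HDA := fun _ _ _ _ _ _ h ha _ rg rl => hd_of ⟨h.alg, ha⟩ h.ws rg rl

/-- the inequality of Poincare -/
theorem poinc (h : K.Alg ∧ K.KIa) (ws : K.WS) (rg : RG K) (rl : RL K) :
    ∃ C : ℝ, 0 ≤ C ∧ ∀ a, (∀ k ∈ Hm K, K.ip k a = 0) → K.nrm a ≤ C * K.nrm ((X.d + K.ds) a) := by
  obtain ⟨C, h1, h2⟩ := (ell h ws rg rl).poinc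
  exact ⟨C, h1, fun a ha => h2 a ((Submodule.mem_orthogonal _ _).2 ha)⟩

/-- closed limits are cohomologous to harmonic forms -/
theorem s1_of (hX : X.OK) (h : K.Alg ∧ K.KIa) (hb : K.KIb) (ws : K.WS) (rg : RG K) (rl : RL K) :
    K.S1 := by
  intro u hu hd
  obtain ⟨C, hC, hP⟩ := poinc h ws rg rl
  choose k hk b e using fun s => (hd_of h ws rg rl).2 (u s)
  have e1 : ∀ s, u s = k s + (K.ds (X.d (b s)) + X.d (K.ds (b s))) := fun s => by
    rw [e s, KFM.Dda.sqD hX h.1 h.2]; rfl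
  have o1 : ∀ k ∈ Hm K, ∀ y, K.ip k (K.ds y) = 0 := fun k hk y => by
    rw [h.1.herm, ← h.2.adjd, (KFM.Dda.harm_d h.1 hb hk).1, Ab0b.ip_zero_r h.2, star_zero]
  have o2 : ∀ k ∈ Hm K, ∀ y, K.ip k (X.d y) = 0 := fun k hk y => by
    rw [h.2.adjd, (KFM.Dda.harm_d h.1 hb hk).2, Ab0b.ip_zero_l h.2]
  have n1 : K.Null fun s => K.ds (X.d (b s)) := by
    refine hb.nf_le (f := fun s => C * K.nrm (X.d (u s))) (by simpa using hd.const_mul C)
      fun s => (hP _ fun k hk => o1 k hk _).trans (le_of_eq ?_)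
    rw [LinearMap.add_apply, KFM.Dda.dsds hX h.1 h.2, add_zero, e1 s, map_add, map_add, hX.dd,
      (KFM.Dda.harm_d h.1 hb (hk s)).1, zero_add, add_zero]
  have c1 : K.Cau k := by
    refine hb.cau_iff.2 (hb.nf_le (hb.cau_iff.1 hu) fun p => ?_)
    have hk2 : k p.1 - k p.2 ∈ Hm K := Submodule.sub_mem _ (hk _) (hk _)
    have e2 : u p.1 - u p.2 = (k p.1 - k p.2) +
        (K.ds (X.d (b p.1 - b p.2)) + X.d (K.ds (b p.1 - b p.2))) := by
      rw [e1 p.1, e1 p.2]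
      simp only [map_sub]
      abel
    have e3 := Ab0b.sq_add h.1 h.2 (K.ds (X.d (b p.1 - b p.2)) + X.d (K.ds (b p.1 - b p.2)))
      (k p.1 - k p.2)
    rw [h.2.ip_add_r, o1 _ hk2, o2 _ hk2, add_comm _ (k p.1 - k p.2), ← e2] at e3
    simp only [add_zero, Complex.zero_re, mul_zero] at e3
    exact le_of_sq_le_sq (by nlinarith [sq_nonneg (K.nrm (K.ds (X.d (b p.1 - b p.2)) +
      X.d (K.ds (b p.1 - b p.2))))]) (hb.nn _)
  obtain ⟨z, n2, hD⟩ : ∃ z : S, (K.Null fun s => k s - z) ∧ z ∈ Hm K := by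
    obtain ⟨z, hz, hD⟩ := (ell h ws rg rl).lim (f := 0) ((cau_iff h k).1 c1) (by
      have : ∀ s, Dw h (k s) = 0 := hk
      simp only [this]; exact tendsto_const_nhds)
    exact ⟨z, (null_iff h k z).2 hz, hD⟩
  refine ⟨z, fun s => K.ds (b s), (KFM.Dda.harm_d h.1 hb hD).1,
    (hb.nf_add n2 n1).congr fun s => ?_⟩
  rw [e1 s]; abel

end Vale.Agent.P287Q.KHG
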