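import Vale.Agent.P287Q.Hb.HRa

/-!
# Abstract Kaehler package: pure representatives, Hodge-Riemann, volume
-/

namespace Vale.Agent.P287Q.Hb

open P281Z.Hg Finset HRa

variable {S : Type} [AddCommGroup S] [Module ℂ S] {D : ℕ} {X : Cx S D} {K : KP X}

/-- Harmonic forms. -/
def Harm (K : KP X) (a : S) : Prop := X.d a = 0 ∧ K.ds a = 0

theorem ka_vol (hX : X.OK) (h : K.Alg) (ha : K.KIa) {u : S} (hu : X.dg 0 u = u) (h0 : u ≠ 0) :
    ∃ r : ℝ, 0 < r ∧ K.c * X.Q (X.cj u) ((K.L ^ D) u) = r := vol hX h ha hu h0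

variable (h : K.Alg) (ha : K.KIa) (hb : K.KIb)
include h hb

theorem KA_sq {a b : S} (e : K.nrm a ^ 2 + K.nrm b ^ 2 = 0) : a = 0 ∧ b = 0 := by
  have k : ∀ c, K.nrm c ^ 2 = 0 → c = 0 := fun c hc => h.defn c (Complex.ext
    ((hb.sq c).symm.trans hc) (Complex.conj_eq_iff_im.1 (h.herm _ _).symm))
  exact ⟨k a (by nlinarith [sq_nonneg (K.nrm a), sq_nonneg (K.nrm b)]),
    k b (by nlinarith [sq_nonneg (K.nrm a), sq_nonneg (K.nrm b)])⟩

theorem harm_iff_A {a : S} : Harm K a ↔ K.A a = 0 ∧ K.As a = 0 := by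
  have e := hb.lapA a
  refine ⟨fun k => KA_sq h hb ?_, fun k => KA_sq h hb ?_⟩
  · rw [k.1, k.2, hb.zero] at e; linarith
  · rw [e, k.1, k.2, hb.zero]; norm_num

theorem Harm.Ab {a : S} (k : Harm K a) : K.Ab a = 0 := by
  have e := hb.lapAb a
  rw [k.1, k.2, hb.zero] at e
  exact (KA_sq h hb (b := K.Abs a) (by linarith)).1

theorem harm_of {a : S} (k : (X.d + K.ds) a = 0) : Harm K a :=
  KA_sq h hb (by rw [← hb.dir, k, hb.zero]; norm_num)

include ha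

theorem Harm.pr {a : S} (k : Harm K a) (j : ℕ) : Harm K (K.pr j a) := by
  obtain ⟨h1, h2⟩ := (harm_iff_A h hb).1 k
  refine (harm_iff_A h hb).2 ⟨by rw [← KP.app (ha.prA j), h1, map_zero], ?_⟩
  cases j with
  | zero => exact KP.app0 hb.Aspr0 a
  | succ j => rw [← KP.app (hb.prAs j), h2, map_zero]

theorem Harm.dg {a : S} (k : Harm K a) (j : ℕ) : Harm K (X.dg j a) := by
  obtain ⟨h1, h2⟩ := (harm_iff_A h hb).1 k
  refine (harm_iff_A h hb).2 ⟨by rw [← KP.app (ha.dgA j), h1, map_zero], ?_⟩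
  cases j with
  | zero => exact KP.app0 hb.Asdg0 a
  | succ j => rw [← KP.app (hb.dgAs j), h2, map_zero]

theorem Harm.L {a : S} (k : Harm K a) : Harm K (K.L a) := by
  obtain ⟨h1, h2⟩ := (harm_iff_A h hb).1 k
  refine (harm_iff_A h hb).2 ⟨by rw [← KP.app ha.LA, h1, map_zero], ?_⟩
  have := LinearMap.congr_fun hb.AsL a
  rwa [LinearMap.sub_apply, Module.End.mul_apply, Module.End.mul_apply, h2, map_zero, sub_zero,
    LinearMap.smul_apply, k.Ab h hb, smul_zero] at this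

omit h hb in
theorem Harm.orth {a : S} (k : Harm K a) (y : S) : K.ip a (X.d y) = 0 := by
  rw [ha.adjd, k.2, Ab0b.ip_zero_l ha]

variable (hX : X.OK)
  (hd : ∀ a, ∃ k b, (X.d + K.ds) k = 0 ∧ a = k + (X.d + K.ds) ((X.d + K.ds) b))
include hX hd

theorem ka_harm {z : S} (hz : X.d z = 0) : ∃ k c, Harm K k ∧ z = k + X.d c := by
  obtain ⟨k, b, h1, h2⟩ := hd z
  have h3 := harm_of h hb h1
  generalize (X.d + K.ds) b = c at h2
  have h4 : X.d (K.ds c) = 0 := by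
    rw [h2, LinearMap.add_apply, map_add, map_add, h3.1, hX.dd, zero_add, zero_add] at hz
    exact hz
  have h5 : K.ds c = 0 := h.defn _ (by rw [← ha.adjd, h4, Ab0b.ip_zero_r ha])
  exact ⟨k, c, h3, by rw [h2, LinearMap.add_apply, h5, add_zero]⟩

theorem ka_dec {m : ℕ} {z : S} (hz : X.Cl m z) : ∃ (u : ℕ → S) (y : S),
    (∀ j, X.Cl m (u j) ∧ K.pr j (u j) = u j) ∧ X.dg (m - 1) y = y ∧ (m = 0 → y = 0) ∧
      z = ∑ j ∈ Finset.range (D + 1), u j + X.d y := by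
  obtain ⟨k, c, h1, h2⟩ := ka_harm h ha hb hX hd hz.1
  have h3 : ∑ j ∈ range (D + 1), K.pr j (X.dg m k) = X.dg m k := by
    rw [← LinearMap.sum_apply, h.pr_sum, Module.End.one_apply]
  have h4 : ∀ j, X.Cl m (K.pr j (X.dg m k)) ∧ K.pr j (K.pr j (X.dg m k)) = K.pr j (X.dg m k) :=
    fun j => ⟨⟨((h1.dg h ha hb m).pr h ha hb j).1, by
      rw [← KP.app (h.pr_dg j m), dg_app hX, if_pos rfl]⟩,
      LinearMap.congr_fun ((h.pr_mul j j).trans (if_pos rfl)) _⟩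
  cases m with
  | zero =>
    refine ⟨_, 0, h4, map_zero _, fun _ => rfl, ?_⟩
    rw [h3, map_zero, ← hz.2, h2, map_add, KP.app0 hX.dg0_d]
  | succ m =>
    refine ⟨_, X.dg m c, h4, (dg_app hX _ _ _).trans (if_pos rfl), fun e => absurd e m.succ_ne_zero,
      ?_⟩
    rw [h3, ← KP.app (hX.dg_d m), ← map_add, ← h2, hz.2]

theorem ka_hr {p : ℕ} {z : S} (hz : X.Cl D z) (hp : K.pr p z = z) (hL : ∃ y, K.L z = X.d y)
    (h0 : ¬∃ y, z = X.d y) :
    ∃ r : ℝ, 0 < r ∧ K.c * (Complex.I ^ D * (-1) ^ p) * X.Q (X.cj z) z = r := by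
  obtain ⟨k, c, h1, h2⟩ := ka_harm h ha hb hX hd hz.1
  obtain ⟨y, hy⟩ := hL
  have hk : k ≠ 0 := fun e => h0 ⟨c, by rw [h2, e, zero_add]⟩
  have hpD : p ≤ D := not_lt.1 fun e => h0 ⟨0, by rw [← hp, h.pr_zero p e, map_zero]; rfl⟩
  have h3 : ∀ a, Harm K a → K.ip a k = K.ip a z := fun a k1 => by
    rw [h2, ha.ip_add_r, k1.orth ha, add_zero]
  have h4 := (h1.pr h ha hb p).dg h ha hb D
  have h5 : X.dg D (K.pr p k) = k := by
    have k1 : Harm K (X.dg D (K.pr p k) - k) :=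
      ⟨by rw [map_sub, h4.1, h1.1, sub_zero], by rw [map_sub, h4.2, h1.2, sub_zero]⟩
    refine sub_eq_zero.1 (h.defn _ ?_)
    rw [Ab0b.ip_sub_r ha, ha.adjdg, ha.adjpr, h3 _ ((k1.dg h ha hb D).pr h ha hb p), ← ha.adjpr,
      ← ha.adjdg, hp, hz.2, h3 _ k1, sub_self]
  have h6 : K.L k = 0 := h.defn _ (by
    have : K.L k = X.d (y - K.L c) := by
      rw [map_sub, ← hy, ← KP.app h.Ld, ← map_sub, h2, add_sub_cancel_right]
    nth_rw 2 [this]
    exact (h1.L h ha hb).orth ha _)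
  have h7 : (-K.Lm) k = 0 := by
    have k1 := nrm_Lm hX h ha (a := k) (by rw [← h5, dg_app hX, if_pos rfl])
    rw [h6, hb.zero] at k1
    rw [LinearMap.neg_apply, (KA_sq h hb (a := K.Lm k) (b := 0) (by
      rw [k1, hb.zero]; norm_num)).1, neg_zero]
  have h8 : ∀ T : Module.End ℂ S, T k = 0 → ex (D + D + 2) T k = k := fun T e => by
    rw [ex_succ, LinearMap.add_apply, Module.End.mul_apply, e, map_zero, add_zero]; rfl
  have h9 : K.W k = k := by
    rw [KP.W, wy, Module.End.mul_apply, Module.End.mul_apply, h8 _ h6, h8 _ h7, h8 _ h6]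
  have e1 := C_app hX h (Nat.le_add_right D D) hpD k
  rw [h5] at e1
  have e2 : X.Q (X.cj z) z = X.Q (X.cj k) k := by
    have k1 : X.Q (X.cj k) (X.d c) = 0 := by
      rw [← neg_eq_zero, ← hX.Qd, ← hX.cjd, h1.1, map_zero, map_zero, LinearMap.zero_apply]
    nth_rw 1 [h2]
    rw [map_add, map_add, LinearMap.add_apply, hX.cjd, hX.Qd, hz.1, map_zero, neg_zero, add_zero,
      h2, map_add, k1, add_zero]
  have e3 : ((K.ip k k).re : ℂ) = K.ip k k :=
    Complex.ext rfl (by rw [Complex.conj_eq_iff_im.1 (h.herm _ _).symm, Complex.ofReal_im])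
  refine ⟨(K.ip k k).re, lt_of_le_of_ne (h.pos k) fun e => hk (h.defn k (by
    rw [← e3, ← e, Complex.ofReal_zero])), ?_⟩
  rw [e3, e2, KP.ip, e1, map_smul, h9, map_smul, smul_eq_mul, mul_assoc]

end Vale.Agent.P287Q.Hb
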