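import Vale.Agent.P287Q.Hb.D2
import Vale.Agent.P287Q.Pv.Prm
import Vale.Agent.P269.Hdg.ExM2
import Vale.Agent.P299.H223.FS

/-!
# The projectivisation of a smooth cone is a compact Kaehler manifold
-/

namespace Vale.Agent.P287Q.Hb

open scoped Manifold ContDiff
open Set Function Topology Filter P269 P269.Holo P269.Hdg P269.Hdg.Ex
open Vale.Agent.P272.K (Cm Chart At IsKahler)

variable {N n : ℕ} {C : Set (E N)}

namespace MdlH

theorem exists_cone_prm (h : SubC C n) {x : E N} (hx : x ∈ C) :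
    ∃ τ : (Fin n → ℂ) → E N, AnalyticAt ℂ τ 0 ∧ τ 0 = x ∧
      Prm C (fun p : ℂ × (Fin n → ℂ) => p.1 • τ p.2) (1, 0) := by
  obtain ⟨ψ, h1, h2⟩ := (h.mfd x hx).prm
  have r : HasFDerivAt (fun t : ℂ => t • x) ((ContinuousLinearMap.id ℂ ℂ).smulRight x) 1 :=
    (hasFDerivAt_id (1 : ℂ)).smul_const x
  obtain ⟨k, -, -, -, k4⟩ := h1.lift (u := fun t : ℂ => t • x) (z := 1)
    ((one_smul ℂ x).trans h2.symm) (analyticAt_id.smul analyticAt_const)
    ((eventually_ne_nhds (one_ne_zero (α := ℂ))).mono fun t ht => h.inv t ht x hx)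
  have k5 : ∀ a, fderiv ℂ ψ 0 (fderiv ℂ k 1 a) = a • x := fun a => by
    have := DFunLike.congr_fun k4 a
    rw [r.fderiv] at this
    exact this.symm
  obtain ⟨i, hb⟩ := exists_compl_range (n := n) (fderiv ℂ k 1) (fun a b e =>
    smul_left_injective ℂ (h.ne x hx) (by simp only [← k5, e])) (by simp [add_comm])
  have e0 : ψ (i 0) = x := by rw [map_zero, h2]
  have a1 : AnalyticAt ℂ ψ (i 0) := by rw [map_zero]; exact h1.an
  have a2 : AnalyticAt ℂ (fun z => ψ (i z)) 0 := a1.comp (i.analyticAt 0)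
  have a3 : AnalyticAt ℂ (fun p : ℂ × (Fin n → ℂ) => ψ (i p.2)) (1, 0) :=
    a2.comp (f := Prod.snd) (x := ((1 : ℂ), (0 : Fin n → ℂ))) analyticAt_snd
  refine ⟨fun z => ψ (i z), a2, e0, .of_injective (h.mfd x hx) ((one_smul ℂ _).trans e0)
    (analyticAt_fst.smul a3) ?_ ?_ (by simp [add_comm])⟩
  · have m : ∀ᶠ z in 𝓝 (0 : Fin n → ℂ), ψ (i z) ∈ C :=
      i.continuous.continuousAt.eventually (by rw [map_zero]; exact h1.mem)
    filter_upwards [(continuousAt_snd (p := ((1 : ℂ), (0 : Fin n → ℂ)))).eventually m,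
      (continuousAt_fst (p := ((1 : ℂ), (0 : Fin n → ℂ)))).eventually_ne one_ne_zero] with p a b
    exact h.inv _ b _ a
  · have d1 : HasFDerivAt (fun p : ℂ × (Fin n → ℂ) => ψ (i p.2))
        ((fderiv ℂ ψ 0).comp (i.comp (ContinuousLinearMap.snd ℂ ℂ _))) (1, 0) :=
      HasFDerivAt.comp (g := ψ) _ (by
        show HasFDerivAt ψ _ (i 0)
        rw [map_zero]; exact h1.an.differentiableAt.hasFDerivAt)
        (i.comp (ContinuousLinearMap.snd ℂ ℂ _)).hasFDerivAt
    rw [(hasFDerivAt_fst.fun_smul d1).fderiv]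
    have e : ∀ q : ℂ × (Fin n → ℂ), ((1 : ℂ) • (fderiv ℂ ψ 0).comp
        (i.comp (ContinuousLinearMap.snd ℂ ℂ _)) +
        (ContinuousLinearMap.fst ℂ ℂ (Fin n → ℂ)).smulRight (ψ (i 0))) q =
        fderiv ℂ ψ 0 ((fderiv ℂ k 1).coprod i q) := fun q => by
      rw [ContinuousLinearMap.coprod_apply, map_add, k5, e0, one_smul, add_comm (q.1 • x)]
      rfl
    intro q q' hq
    exact hb.1 (h1.imm ((e q).symm.trans (Eq.trans hq (e q'))))

/-- The affine slice `lf x = 1` of the cone is parametrised near `x`. -/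
theorem exists_slice (h : SubC C n) {x : E N} (hx : x ∈ C) :
    ∃ (a : E N → Cm n) (σ : Cm n → E N) (U : Set (E N)) (V : Set (Cm n)),
      IsOpen U ∧ IsOpen V ∧ x ∈ U ∧ (∀ y ∈ U, AnalyticAt ℂ a y) ∧
      (∀ z ∈ V, AnalyticAt ℂ σ z ∧ σ z ∈ U ∧ σ z ∈ C ∧ lf x (σ z) = 1 ∧ a (σ z) = z) ∧
      ∀ y ∈ U, y ∈ C → lf x y = 1 → a y ∈ V ∧ σ (a y) = y := by
  obtain ⟨τ, t1, t2, P⟩ := exists_cone_prm h hx
  obtain ⟨w, w1, w2, w3, w4⟩ := P.exists_inv
  simp only [one_smul, t2] at w1 w2 w4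
  have l1 : lf x (τ 0) = 1 := by rw [t2, lf_self (h.ne x hx)]
  have l2 : AnalyticAt ℂ (fun z => lf x (τ z)) 0 := ((lf x).analyticAt _).comp t1
  have l3 : ∀ᶠ z in 𝓝 0, lf x (τ z) ≠ 0 :=
    l2.continuousAt.eventually_ne (by rw [l1]; exact one_ne_zero)
  have l4 : Tendsto (fun z => ((lf x (τ z))⁻¹, z)) (𝓝 0) (𝓝 ((1 : ℂ), (0 : Fin n → ℂ))) := by
    have := ((l2.inv (by rw [l1]; exact one_ne_zero)).continuousAt.prodMk continuousAt_id).tendsto
    simpa [l1] using this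
  have s1 : AnalyticAt ℂ (fun z => cpr x (τ z)) 0 :=
    (an_cpr (by rw [l1]; exact one_ne_zero)).comp t1
  have c1 : Tendsto (fun y => (w y).1) (𝓝 x) (𝓝 1) := by
    have := (analyticAt_fst.comp w1).continuousAt.tendsto
    rwa [Function.comp_apply, w2] at this
  obtain ⟨U, hU, oU, mU⟩ := eventually_nhds_iff.1 ((analyticAt_snd.comp w1).eventually_analyticAt.and
    (w4.and (c1.eventually_ne one_ne_zero)))
  obtain ⟨V, hV, oV, mV⟩ := eventually_nhds_iff.1 (s1.eventually_analyticAt.and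
    (l3.and (l4.eventually (P.mem.and w3))))
  have cU : ContinuousOn (fun y => (w y).2) U := fun y hy =>
    (hU y hy).1.continuousAt.continuousWithinAt
  have cV : ContinuousOn (fun z => cpr x (τ z)) V := fun z hz =>
    (hV z hz).1.continuousAt.continuousWithinAt
  have q : ∀ z ∈ V, (w (cpr x (τ z))).2 = z := fun z hz => congrArg Prod.snd (hV z hz).2.2.2
  refine ⟨fun y => (w y).2, fun z => cpr x (τ z), U ∩ (fun y => (w y).2) ⁻¹' V,
    V ∩ (fun z => cpr x (τ z)) ⁻¹' U, cU.isOpen_inter_preimage oU oV,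
    cV.isOpen_inter_preimage oV oU, ⟨mU, ?_⟩, fun y hy => (hU y hy.1).1,
    fun z hz => ⟨(hV z hz.1).1, ⟨hz.2, ?_⟩, (hV z hz.1).2.2.1, M2.lf_cpr (hV z hz.1).2.1,
      q z hz.1⟩, fun y hy c l => ?_⟩
  · show (w x).2 ∈ V
    rw [w2]; exact mV
  · show (w (cpr x (τ z))).2 ∈ V
    rw [q z hz.1]; exact hz.1
  · have e : cpr x (τ (w y).2) = y := by
      rw [← cpr_smul (hU y hy.1).2.2, (hU y hy.1).2.1 c, cpr, l, inv_one, one_smul]
    exact ⟨⟨hy.2, by show cpr x (τ (w y).2) ∈ U; rw [e]; exact hy.1⟩, e⟩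

variable (C) in
/-- The projectivisation of the cone. -/
abbrev PC : Type := {t : TT N // ∃ y ∈ C, prP y = t}

/-- The chart `e` is induced by `p`, and `σ` is a section over it. -/
def Gd (e : Chart n (PC C)) (x : E N) (σ : Cm n → E N) (p : E N → Cm n) : Prop :=
  ∀ m ∈ e.source, AnalyticAt ℂ σ (e m) ∧ σ (e m) ∈ C ∧ prP (σ (e m)) = m.1 ∧
    lf x (σ (e m)) = 1 ∧ ∀ y ∈ C, prP y = m.1 → AnalyticAt ℂ p y ∧ p y = e m

open M2 in
theorem exists_chart (h : SubC C n) (m₀ : PC C) :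
    ∃ e : Chart n (PC C), (∃ x σ p, Gd e x σ p) ∧ m₀ ∈ e.source := by
  classical
  obtain ⟨_, x, hx, rfl⟩ := m₀
  obtain ⟨a, σ, U, V, hU, hV, hxU, h0, h1, h2⟩ := exists_slice h hx
  have cg : Continuous fun m : PC C => app m.1 x :=
    (show Continuous fun b : TT N => app b x by unfold app; fun_prop).comp continuous_subtype_val
  have cc : ContinuousOn (fun m : PC C => cpr x (app m.1 x)) {m | lf x (app m.1 x) ≠ 0} :=
    fun m hm => ((an_cpr hm).continuousAt.comp (f := fun m : PC C => app m.1 x)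
      cg.continuousAt).continuousWithinAt
  have k1 : ∀ m : PC C, lf x (app m.1 x) ≠ 0 → cpr x (app m.1 x) ∈ C ∧
      prP (cpr x (app m.1 x)) = m.1 := by
    rintro ⟨_, y, hy, rfl⟩ hm
    obtain ⟨e1, e2⟩ := app_of_ne hm
    rw [e2]
    exact ⟨h.inv _ (inv_ne_zero e1) _ hy, prP_smul (inv_ne_zero e1) y⟩
  have k2 : ∀ m : PC C, lf x (app m.1 x) ≠ 0 ∧ cpr x (app m.1 x) ∈ U →
      a (cpr x (app m.1 x)) ∈ V ∧ σ (a (cpr x (app m.1 x))) = cpr x (app m.1 x) :=
    fun m hm => h2 _ hm.2 (k1 m hm.1).1 (lf_cpr hm.1)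
  have k3 : ∀ y, lf x y = 1 → lf x (app (prP y) x) ≠ 0 ∧ cpr x (app (prP y) x) = y := fun y hy => by
    have := app_ne (x := x) (y := y) (by rw [hy]; exact one_ne_zero)
    exact ⟨this, by rw [(app_of_ne this).2, cpr, hy, inv_one, one_smul]⟩
  let ψ : Cm n → PC C := fun z =>
    if hz : z ∈ V then ⟨prP (σ z), σ z, (h1 z hz).2.2.1, rfl⟩ else ⟨prP x, x, hx, rfl⟩
  have hψ : ∀ z ∈ V, (ψ z).1 = prP (σ z) := fun z hz => congrArg Subtype.val (dif_pos hz)
  let e : Chart n (PC C) :=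
    { toFun := fun m => a (cpr x (app m.1 x))
      invFun := ψ
      source := {m | lf x (app m.1 x) ≠ 0 ∧ cpr x (app m.1 x) ∈ U}
      target := V
      map_source' := fun m hm => (k2 m hm).1
      map_target' := fun z hz => by
        have := k3 _ (h1 z hz).2.2.2.1
        rw [← hψ z hz] at this
        exact ⟨this.1, this.2.symm ▸ (h1 z hz).2.1⟩
      left_inv' := fun m hm => Subtype.ext (by rw [hψ _ (k2 m hm).1, (k2 m hm).2, (k1 m hm.1).2])
      right_inv' := fun z hz => by rw [hψ z hz, (k3 _ (h1 z hz).2.2.2.1).2, (h1 z hz).2.2.2.2]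
      open_source := cc.isOpen_inter_preimage
        (isOpen_ne_fun ((lf x).continuous.comp cg) continuous_const) hU
      open_target := hV
      continuousOn_toFun := fun m hm => (h0 _ hm.2).continuousAt.comp_continuousWithinAt
        (f := fun m : PC C => cpr x (app m.1 x)) ((cc m hm.1).mono fun _ hm => hm.1)
      continuousOn_invFun := IsInducing.subtypeVal.continuousOn_iff.2 (ContinuousOn.congr
        (f := fun z => prP (σ z)) (fun z hz => ((sm_prP (h.ne _ (h1 z hz).2.2.1)).continuousAt.comp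
          (h1 z hz).1.continuousAt).continuousWithinAt) hψ) }
  refine ⟨e, ⟨x, σ, fun y => a (cpr x y), fun m hm => ?_⟩, ?_⟩
  · have hz := h1 _ (k2 m hm).1
    refine ⟨hz.1, hz.2.2.1, (congrArg prP (k2 m hm).2).trans (k1 m hm.1).2, hz.2.2.2.1,
      fun y _ hy => ?_⟩
    have := app_of_ne (x := x) (y := y) (hy.symm ▸ hm.1)
    have e1 : cpr x y = cpr x (app m.1 x) := by rw [← this.2, hy]
    exact ⟨(h0 _ (e1 ▸ hm.2)).comp (an_cpr this.1), congrArg a e1⟩
  · have := k3 x (lf_self (h.ne x hx))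
    exact ⟨this.1, this.2.symm ▸ hxU⟩

theorem compact (h : SubC C n) : CompactSpace (PC C) := by
  have e : {t | ∃ y ∈ C, prP y = t} = prP '' (Metric.sphere 0 1 ∩ closure C) := by
    refine Set.Subset.antisymm ?_ ?_
    · rintro _ ⟨y, hy, rfl⟩
      have := h.ne y hy
      exact ⟨_, ⟨normalize_mem this, subset_closure (h.inv _ (normalize_ne this) _ hy)⟩,
        prP_smul (normalize_ne this) y⟩
    · rintro _ ⟨y, hy, rfl⟩
      exact ⟨y, h.cl y hy.2 (ne_zero_of_sphere hy.1), rfl⟩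
  have := isCompact_image_prP (C := closure C) isClosed_closure
  rw [← e] at this
  exact isCompact_iff_compactSpace.1 this

end MdlH

theorem exists_mdl (h : SubC C n) :
    ∃ (M : Type) (_ : MetricSpace M) (_ : CompactSpace M) (_ : ChartedSpace (Cm n) M)
      (_ : IsManifold 𝓘(ℂ, Cm n) ω M) (ε : M → TT N) (b : Chart n M → E N)
      (σ : Chart n M → Cm n → E N) (p : Chart n M → E N → Cm n), Mdl C ε b σ p := by
  choose c hc hc' using MdlH.exists_chart h
  let _ : ChartedSpace (Cm n) (MdlH.PC C) := ⟨{e | ∃ x σ p, MdlH.Gd e x σ p}, c, hc', hc⟩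
  have k : ∀ e ∈ atlas (Cm n) (MdlH.PC C), ∃ x σ p, MdlH.Gd e x σ p := fun _ he => he
  choose! b σ p k using k
  have hM : IsManifold 𝓘(ℂ, Cm n) ω (MdlH.PC C) := by
    refine isManifold_of_contDiffOn _ _ _ fun e e' he he' => ?_
    have k' : ∀ z ∈ (e.symm ≫ₕ e').source, AnalyticAt ℂ (fun z => p e' (σ e z)) z ∧
        p e' (σ e z) = e' (e.symm z) := fun z hz => by
      have h1 := k e he _ (e.map_target hz.1)
      rw [e.right_inv hz.1] at h1
      have h2 := (k e' he' _ hz.2).2.2.2.2 _ h1.2.1 h1.2.2.1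
      exact ⟨h2.1.comp h1.1, h2.2⟩
    exact ContDiffOn.congr (f := fun z => p e' (σ e z))
      (fun z hz => (k' z hz.1).1.contDiffAt.contDiffWithinAt) fun z hz => (k' z hz.1).2.symm
  exact ⟨MdlH.PC C, inferInstance, MdlH.compact h, inferInstance, hM, Subtype.val, b, σ, p,
    IsEmbedding.subtypeVal, fun y hy => ⟨⟨_, y, hy, rfl⟩, rfl⟩, fun e m a => (k e a.1 m a.2).1,
    fun e m a => (k e a.1 m a.2).2.1, fun e m a => (k e a.1 m a.2).2.2.1,
    fun e m a => (k e a.1 m a.2).2.2.2.1, fun e m a y hy q => ((k e a.1 m a.2).2.2.2.2 y hy q).1,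
    fun e m a y hy q => ((k e a.1 m a.2).2.2.2.2 y hy q).2⟩

variable {M : Type} [TopologicalSpace M] [ChartedSpace (Cm n) M] [IsManifold 𝓘(ℂ, Cm n) ω M]
  {ε : M → TT N} {b : Chart n M → E N} {σ : Chart n M → Cm n → E N}
  {p : Chart n M → E N → Cm n}

namespace MdlH

omit [IsManifold 𝓘(ℂ, Cm n) ω M] in
theorem at_chart {x m : M} (hm : m ∈ (chartAt (Cm n) x).source) : At (chartAt (Cm n) x) m :=
  ⟨chart_mem_atlas _ x, hm⟩

theorem holo (D : Mdl C ε b σ p) {c e : Chart n M} {m : M} (hc : At c m) (he : At e m) :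
    ContDiffAt ℂ ω (fun z => σ c (c (e.symm z))) (e m) :=
  ContDiffAt.comp (g := σ c) _ (by rw [e.left_inv he.2]; exact (D.an c m hc).contDiffAt)
    (P272.K.transition he hc)

theorem imm (h : SubC C n) (D : Mdl C ε b σ p) {c e : Chart n M} {m : M} (hc : At c m)
    (he : At e m) (v : Cm n) (a : ℂ)
    (hv : fderiv ℂ (fun z => σ c (c (e.symm z))) (e m) v = a • σ c (c m)) : v = 0 := by
  have hp := (D.pan e m he _ (D.mem c m hc) (D.prp c m hc)).differentiableAt.hasFDerivAt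
  have h1 : (fun z => p e (σ c (c (e.symm z)))) =ᶠ[𝓝 (e m)] id := by
    filter_upwards [e.open_target.mem_nhds (e.map_source he.2),
      (e.continuousAt_symm (e.map_source he.2)).preimage_mem_nhds
        (c.open_source.mem_nhds (by rw [e.left_inv he.2]; exact hc.2))] with z hz hz'
    exact (D.peq e _ ⟨he.1, e.map_target hz⟩ _ (D.mem c _ ⟨hc.1, hz'⟩)
      (D.prp c _ ⟨hc.1, hz'⟩)).trans (e.right_inv hz)
  have h2 := (HasFDerivAt.comp (g := p e) (e m) (by rw [e.left_inv he.2]; exact hp)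
    ((holo D hc he).differentiableAt (by simp)).hasFDerivAt).unique
      ((hasFDerivAt_id (e m)).congr_of_eventuallyEq h1)
  have h3 : (fun t : ℂ => p e (t • σ c (c m))) =ᶠ[𝓝 1] fun _ => e m := by
    filter_upwards [isOpen_ne.mem_nhds (one_ne_zero (α := ℂ))] with t ht
    exact D.peq e m he _ (h.inv t ht _ (D.mem c m hc)) ((prP_smul ht _).trans (D.prp c m hc))
  have h4 := (HasFDerivAt.comp_hasDerivAt (l := p e) (1 : ℂ) (by rw [id, one_smul]; exact hp)
    ((hasDerivAt_id (1 : ℂ)).smul_const (σ c (c m)))).unique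
      ((hasDerivAt_const (1 : ℂ) (e m)).congr_of_eventuallyEq h3)
  have h5 := DFunLike.congr_fun h2 v
  rw [ContinuousLinearMap.comp_apply, hv, map_smul, ← one_smul ℂ (σ c (c m))] at h5
  rw [one_smul] at h4 h5
  rw [h4, smul_zero] at h5
  exact h5.symm

end MdlH

open MdlH P299.H223 in
/-- The metric of Fubini and Study, in any chart. -/
theorem Mdl.exists_fsM (h : SubC C n) (D : Mdl C ε b σ p) :
    ∃ w : Chart n M → Cm n → Matrix (Fin n) (Fin n) ℂ, IsKahler w ∧
      ∀ e m, At e m → w e (e m) = fsM (σ e) (e m) := by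
  let Φ : M → Projectivization ℂ (E N) := fun m => Projectivization.mk ℂ
      (σ (chartAt (Cm n) m) (chartAt (Cm n) m m))
      (h.ne _ (D.mem _ m (at_chart (mem_chart_source _ m))))
  have lift : ∀ c ∈ atlas (Cm n) M, IsLift n Φ c.source fun m => σ c (c m) := fun c hc =>
    ⟨c.open_source, fun m hm e he => holo D ⟨hc, hm⟩ he, fun m hm => h.ne _ (D.mem _ m ⟨hc, hm⟩),
      fun m hm => by
        have a := at_chart (n := n) (mem_chart_source _ m)
        obtain ⟨t, -, k⟩ := exists_smul_of_prP (h.ne _ (D.mem _ m a))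
          ((D.prp _ m ⟨hc, hm⟩).trans (D.prp _ m a).symm)
        exact (Projectivization.mk_eq_mk_iff' _ _ _ _ _).2 ⟨t, k⟩,
      fun m hm e he => imm h D ⟨hc, hm⟩ he⟩
  let L : Lifts n Φ := ⟨fun x => (chartAt (Cm n) x).source,
    fun x m => σ (chartAt (Cm n) x) (chartAt (Cm n) x m), mem_chart_source _,
    fun x => lift _ (chart_mem_atlas _ x)⟩
  refine ⟨_, L.isKahler, fun e m a => (L.fs_eq (lift e a.1) a a.2).trans ?_⟩
  refine P272.K.cHess_congr ?_
  filter_upwards [e.open_target.mem_nhds (e.map_source a.2)] with z hz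
  rw [e.right_inv hz]

theorem Mdl.exists_isKahler (h : SubC C n) (D : Mdl C ε b σ p) :
    ∃ w : Chart n M → Cm n → Matrix (Fin n) (Fin n) ℂ, IsKahler w :=
  (D.exists_fsM h).imp fun _ k => k.1

end Vale.Agent.P287Q.Hb
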