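import Vale.Agent.P287Q.Mf.Api
import Vale.Agent.P287Q.Cub.N1

/-!
# Pull-backs preserve the types; bundles generated by sections have type `(1, 1)`
-/

set_option linter.unusedSectionVars false
set_option linter.style.haveILetI false

namespace Vale.Agent.P287Q.Hb

open Set Function Topology Filter Module MvPolynomial P291Z P269 P269.Holo P269.Mono P269.Coh
  P269.Tq P269.Hdg Cub

section ty

variable {W W' Y Y' : Type} [NormedAddCommGroup W] [NormedSpace ℂ W] [NormedAddCommGroup W']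
  [NormedSpace ℂ W'] [TopologicalSpace Y] [TopologicalSpace Y'] {S : Set W} {S' : Set W'}
  {π : S → Y} {π' : S' → Y'} {p q : ℤ}

/-- **Conjugation swaps the types.** -/
theorem cj_HT {c : H Y} (hc : c ∈ HT S π p q) : cj c ∈ HT S π q p := by
  unfold HT at hc ⊢
  by_cases h0 : 0 ≤ p ∧ 0 ≤ q
  · rw [if_pos h0] at hc
    rw [if_pos h0.symm]
    exact Mf.IsHd.cj hc
  · rw [if_neg h0] at hc
    rw [(Submodule.mem_bot _).1 hc, map_zero]
    exact zero_mem _

theorem PN_HT_deg {c : H Y} (hc : c ∈ HT S π p q) : H.IsDeg (p + q) c := by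
  unfold HT at hc
  split_ifs at hc with h0
  · have := Mf.IsHd.isDeg hc
    rwa [Nat.cast_add, Int.toNat_of_nonneg h0.1, Int.toNat_of_nonneg h0.2] at this
  · exact hc ▸ (H.deg _ _).zero_mem

theorem PN_HT_neg (h : p < 0 ∨ q < 0) : HT S π p q = ⊥ := if_neg (by omega)

variable [FiniteDimensional ℂ W] [FiniteDimensional ℂ W']

theorem HolM.map_HT' (hS : ∀ x ∈ S, ∃ k, MfdAt S k x) {g : C(Y, Y')} (hg : HolM S π S' π' g)
    {c : H Y'} (hc : c ∈ HT S' π' p q) : H.map g c ∈ HT S π p q := by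
  unfold HT at hc ⊢
  split_ifs at hc ⊢ with h0
  · exact Mf.IsHd.pull_lift' hS g hg hc
  · rw [(Submodule.mem_bot _).1 hc, map_zero]
    exact zero_mem _

/-- **Holomorphic maps preserve the types.** -/
theorem HolM.map_HT (hS : ∀ x ∈ S, ∃ k, MfdAt S k x) (_hS' : ∀ x ∈ S', ∃ k, MfdAt S' k x)
    {g : C(Y, Y')} (hg : HolM S π S' π' g) {c : H Y'} (hc : c ∈ HT S' π' p q) :
    H.map g c ∈ HT S π p q :=
  hg.map_HT' hS hc

end ty

section quo

variable {A A' W W' : Type} [NormedRing A] [NormedAlgebra ℂ A] [NormedAddCommGroup W]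
  [NormedSpace ℂ W] [NormedRing A'] [NormedAlgebra ℂ A'] [NormedAddCommGroup W'] [NormedSpace ℂ W']
  [FiniteDimensional ℂ A] [FiniteDimensional ℂ W] [FiniteDimensional ℂ A'] [FiniteDimensional ℂ W']
  {act : A → W → W} {act' : A' → W' → W'} {S : Set W} {S' : Set W'} {f : W → W'} {θ : A → A'}
  [IsAct act univ] [IsAct act' univ] {n m : ℤ}

theorem _root_.Vale.Agent.P269.Tq.Hol.map_QT (h : QM act S n) (_h' : QM act' S' m)
    (φ : Tq.Hol act act' S S' θ f) {p q : ℤ}
    {c : H (Quo act' S')} (hc : c ∈ QT act' S' p q) : H.map φ.q c ∈ QT act S p q :=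
  Mf.map_mem_QT h φ hc

end quo

section PN

variable {N : ℕ} {A : Type} [NormedRing A] [NormedAlgebra ℂ A] [FiniteDimensional ℂ A]
  {act : A → E N → E N} [IsAct act univ] {χ : A → ℂ}

theorem PN_ci : IsCI (Empty.elim : Empty → MP N) Empty.elim :=
  ⟨fun j => j.elim, fun j => j.elim, fun _ _ => linearIndependent_empty_type⟩

theorem PN_cone : cone (Empty.elim : Empty → MP N) = {0}ᶜ :=
  Set.ext fun _ => and_iff_left fun j => j.elim

variable (s : Sc act χ)
include s

theorem PN_mem11 : lcq act {0}ᶜ χ ∈ QT act {0}ᶜ 1 1 :=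
  PN_cone (N := N) ▸ s.h_mem PN_ci (n := N) rfl

theorem PN_pow (k : ℕ) : lcq act {0}ᶜ χ ^ k ∈ QT act {0}ᶜ k k :=
  PN_cone (N := N) ▸ s.h_pow_mem PN_ci (n := N) rfl k

theorem PN_deg : H.IsDeg 2 (lcq act {0}ᶜ χ) :=
  haveI := s.fp
  lcq_deg s.hm

theorem PN_amb (x : H (Quo act {0}ᶜ)) : x ∈ amb (lcq act {0}ᶜ χ) := by
  revert x
  rw [← PN_cone]
  exact s.amb_P PN_ci (n := N) rfl

/-- The cohomology of projective space in even degree. -/
theorem PN_rank {k : ℕ} {x : H (Quo act {0}ᶜ)} (hx : H.IsDeg (2 * k) x) :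
    ∃ c : ℂ, x = c • lcq act {0}ᶜ χ ^ k := by
  rcases amb_deg (PN_deg s) (PN_amb s x) hx with e | ⟨j, c, e, e'⟩
  · exact ⟨0, by rw [e, zero_smul]⟩
  · exact ⟨c, (show j = k by omega) ▸ e'⟩

theorem P2_rank {x : H (Quo act {0}ᶜ)} (hx : H.IsDeg 2 x) : ∃ c : ℂ, x = c • lcq act {0}ᶜ χ := by
  simpa only [pow_one] using PN_rank s (k := 1) hx

/-- The hyperplane class is real. -/
theorem PN_cj : cj (lcq act {0}ᶜ χ) = lcq act {0}ᶜ χ := by
  obtain ⟨c, e⟩ := P2_rank s (isDeg_cj (PN_deg s))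
  cases N with
  | zero => rw [s.qmP.ps.eq_zero_of_lt (k := 2) (by simp) (PN_deg s), map_zero]
  | succ M =>
    have h : IsCI (fun i : Fin M => (X i.succ.succ : MP (M + 1))) fun _ => 1 :=
      ⟨fun i => isHomogeneous_X _ _, fun _ => le_rfl, fun x _ => by
        refine Fintype.linearIndependent_iff.2 fun g e i => ?_
        simpa [pderiv_X, Pi.single_apply] using congrFun e i.succ.succ⟩
    have hn : 1 + Fintype.card (Fin M) = M + 1 := by simp [add_comm]
    have h1 : (s.qm h hn).ps.J (lcq act _ χ) = 1 := by simpa using s.J_pow h hn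
    have h2 := (s.qm h hn).re (lcq act _ χ)
    rw [← s.map_h h hn, cj_map, e, H.map_smulC, map_smul, s.map_h h hn, h1, map_one, smul_eq_mul,
      mul_one] at h2
    rw [e, h2, one_smul]

/-- The Hodge structure of projective space. -/
theorem PN_hg : HG s.qmP.ps (QT act {0}ᶜ) := by
  have : ∀ (S : Set (E N)) (k : QM act S N), cone (Empty.elim : Empty → MP N) = S →
      HG k.ps (QT act S) := by
    rintro _ k rfl
    exact s.hg PN_ci (n := N) rfl fun _ _ _ => cj_HT
  exact this _ _ PN_cone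

end PN

theorem PN_exists_inj (V : Type) [NormedAddCommGroup V] [NormedSpace ℂ V] [FiniteDimensional ℂ V] :
    ∃ (N : ℕ) (L : V →L[ℂ] E N), Injective L :=
  have e : (V × ℂ) ≃L[ℂ] E (finrank ℂ V) := .ofFinrankEq (by simp)
  ⟨_, e.toContinuousLinearMap.comp (.inl ℂ V ℂ), e.injective.comp (Prod.mk_left_injective 0)⟩

namespace Gen

variable {A W I : Type} [NormedRing A] [NormedAlgebra ℂ A] [NormedAddCommGroup W]
  [NormedSpace ℂ W] [Fintype I] [FiniteDimensional ℂ A] [FiniteDimensional ℂ W] {act : A → W → W}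
  [IsAct act univ] {S : Set W} {χ : A → ℂ} {φ : W → I → ℂ} {n : ℤ} {N : ℕ}

/-- The map to projective space. -/
theorem holP (g : Gen act S χ φ) {L : (I → ℂ) →L[ℂ] E N} (hL : Injective L)
    (π : Fin (N + 1) → Unit) [IsAct (scl π) univ] :
    Tq.Hol act (scl π) S {0}ᶜ (fun a _ => χ a) fun x => L (φ x) :=
  .of_an ⟨funext fun _ => g.hm.one, fun a b ha hb => funext fun _ => g.hm.mul a b ha hb,
    fun a ha => continuousAt_pi.2 fun _ => g.hm.cont a ha⟩
    (fun x hx e => g.ne x hx (hL (e.trans (map_zero L).symm)))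
    (fun x hx => (L.analyticAt _).comp (g.an x hx)) fun a ha x hx => by
      rw [g.eqv a ha x hx, map_smul]; rfl

theorem exists_map (h : QM act S n) (g : Gen act S χ φ) : ∃ (N : ℕ) (π : Fin (N + 1) → Unit)
    (θ : A → Unit → ℂ) (f : W → E N) (k : haveI := N0_isAct π; Tq.Hol act (scl π) S {0}ᶜ θ f),
    H.map k.toEqh.toEqv.qm (lcq (scl π) {0}ᶜ fun t => t ()) = lcq act S χ := by
  obtain ⟨N, L, hL⟩ := PN_exists_inj (I → ℂ)
  haveI := N0_isAct fun _ : Fin (N + 1) => ()
  haveI := h.fp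
  haveI := (sc_scl fun _ : Fin (N + 1) => ()).fp
  exact ⟨N, _, _, _, g.holP hL fun _ => (),
    (g.holP hL fun _ => ()).toEqh.map_lcq (sc_scl fun _ : Fin (N + 1) => ()).hm⟩

/-- **A line bundle generated by its sections has type `(1, 1)`.** -/
theorem mem11 (h : QM act S n) (g : Gen act S χ φ) : lcq act S χ ∈ QT act S 1 1 := by
  obtain ⟨N, π, θ, f, k, e⟩ := g.exists_map h
  haveI := N0_isAct π
  exact e ▸ Mf.map_mem_QT h k (PN_mem11 (sc_scl π))

theorem pow_mem (h : QM act S n) (g : Gen act S χ φ) (j : ℕ) :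
    lcq act S χ ^ j ∈ QT act S j j := by
  obtain ⟨N, π, θ, f, k, e⟩ := g.exists_map h
  haveI := N0_isAct π
  rw [← e, ← map_pow]
  exact Mf.map_mem_QT h k (PN_pow (sc_scl π) j)

theorem cj_lcq (h : QM act S n) (g : Gen act S χ φ) : cj (lcq act S χ) = lcq act S χ := by
  obtain ⟨N, π, θ, f, k, e⟩ := g.exists_map h
  haveI := N0_isAct π
  rw [← e, cj_map, PN_cj (sc_scl π)]

end Gen

end Vale.Agent.P287Q.Hb
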