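import Vale.Agent.P287Q.Hb.DR
import Vale.Agent.P287Q.Hb.D2
import Vale.Agent.P269.Hdg.ExP3

/-!
# Basic forms on the cone and forms on the manifold
-/

set_option linter.unusedSectionVars false

namespace Vale.Agent.P287Q.Hb

open scoped Manifold ContDiff Matrix
open Topology Filter P269.Hdg P269.Hdg.Ex P269.Hdg.Ex.ExP1 P269.Hdg.Ex.ExP3
open Vale.Agent.P281Z.Hg (Fo lr jc pbk vl Rw RealX RealK KP vl_isF k1b' f1a f1b k1a pm)
open Vale.Agent.P281Z.Hg.G1H (at_tg zp)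
open Vale.Agent.P272.K (Cm Chart At)

variable {N n : ℕ} {C : Set (E N)} {M : Type}
  [TopologicalSpace M] [ChartedSpace (Cm n) M] [T2Space M] [CompactSpace M]
  [IsManifold 𝓘(ℂ, Cm n) ω M] {ε : M → TT N}
  {b : Chart n M → E N} {σ : Chart n M → Cm n → E N} {p : Chart n M → E N → Cm n}
  {u v : SM N} {β γ : SG n M} {X : P281Z.Hg.Cx (SG n M) n} {e e' : Chart n M} {m : M}

theorem Ps_add (h : Ps σ u β) (h' : Ps σ v γ) : Ps σ (u + v) (β + γ) := fun e m hm => by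
  rw [P281Z.Hg.vl_add, h e m hm, h' e m hm, map_add]; rfl

theorem Ps_smul (c : ℂ) (h : Ps σ u β) : Ps σ (c • u) (c • β) := fun e m hm => by
  rw [P281Z.Hg.vl_smul, h e m hm, map_smul]; rfl

theorem Ps_zero : Ps σ (0 : SM N) (0 : SG n M) := fun e m _ => by rw [map_zero]; rfl

theorem Ps_sum {ι : Type} (s : Finset ι) {u : ι → SM N} {β : ι → SG n M}
    (h : ∀ i ∈ s, Ps σ (u i) (β i)) : Ps σ (∑ i ∈ s, u i) (∑ i ∈ s, β i) := by
  classical
  induction s using Finset.induction_on with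
  | empty => exact Ps_zero
  | insert a s ha ih =>
    rw [Finset.sum_insert ha, Finset.sum_insert ha]
    exact Ps_add (h a (by simp)) (ih fun i hi => h i (by simp [hi]))

theorem Ps_unique (h : Ps σ u β) (h' : Ps σ u γ) : β = γ :=
  P281Z.Hg.G1H.ext _ _ fun m => ⟨_, at_chart m, (h _ m (at_chart m)).trans (h' _ m (at_chart m)).symm⟩

theorem pm_fk_self {j : ℕ} {a : Λ N} (ha : a ∈ Eg true j) : pm (N + 1) j *ᵥ fk a = fk a := by
  funext I
  have h := ExT.fk_num true a I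
  simp only [mem_Eg.1 ha, map_smul, true_eq_decide_iff, Finset.sum_boole] at h
  rw [pm, Matrix.mulVec_diagonal]
  split_ifs with e
  · exact one_mul _
  · exact (zero_mul _).trans ((mul_eq_mul_right_iff.1 h).resolve_left fun k =>
      e (by exact_mod_cast k.symm)).symm

theorem pm_fk {j : ℕ} {q : ℤ} {a : Λ N} (ha : a ∈ Dg (j + q)) :
    pm (N + 1) j *ᵥ fk a = fk (pt j q a) := by
  have h1 : pm (N + 1) j *ᵥ fk (a - pt j q a) = 0 := by
    rw [← sum_pt (a - _), map_sum, Matrix.mulVec_sum]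
    refine Finset.sum_eq_zero fun p' _ => ?_
    rw [map_sum, Matrix.mulVec_sum]
    refine Finset.sum_eq_zero fun q' _ => ?_
    by_cases e : (j : ℤ) = p'
    · rw [← e, map_sub, pt_of_mem (pt_mem j q a)]
      split_ifs with c
      · rw [c.2, sub_self, map_zero, Matrix.mulVec_zero]
      · rw [pt_of_Dg ha (by omega), sub_self, map_zero, Matrix.mulVec_zero]
    · exact fk_Eg (pt_mem p' q' _).1 e
  rwa [map_sub, Matrix.mulVec_sub, pm_fk_self (pt_mem j q a).1, sub_eq_zero] at h1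

namespace Mdl

variable (D : Mdl C ε b σ p)
include D

theorem sm_σ (k : At e m) : ContDiffAt ℝ ∞ (σ e) (e m) :=
  ((D.an e m k).contDiffAt (n := ∞)).restrict_scalars ℝ

theorem cpr_ev0 (hm : At e m) {y : E N} (hy : y ∈ C) (hy' : prP y = ε m) (h0 : σ e (e m) ≠ 0) :
    lf (b e) y ≠ 0 ∧ cpr (b e) y = σ e (p e y) := by
  obtain ⟨t, -, ht⟩ := exists_smul_of_prP h0 (hy'.trans (D.prp e m hm).symm)
  have h1 := D.lf1 e m hm
  rw [← ht, map_smul, smul_eq_mul] at h1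
  rw [D.peq e m hm y hy hy', ← ht, cpr, eq_inv_of_mul_eq_one_left h1]
  exact ⟨right_ne_zero_of_mul_eq_one h1, rfl⟩

theorem ne (k : At e m) : σ e (e m) ≠ 0 := fun h0 => by
  have := D.lf1 e m k
  rw [h0, map_zero] at this
  exact zero_ne_one this

theorem cpr_eq (hm : At e m) {y : E N} (hy : y ∈ C) (hy' : prP y = ε m) :
    lf (b e) y ≠ 0 ∧ cpr (b e) y = σ e (p e y) := D.cpr_ev0 hm hy hy' (D.ne hm)

theorem cpr_σ (k : At e m) (k' : At e' m) :
    lf (b e') (σ e (e m)) ≠ 0 ∧ cpr (b e') (σ e (e m)) = σ e' (e' m) := by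
  have := D.cpr_eq k' (D.mem e m k) (D.prp e m k)
  rwa [D.peq e' m k' _ (D.mem e m k) (D.prp e m k)] at this

theorem exists_Ps {k : ℤ} (hu : u ∈ Ak k) : ∃ β, Ps σ u β := by
  refine (P281Z.Hg.G1H.mkf (ps σ u) (fun e m h => k1b'.pbk_smooth (u := fun y => fk (u.1 y))
    (D.sm_σ h) (sm_fk (u.sm (D.ne h)))) fun e e' m h h' => ?_).imp
      fun _ k e m h => k e h.1 _ (e.map_source h.2)
  obtain ⟨h1, h2⟩ := D.cpr_σ h h'
  have h3 := sm_diff (an_sm (an_cpr h1))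
  have h4 := lr_jc_comp (φ := σ e') (sm_diff (P281Z.Hg.G1H.tr_sm h h'))
    (by rw [e.left_inv h.2]; exact sm_diff (D.sm_σ h'))
  rw [e.left_inv h.2] at h4
  rw [ps_apply, ps_apply, ← pb_cpr_eq hu h1 (D.ne h), fk_pb h3, pbk, h2,
    Matrix.mulVec_mulVec, Matrix.mulVec_mulVec, ← lr_jc_comp (sm_diff (D.sm_σ h)) h3]
  refine congrArg (· *ᵥ _) (Eq.trans (lr_jc_id ?_) h4)
  filter_upwards [ev_at h h'] with z k
  rw [← (D.cpr_σ k.1 k.2.1).2, k.2.2]

theorem Ps_d (hX : RealX X) (hβ : Ps σ u β) : Ps σ (DD u) (X.d β) := fun e m h => by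
  have h0 := D.ne h
  have h1 : vl β e =ᶠ[𝓝 (e m)] ps σ u e := (ev_at h h).mono fun z k => k.2.2 ▸ hβ e _ k.1
  rw [hX.d β e m h, (k1a f1a f1b).congr h1, ps_eq, k1b'.nat (D.sm_σ h) (sm_fk (u.sm h0)), pbk,
    ps_apply, DD_apply u h0, fk_dd (u.df h0)]

theorem Ps_dg (hX : RealX X) {k : ℕ} (hu : u ∈ Ak k) (hβ : Ps σ u β) : X.dg k β = β := by
  refine P281Z.Hg.G1H.ext _ _ fun m => ⟨_, at_chart m, ?_⟩
  have h := at_chart (n := n) m
  rw [hX.dg k β _ m h, hβ _ m h, ps_apply, Matrix.mulVec_mulVec, f1a.lr_dg,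
    ← Matrix.mulVec_mulVec, fk_Dg.1 (hu.2 _ (D.ne h))]

theorem Ps_PT {w} {K : KP X} (hK : RealK w K) {j : ℕ} {q : ℤ} (hu : u ∈ Ak (j + q))
    (hβ : Ps σ u β) : Ps σ (PT j q u) (K.pr j β) := fun e m h => by
  rw [hK.pr j β _ m h, hβ _ m h, ps_apply, Matrix.mulVec_mulVec,
    pm_lr_jc (D.an _ m h).differentiableAt, ← Matrix.mulVec_mulVec, pm_fk (hu.2 _ (D.ne h)),
    ps_apply, PT_apply]

variable (h : SubC C n)
include h

theorem cpr_ev (hm : At e m) {y : E N} (hy : y ∈ C) (hy' : prP y = ε m) :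
    ∀ᶠ z in 𝓝 y, z ∈ C → cpr (b e) z - σ e (p e z) = 0 := by
  obtain ⟨t, h1, h2⟩ := mem_comap.1 (D.emb.nhds_eq_comap m ▸ e.open_source.mem_nhds hm.2)
  filter_upwards [(sm_prP (h.ne _ hy)).continuousAt.tendsto.eventually (hy' ▸ h1)] with z h3 hz
  obtain ⟨m', h4⟩ := D.srj z hz
  exact sub_eq_zero.2 (D.cpr_eq ⟨hm.1, h2 (show ε m' ∈ t from h4 ▸ h3)⟩ hz h4.symm).2

theorem ps_of_nl (hm : At e m) (hu : u.1 (σ e (e m)) ∈ nl C (σ e (e m))) : ps σ u e (e m) = 0 := by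
  have ha := D.an e m hm
  obtain ⟨r, hr, hrx, hev⟩ := h.exists_retr (D.mem e m hm)
  have h1 : (σ e) =ᶠ[𝓝 (e m)] fun z => r (σ e z) := by
    filter_upwards [ha.continuousAt.tendsto.eventually hev,
      e.open_target.mem_nhds (e.map_source hm.2)] with z h2 h3
    have h4 := D.mem e (e.symm z) ⟨hm.1, e.map_target h3⟩
    rw [e.right_inv h3] at h4
    exact (h2.2.2 h4).1.symm
  have h2 : mp (tr (fderiv ℝ r (σ e (e m)))) (u.1 (σ e (e m))) = 0 := hu _ fun v => by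
    have h3 := hev.self_of_nhds.2.1 v
    rw [hrx] at h3
    rw [an_fderiv hr]; exact h3
  have d1 : DifferentiableAt ℝ r (σ e (e m)) := hr.differentiableAt.restrictScalars ℝ
  rw [ps_apply, lr_jc_id h1, lr_jc_comp (ha.differentiableAt.restrictScalars ℝ) d1,
    ← Matrix.mulVec_mulVec, ← fk_mp d1, h2, map_zero, Matrix.mulVec_zero]

theorem nl_of_ps {k : ℤ} (hu : u ∈ Ak k) (hm : At e m) (h0 : ps σ u e (e m) = 0) {y : E N}
    (hy : y ∈ C) (hy' : prP y = ε m) : u.1 y ∈ nl C y := by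
  obtain ⟨h1, h2⟩ := D.cpr_eq hm hy hy'
  have h3 := D.peq e m hm y hy hy'
  have d1 : DifferentiableAt ℝ (p e) y :=
    (D.pan e m hm y hy hy').differentiableAt.restrictScalars ℝ
  have d2 : DifferentiableAt ℝ (σ e) (p e y) :=
    h3 ▸ (D.an e m hm).differentiableAt.restrictScalars ℝ
  have d3 : DifferentiableAt ℝ (fun z => σ e (p e z)) y := d2.comp y d1
  have d4 : DifferentiableAt ℝ (cpr (b e)) y := (an_cpr h1).differentiableAt.restrictScalars ℝ
  have h4 : mp (tr (fderiv ℝ (fun z => σ e (p e z)) y)) (u.1 (cpr (b e) y)) = 0 := by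
    refine fk.injective ?_
    rw [fk_mp d3, lr_jc_comp d1 d2, ← Matrix.mulVec_mulVec, h2, h3, ← ps_apply, h0, map_zero,
      Matrix.mulVec_zero]
  rw [← pb_cpr_eq hu h1 (h.ne _ hy), pb, ← sub_zero (mp _ _), ← h4]
  refine mp_sub_nul (fun v hv => ?_) _
  have h6 := h.fderiv_tn hy (d4.fun_sub d3) (D.cpr_ev h hm hy hy') hv
  rw [fderiv_fun_sub d4 d3] at h6
  exact sub_eq_zero.1 h6

theorem Ps_nul (hu : u ∈ Nl C) (hβ : Ps σ u β) : β = 0 :=
  P281Z.Hg.G1H.ext _ _ fun m => ⟨_, at_chart m,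
    (hβ _ m (at_chart m)).trans (D.ps_of_nl h (at_chart m) (hu _ (D.mem _ m (at_chart m))))⟩

theorem Ps_inj {k : ℤ} (hu : u ∈ Ak k) (hβ : Ps σ u 0) : u ∈ Nl C := by
  intro y hy
  obtain ⟨m, hm⟩ := D.srj y hy
  exact D.nl_of_ps h hu (at_chart m) (hβ _ m (at_chart m)).symm hy hm.symm

theorem Ps_loc (hX : RealX X) {k : ℕ} (hβ : X.dg k β = β) (hm : At e m) :
    ∃ u ∈ Ak k, ∀ᶠ z in 𝓝 (e m), vl β e z = ps σ u e z := by
  have x0 := D.ne hm
  have tg := e.open_target.mem_nhds (e.map_source hm.2)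
  have pa := D.pan e m hm _ (D.mem e m hm) (D.prp e m hm)
  obtain ⟨u, hu, e₁⟩ := exists_ext_Ak (k := k) x0 (w := fun y => fk.symm (pbk (p e) (vl β e) y)) (by
    filter_upwards [pa.eventually_analyticAt, pa.continuousAt.eventually_mem
      ((D.peq e m hm _ (D.mem e m hm) (D.prp e m hm)).symm ▸ tg)] with y a c
    have s := (vl_isF β).sm e _ (at_tg hm.1 c)
    have g := hX.dg k β e _ (at_tg hm.1 c)
    rw [e.right_inv c] at s g
    refine ⟨sm_fk_symm (k1b'.pbk_smooth (an_sm a) s), fk_Dg.2 ?_⟩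
    rw [LinearEquiv.apply_symm_apply, pbk, Matrix.mulVec_mulVec, f1a.lr_dg, ← Matrix.mulVec_mulVec,
      ← g, hβ])
  have c := (D.an e m hm).continuousAt
  have k : ∀ᶠ z in 𝓝 (e m), lf (σ e (e m)) (σ e z) ≠ 0 ∧ AnalyticAt ℂ (σ e) z ∧
      AnalyticAt ℂ (p e) (cpr (σ e (e m)) (σ e z)) ∧ p e (cpr (σ e (e m)) (σ e z)) = z := by
    filter_upwards [tg, c.eventually (lf_ne_ev x0)] with z a l
    have t := at_tg hm.1 a
    have q := (h.smul_iff (inv_ne_zero l)).2 (e.right_inv a ▸ D.mem e _ t)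
    have r := (prP_smul (inv_ne_zero l) _).trans (e.right_inv a ▸ D.prp e _ t)
    exact ⟨l, e.right_inv a ▸ D.an e _ t, D.pan e _ t _ q r,
      (D.peq e _ t _ q r).trans (e.right_inv a)⟩
  refine ⟨u, hu, ?_⟩
  filter_upwards [k.eventually_nhds, c.eventually e₁] with z a g
  obtain ⟨a₁, a₂, a₃, a₄⟩ := a.self_of_nhds
  have d₁ := sm_diff (an_sm (an_cpr a₁))
  have d₂ := a₂.differentiableAt.restrictScalars ℝ
  rw [ps_apply, g, fk_pb d₁, pbk, LinearEquiv.apply_symm_apply, pbk, Matrix.mulVec_mulVec,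
    Matrix.mulVec_mulVec, ← lr_jc_comp d₂ d₁,
    ← lr_jc_comp (ψ := fun y => cpr _ (σ e y)) (d₁.comp z d₂) (sm_diff (an_sm a₃)),
    lr_jc_one (a.mono fun _ k => k.2.2.2), Matrix.one_mulVec, a₄]

theorem Ps_surj (hX : RealX X) {k : ℕ} (hβ : X.dg k β = β) : ∃ u ∈ Ak k, Ps σ u β := by
  obtain ⟨u, hu, a⟩ := (dR h).fine.glue (Vt n ε) (ps σ) (vl β) k
    (fun _ u a => Eventually.mono a fun _ c m hm e he => D.ps_of_nl h he
      (c _ (D.ne he) ((D.prp e m he).trans hm) (D.mem e m he)))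
    (fun _ _ a => eventually_eventually_nhds.2 a)
    (fun _ u hu a => Eventually.mono a fun _ c y _ e hy =>
      let ⟨m, hm⟩ := D.srj y hy
      D.nl_of_ps h hu (at_chart m) (c m (hm.trans e) _ (at_chart m)) hy hm.symm)
    (fun t => by
      rcases h.X_cases t with a | ⟨x, hx, rfl⟩
      · exact ⟨0, zero_mem _, Eventually.mono a fun _ c m hm e he =>
          (c _ (D.ne he) ((D.prp e m he).trans hm) (D.mem e m he)).elim⟩
      obtain ⟨m, hm⟩ := D.srj x hx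
      have t : At (chartAt (Cm n) m) m := at_chart m
      obtain ⟨u, hu, a⟩ := D.Ps_loc h hX hβ t
      obtain ⟨γ, c⟩ := D.exists_Ps hu
      refine ⟨u, hu, hm ▸ eventually_comap.1 (D.emb.isInducing.nhds_eq_comap m ▸ ?_)⟩
      filter_upwards [((chartAt _ m).continuousAt t.2).eventually a,
        (chartAt _ m).open_source.mem_nhds t.2] with m' g s e he
      exact (congrArg (_ - ·) (c e m' he).symm).trans (zp (β - γ) ⟨t.1, s⟩
        (sub_eq_zero.2 (g.trans (c _ m' ⟨t.1, s⟩).symm)) e he))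
    ⟨KK N, isCompact_KK, fun t ht => eq_top_iff.2 fun _ _ => by
      filter_upwards [isCompact_KK.isClosed.isOpen_compl.mem_nhds ht] with _ a m hm e he
      exact (a (hm ▸ D.prp e m he ▸ prP_mem_KK (D.ne he))).elim⟩
  exact ⟨u, hu, fun e m hm => sub_eq_zero.1 ((a (ε m)).self_of_nhds m rfl e hm)⟩

end Mdl

end Vale.Agent.P287Q.Hb
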