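import Vale.Agent.P287Q.Hb.Typ
import Vale.Agent.P287Q.Hb.Ps
import Vale.Agent.P287Q.Hb.Mdl
import Vale.Agent.P287Q.Hb.Kah
import Vale.Agent.P287Q.Hb.KA
import Vale.Agent.P287Q.Mf.Api

/-!
# The Hodge decomposition of a smooth projective variety
-/

namespace Vale.Agent.P287Q.Hb

open P291Z P269.Hdg P269.Hdg.Ex P269.Coh

variable {N n : ℕ} {C : Set (E N)} (h : SubC C n)

/-- Closed forms are cohomologous to sums of closed forms of pure type. -/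
theorem form_dec {k : ℕ} {u : SM N} (hu : u ∈ (dR h).sh.gl.Z k) : ∃ v : ℕ → SM N,
    (∀ j, v j ∈ (dR h).sh.gl.Z k ∧ v j ∈ Om j (k - j)) ∧
      u - ∑ j ∈ Finset.range (n + 1), v j ∈ (dR h).sh.gl.B k := by
  obtain ⟨M, _, _, _, _, ε, b, σ, p, D⟩ := exists_mdl h
  obtain ⟨w, hw⟩ := D.exists_isKahler h
  obtain ⟨X, K, hX, ok, hK, ha, k1, k2, hd⟩ := kahler_all hw
  obtain ⟨h1, h2⟩ := (dR_Z h).1 hu
  obtain ⟨β, hβ⟩ := D.exists_Ps h1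
  obtain ⟨s, y, hs, hy, h0, e⟩ := ka_dec ha k1 k2 ok hd
    (⟨D.Ps_nul h h2 (D.Ps_d hX hβ), D.Ps_dg hX h1 hβ⟩ : X.Cl k β)
  choose a a1 a2 using fun j => D.Ps_surj h hX (hs j).1.2
  have a3 : ∀ j : ℕ, Ps σ (PT j (k - j) (a j)) (s j) := fun j => by
    have := D.Ps_PT hK (j := j) (q := k - j) (by simpa using a1 j) (a2 j)
    rwa [(hs j).2] at this
  obtain ⟨c, c1, c2⟩ : ∃ c ∈ Ak ((k : ℤ) - 1), Ps σ c y := by
    cases k with
    | zero => exact ⟨0, zero_mem _, h0 rfl ▸ Ps_zero⟩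
    | succ k => simpa using D.Ps_surj h hX hy
  refine ⟨fun j => PT j (k - j) (a j), fun j => ⟨(dR_Z h).2 ⟨PT_Ak (a1 j) _ _,
    D.Ps_inj h (DD_Ak (PT_Ak (a1 j) _ _)) ((hs j).1.1 ▸ D.Ps_d hX (a3 j))⟩, (a1 j).1 _ _⟩,
    (dR_B h).2 ⟨c, c1, D.Ps_inj h (k := k) (u := u - _ - DD c) (sub_mem (sub_mem h1
      (Submodule.sum_mem _ fun j _ => PT_Ak (a1 j) _ _)) (by simpa using DD_Ak c1)) ?_⟩⟩
  have := (hβ.sub (Ps_sum (Finset.range (n + 1)) fun j _ => a3 j)).sub (D.Ps_d hX c2)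
  rwa [sub_sub β, ← e, sub_self] at this

variable {X : Type} [TopologicalSpace X] {π : C → X} (hπ : IsProj π)
include h hπ

theorem HT_span (c : H X) : c ∈ ⨆ i : ℤ × ℤ, HT C π i.1 i.2 := by
  refine H.induction_deg c (zero_mem _) (fun _ _ => add_mem) fun k => ?_
  have hc : H.IsDeg k (H.comp k c) := H.isDeg_comp k c
  by_cases hk : k < 0
  · rw [hc.eq_zero hk]; exact zero_mem _
  lift k to ℕ using not_lt.1 hk
  obtain ⟨x, hx⟩ := (cmp_range h hπ).2 hc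
  obtain ⟨u, hu, rfl⟩ := Cx.exists_cl x
  obtain ⟨v, hv, e⟩ := form_dec h hu
  have h1 : ∀ s : Finset ℕ, ∃ hs : ∑ j ∈ s, v j ∈ (dR h).sh.gl.Z k,
      cmp h hπ k (Cx.cl _ hs) ∈ ⨆ i : ℤ × ℤ, HT C π i.1 i.2 := fun s => by
    refine Finset.sum_induction v (fun t => ∃ hs : t ∈ (dR h).sh.gl.Z k,
      cmp h hπ k (Cx.cl _ hs) ∈ ⨆ i : ℤ × ℤ, HT C π i.1 i.2) ?_ ⟨zero_mem _, ?_⟩ fun j _ => ?_
    · rintro a b ⟨ha, k1⟩ ⟨hb, k2⟩
      exact ⟨add_mem ha hb, (map_add (cmp h hπ k) (Cx.cl a ha) (Cx.cl b hb) ▸ add_mem k1 k2 :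
        cmp h hπ k (Cx.cl a ha + Cx.cl b hb) ∈ _)⟩
    · rw [cmp_nul h hπ _ (zero_mem _)]; exact zero_mem _
    · obtain ⟨k1, k2⟩ := cmp_cast h hπ (add_sub_cancel (j : ℤ) k).symm (hv j).1
      exact ⟨(hv j).1, Submodule.mem_iSup_of_mem ((j : ℤ), (k : ℤ) - j)
        ((mem_HT_iff h hπ).2 ⟨_, k1, (hv j).2, k2⟩)⟩
  obtain ⟨hs, h2⟩ := h1 (Finset.range (n + 1))
  rwa [← hx, (Cx.cl_eq_cl hu hs).2 e]

omit h hπ in
theorem HT_cj {W : Type} [NormedAddCommGroup W] [NormedSpace ℂ W] {S : Set W} {π : S → X}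
    {p q : ℤ} {c : H X} (hc : c ∈ HT S π p q) : P269.Mono.cj c ∈ HT S π q p := by
  unfold HT at hc ⊢
  by_cases k : 0 ≤ p ∧ 0 ≤ q
  · rw [if_pos k] at hc
    rw [if_pos k.symm]
    exact Mf.IsHd.cj hc
  · rw [if_neg k, Submodule.mem_bot] at hc
    rw [hc, map_zero]; exact zero_mem _

end Vale.Agent.P287Q.Hb

namespace Vale.Agent.P287Q.Hb

open P291Z P269.Hdg P269.Coh

/-- **The Hodge structure of a smooth projective variety.** -/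
theorem SubC.hg {N n : ℕ} {C : Set (E N)} (h : SubC C n) {Y : PS} {π : C → Y.X} (hπ : IsProj π)
    (hn : (n : ℤ) ≤ Y.n ∨ C = ∅) : HG Y (HT C π) where
  deg _ _ _ := HT_deg h hπ
  one := HT_one h hπ
  mul _ _ _ _ _ ha _ := HT_mul h hπ ha
  out p q k := by
    rcases hn with hn | rfl
    · exact HT_out h hπ (by omega)
    · have : IsEmpty Y.X := ⟨fun z => (sec hπ z).2⟩
      exact Subsingleton.elim _ _
  span := HT_span h hπ
  cj _ _ _ := HT_cj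

end Vale.Agent.P287Q.Hb
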